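import Vale.Agent.P286.H211.Laurent

/-! Birkhoff factorisation over a field. -/

namespace Vale.Agent.P286

open LaurentPolynomial Matrix

variable {F : Type*} [Field F] {N : ℕ}

/-- The monomial diagonal matrix `diag (T ^ (l i))`. -/
noncomputable def mono {A : Type*} [CommRing A] (l : Fin N → ℤ) : Matrix (Fin N) (Fin N) A[T;T⁻¹] :=
  Matrix.diagonal fun i => T (l i)

section
variable {A : Type*} [CommRing A] {B : Type*} [CommRing B]

theorem mono_mul (l l' : Fin N → ℤ) :
    (mono l : Matrix (Fin N) (Fin N) A[T;T⁻¹]) * mono l' = mono (l + l') := by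
  simp only [mono, Matrix.diagonal_mul_diagonal]
  congr 1; ext1 i; rw [Pi.add_apply, T_add]

theorem mono_zero : (mono 0 : Matrix (Fin N) (Fin N) A[T;T⁻¹]) = 1 := by
  simp [mono, T_zero]

theorem mono_mul_neg (l : Fin N → ℤ) :
    (mono l : Matrix (Fin N) (Fin N) A[T;T⁻¹]) * mono (-l) = 1 := by
  rw [mono_mul, add_neg_cancel, mono_zero]

theorem mono_neg_mul (l : Fin N → ℤ) :
    (mono (-l) : Matrix (Fin N) (Fin N) A[T;T⁻¹]) * mono l = 1 := by
  rw [mono_mul, neg_add_cancel, mono_zero]

theorem prod_T {ι : Type*} (s : Finset ι) (l : ι → ℤ) : ∏ i ∈ s, (T (l i) : A[T;T⁻¹]) = T (∑ i ∈ s, l i) := by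
  classical
  induction s using Finset.induction_on with
  | empty => simp [T_zero]
  | insert a s ha ih => rw [Finset.prod_insert ha, Finset.sum_insert ha, ih, T_add]

theorem det_mono (l : Fin N → ℤ) : (mono l : Matrix (Fin N) (Fin N) A[T;T⁻¹]).det = T (∑ i, l i) := by
  rw [mono, Matrix.det_diagonal, prod_T]

theorem mp_mono (f : A →+* B) (l : Fin N → ℤ) : mp f (mono l) = mono l := by
  ext1 i j
  rw [mp_apply, mono, mono, Matrix.diagonal_apply, Matrix.diagonal_apply]
  split_ifs
  · rw [LaurentPolynomial.T, AddMonoidAlgebra.mapRingHom_single, map_one]; rfl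
  · simp

end

/-- **Birkhoff factorisation** over a field, for matrices with determinant a power of `T`. -/
theorem birkhoff (g gi : Matrix (Fin N) (Fin N) F[T;T⁻¹]) (h1 : g * gi = 1) {k : ℤ}
    (hg : g.det = T k) :
    ∃ (a b : Matrix (Fin N) (Fin N) F[T;T⁻¹]) (l : Fin N → ℤ), MGE 0 a ∧ a.det = 1 ∧
      MLE 0 b ∧ b.det = 1 ∧ a * g = mono l * b ∧ ∑ i, l i = k := by
  have h2 : gi * g = 1 := mul_eq_one_comm.mp h1
  have hgi : gi.det = T (-k) := by
    have : g.det * gi.det = 1 := by rw [← Matrix.det_mul, h1, Matrix.det_one]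
    rw [hg] at this
    calc gi.det = T (-k) * (T k * gi.det) := by rw [← mul_assoc, ← T_add]; simp [T_zero]
      _ = T (-k) := by rw [this, mul_one]
  classical
  let P : ℤ → Prop := fun σ => ∃ (A : Matrix (Fin N) (Fin N) F[T;T⁻¹]) (δ : Fin N → ℤ),
    MGE 0 A ∧ A.det = 1 ∧ (∀ i j, LE (δ j) ((gi * A) i j)) ∧ σ = ∑ j, δ j
  have hB : ∀ (A : Matrix (Fin N) (Fin N) F[T;T⁻¹]) (δ : Fin N → ℤ),
      (∀ i j, LE (δ j) ((gi * A) i j)) → MLE 0 (gi * A * mono (-δ)) := by
    intro A δ h i j
    rw [mono, Matrix.mul_diagonal]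
    have := (h i j).mul (LE.T (R := F) (-δ j))
    simpa using this
  have hdet : ∀ (A : Matrix (Fin N) (Fin N) F[T;T⁻¹]) (δ : Fin N → ℤ), A.det = 1 →
      (gi * A * mono (-δ)).det = T (-k - ∑ j, δ j) := by
    intro A δ h
    rw [Matrix.det_mul, Matrix.det_mul, hgi, h, det_mono, mul_one, ← T_add]
    simp [sub_eq_add_neg]
  have hlow : ∀ σ, P σ → -k ≤ σ := by
    rintro σ ⟨A, δ, hA, hA1, hδ, rfl⟩
    by_contra hlt
    have h := (hB A δ hδ).det.1
    rw [hdet A δ hA1] at h
    have := h (-k - ∑ j, δ j) (by omega)
    simp at this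
  obtain ⟨σ, ⟨A, δ, hA, hA1, hδ, hσ⟩, hmin⟩ := Int.exists_least_of_bdd (P := P) ⟨-k, hlow⟩ (by
    obtain ⟨n, hn⟩ := exists_MLE gi
    exact ⟨_, 1, fun _ => n, MGE.one, Matrix.det_one, fun i j => by simpa using hn i j, rfl⟩)
  set B := gi * A * mono (-δ) with hBdef
  have hBL : MLE 0 B := hB A δ hδ
  -- the leading matrix is invertible
  have hC : (cf 0 B).det ≠ 0 := by
    intro h0
    obtain ⟨c, hc0, hc⟩ := Matrix.exists_mulVec_eq_zero_iff.mpr h0
    obtain ⟨i0, hi0, hmax⟩ : ∃ i0, c i0 ≠ 0 ∧ ∀ j, c j ≠ 0 → δ j ≤ δ i0 := by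
      have hne : (Finset.univ.filter fun i => c i ≠ 0).Nonempty := by
        obtain ⟨i, hi⟩ := Function.ne_iff.mp hc0
        exact ⟨i, by simpa using hi⟩
      obtain ⟨i, hi, him⟩ := Finset.exists_max_image _ δ hne
      exact ⟨i, by simpa using hi, fun j hj => him j (by simpa using hj)⟩
    let s : Fin N → F[T;T⁻¹] := fun j => LaurentPolynomial.C (c j / c i0) * T (δ i0 - δ j)
    have hs0 : s i0 = 1 := by simp [s, div_self hi0, T_zero]
    have hsj : ∀ j, c j = 0 → s j = 0 := fun j hj => by simp [s, hj]
    let A' := A.updateCol i0 (fun k => ∑ i, s i • A k i)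
    let δ' := Function.update δ i0 (δ i0 - 1)
    have : P (∑ j, δ' j) := by
      refine ⟨A', δ', ?_, ?_, ?_, rfl⟩
      · intro p q
        show GE 0 ((A.updateCol i0 (fun k => ∑ i, s i • A k i)) p q)
        rw [Matrix.updateCol_apply]
        split_ifs
        · refine GE.sum _ fun j _ => ?_
          by_cases hj : c j = 0
          · rw [hsj j hj, zero_smul]; exact GE.zero _
          · have h1 := ((GE.C (c j / c i0)).mul (GE.T (R := F) (δ i0 - δ j))).mul (hA p j)
            exact h1.mono (by have := hmax j hj; omega)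
        · exact hA p q
      · rw [Matrix.det_updateCol_sum, hs0, one_smul, hA1]
      · intro p q
        have hcol : (gi * A') p q = if q = i0 then ∑ j, s j * (gi * A) p j else (gi * A) p q := by
          rw [Matrix.mul_apply]
          split_ifs with hq
          · subst hq
            simp only [A', Matrix.updateCol_self, Finset.mul_sum, Matrix.mul_apply, smul_eq_mul]
            rw [Finset.sum_comm]
            refine Finset.sum_congr rfl fun j _ => Finset.sum_congr rfl fun r _ => by ring
          · rw [Matrix.mul_apply]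
            refine Finset.sum_congr rfl fun r _ => ?_
            simp only [A', Matrix.updateCol_ne hq]
        rw [hcol]
        by_cases hq : q = i0
        · subst hq
          rw [if_pos rfl]
          have hδ' : δ' q = δ q - 1 := by simp [δ']
          rw [hδ']
          have hle : ∀ j, LE (δ q) (s j * (gi * A) p j) := by
            intro j
            have h1 := ((LE.C (c j / c q)).mul (LE.T (R := F) (δ q - δ j))).mul (hδ p j)
            exact h1.mono (by omega)
          have hco : ∀ j, (s j * (gi * A) p j).coeff (δ q) = c j / c q * (cf 0 B) p j := by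
            intro j
            have h1 := ((LE.C (c j / c q)).mul (LE.T (R := F) (δ q - δ j))).coeff_mul (hδ p j)
            have h2 := (LE.C (c j / c q)).coeff_mul (LE.T (R := F) (δ q - δ j))
            rw [h2] at h1
            have e : (0 : ℤ) + (δ q - δ j) + δ j = δ q := by ring
            rw [e] at h1
            rw [h1]
            have h3 : (cf 0 B) p j = ((gi * A) p j).coeff (δ j) := by
              rw [cf_apply, hBdef, mono, Matrix.mul_diagonal]
              have := (hδ p j).coeff_mul (LE.T (R := F) (-δ j))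
              simpa using this
            rw [h3]
            simp
          intro m hm
          rcases eq_or_lt_of_le (show δ q ≤ m by omega) with h | h
          · subst h
            rw [AddMonoidAlgebra.coeff_sum, Finsupp.finsetSum_apply]
            simp only [hco]
            have := congrFun hc p
            rw [Matrix.mulVec, dotProduct] at this
            rw [Pi.zero_apply] at this
            calc ∑ j, c j / c q * cf 0 B p j = (∑ j, cf 0 B p j * c j) / c q := by
                  rw [Finset.sum_div]
                  exact Finset.sum_congr rfl fun j _ => by ring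
              _ = 0 := by rw [this, zero_div]
          · exact LE.sum _ (fun j _ => hle j) m h
        · rw [if_neg hq]
          have hδ' : δ' q = δ q := by simp [δ', hq]
          rw [hδ']
          exact hδ p q
    have h1 := hmin _ this
    have h2 : ∑ j, δ' j = ∑ j, δ j - 1 := by
      rw [← Finset.add_sum_erase _ _ (Finset.mem_univ i0), ← Finset.add_sum_erase _ δ (Finset.mem_univ i0)]
      have : ∑ x ∈ Finset.univ.erase i0, δ' x = ∑ x ∈ Finset.univ.erase i0, δ x :=
        Finset.sum_congr rfl fun x hx => by simp [δ', Finset.ne_of_mem_erase hx]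
      rw [this]
      simp [δ']
      try ring
    omega
  have hsum : -k - ∑ j, δ j = 0 := by
    by_contra hne
    have h := hBL.det.2
    rw [hBdef, hdet A δ hA1, T_apply, if_neg hne] at h
    exact hC h.symm
  have hB1 : B.det = 1 := by rw [hBdef, hdet A δ hA1, hsum, T_zero]
  refine ⟨A.adjugate, B.adjugate, -δ, hA.adjugate, det_adjugate_one hA1, hBL.adjugate,
    det_adjugate_one hB1, ?_, ?_⟩
  · -- `A = g * B * mono δ`
    have h3 : g * B * mono δ = A := by
      rw [hBdef]
      calc g * (gi * A * mono (-δ)) * mono δ = (g * gi) * A * (mono (-δ) * mono δ) := by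
            simp only [Matrix.mul_assoc]
        _ = A := by rw [h1, mono_neg_mul, Matrix.one_mul, Matrix.mul_one]
    have h4 : A.adjugate * g * (B * mono δ) = 1 := by
      rw [← adjugate_mul_self hA1]
      nth_rewrite 3 [← h3]
      simp only [Matrix.mul_assoc]
    calc A.adjugate * g = A.adjugate * g * (B * mono δ) * (mono (-δ) * B.adjugate) := by
          have : (B * mono δ) * (mono (-δ) * B.adjugate) = 1 := by
            calc (B * mono δ) * (mono (-δ) * B.adjugate) = B * (mono δ * mono (-δ)) * B.adjugate := by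
                  simp only [Matrix.mul_assoc]
              _ = 1 := by rw [mono_mul_neg, Matrix.mul_one, self_mul_adjugate hB1]
          rw [Matrix.mul_assoc _ (B * mono δ), this, Matrix.mul_one]
      _ = mono (-δ) * B.adjugate := by rw [h4, Matrix.one_mul]
  · simp only [Pi.neg_apply, Finset.sum_neg_distrib]
    omega

end Vale.Agent.P286
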