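import Vale.Agent.P286.H527.Free

/-!
# A criterion for quasi-equivalences
-/

namespace Vale.Agent.P286

open CategoryTheory

section Localizer

universe v₁ v₂ u₁ u₂

variable {C₁ : Type u₁} {C₂ : Type u₂} [Category.{v₁} C₁] [Category.{v₂} C₂]
  {W₁ : MorphismProperty C₁} {W₂ : MorphismProperty C₂}

/-- Functors which are inverse to each other after localization. -/
theorem isLocalizedEquivalence_of_iso (Φ : LocalizerMorphism W₁ W₂) (Ψ : LocalizerMorphism W₂ W₁)
    (e₁ : (Φ.functor ⋙ Ψ.functor) ⋙ W₁.Q ≅ W₁.Q) (e₂ : (Ψ.functor ⋙ Φ.functor) ⋙ W₂.Q ≅ W₂.Q) :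
    Φ.IsLocalizedEquivalence where
  isEquivalence := by
    refine (Localization.equivalence W₁.Q W₁ W₂.Q W₂ (Φ.functor ⋙ W₂.Q)
      (Φ.localizedFunctor W₁.Q W₂.Q)
      (Ψ.functor ⋙ W₁.Q) (Ψ.localizedFunctor W₂.Q W₁.Q) ?_ ?_).isEquivalence_functor
    · exact Functor.associator _ _ _ ≪≫
        Functor.isoWhiskerLeft _ (CatCommSq.iso Ψ.functor W₂.Q W₁.Q _).symm ≪≫
        (Functor.associator _ _ _).symm ≪≫ e₁
    · exact Functor.associator _ _ _ ≪≫
        Functor.isoWhiskerLeft _ (CatCommSq.iso Φ.functor W₁.Q W₂.Q _).symm ≪≫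
        (Functor.associator _ _ _).symm ≪≫ e₂

/-- A natural transformation `𝟭 ⟶ F` with values in `W` becomes invertible after localization. -/
theorem nonempty_iso_of_unit {C : Type u₁} [Category.{v₁} C] (W : MorphismProperty C) {F : C ⥤ C}
    (η : 𝟭 C ⟶ F) (h : ∀ X, W (η.app X)) : Nonempty (F ⋙ W.Q ≅ W.Q) := by
  have : IsIso (Functor.whiskerRight η W.Q) := by
    rw [NatTrans.isIso_iff_isIso_app]
    exact fun _ ↦ Localization.inverts W.Q W _ (h _)
  exact ⟨(asIso (Functor.whiskerRight η W.Q)).symm ≪≫ Functor.leftUnitor _⟩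

/-- A natural transformation `F ⟶ 𝟭` with values in `W` becomes invertible after localization. -/
theorem nonempty_iso_of_counit {C : Type u₁} [Category.{v₁} C] (W : MorphismProperty C) {F : C ⥤ C}
    (η : F ⟶ 𝟭 C) (h : ∀ X, W (η.app X)) : Nonempty (F ⋙ W.Q ≅ W.Q) := by
  have : IsIso (Functor.whiskerRight η W.Q) := by
    rw [NatTrans.isIso_iff_isIso_app]
    exact fun _ ↦ Localization.inverts W.Q W _ (h _)
  exact ⟨(asIso (Functor.whiskerRight η W.Q)) ≪≫ Functor.leftUnitor _⟩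

end Localizer

namespace TCx

variable {T T' : Site} {s s' : ℂ}

/-- The map on sections of a morphism of complexes. -/
def hom {K L : TCx T s} (u : K ⟶ L) (X : T.C) (j : ℤ) : K.obj j X →+ L.obj j X :=
  (TDMod.Hom.app (HomologicalComplex.Hom.f u j) X).toAddMonoidHom

theorem d_hom {K L : TCx T s} (u : K ⟶ L) (X : T.C) (i j : ℤ) (x : K.obj i X) :
    L.d X i j (hom u X i x) = hom u X j (K.d X i j x) := by
  have h : HomologicalComplex.Hom.f u i ≫ HomologicalComplex.d L i j =
      HomologicalComplex.d K i j ≫ HomologicalComplex.Hom.f u j := by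
    simp
  exact congrArg (fun f : HomologicalComplex.X K i ⟶ HomologicalComplex.X L j =>
    TDMod.Hom.app f X x) h

theorem Cyc.hom {K L : TCx T s} (u : K ⟶ L) {X : T.C} {j : ℤ} {z : K.obj j X} (h : K.Cyc X j z) :
    L.Cyc X j (hom u X j z) := by
  unfold Cyc at *
  rw [d_hom, h, map_zero]

theorem Bd.hom {K L : TCx T s} (u : K ⟶ L) {X : T.C} {j : ℤ} {z : K.obj j X} (h : K.Bd X j z) :
    L.Bd X j (hom u X j z) := by
  obtain ⟨y, rfl⟩ := h
  exact ⟨TCx.hom u X _ y, d_hom _ _ _ _ _⟩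

end TCx

/-- The quasi-isomorphisms in terms of cocycles and coboundaries. -/
theorem qis_iff {T : Site} {s : ℂ} {K L : TCx T s} (u : K ⟶ L) :
    qis T s u ↔ ∀ (X : T.C) (j : ℤ),
      (∀ z, K.Cyc X j z → L.Bd X j (TCx.hom u X j z) → K.Bd X j z) ∧
      (∀ z, L.Cyc X j z → ∃ z', K.Cyc X j z' ∧ L.Bd X j (z - TCx.hom u X j z')) := by
  constructor
  · intro h X j
    exact h X (j - 1) j (j + 1) (by ring) rfl
  · intro h X i j k hi hk
    obtain rfl : i = j - 1 := by omega
    subst hk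
    exact h X j

section

variable {T T' : Site} {s s' : ℂ}

/-- The functor on complexes defined by an additive functor. -/
abbrev mapCx (Φ : TDMod T s ⥤ TDMod T' s') [Φ.Additive] : TCx T s ⥤ TCx T' s' :=
  Φ.mapHomologicalComplex (ComplexShape.up ℤ)

/-- The morphism of complexes defined by a natural transformation `𝟭 ⟶ Φ ⋙ Ψ`. -/
def unitCx (Φ : TDMod T s ⥤ TDMod T' s') [Φ.Additive] (Ψ : TDMod T' s' ⥤ TDMod T s) [Ψ.Additive]
    (η : 𝟭 _ ⟶ Φ ⋙ Ψ) : 𝟭 _ ⟶ mapCx Φ ⋙ mapCx Ψ where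
  app K :=
    { f := fun i => η.app (HomologicalComplex.X K i)
      comm' := fun i j _ => (η.naturality (HomologicalComplex.d K i j)).symm }
  naturality K L u := by
    apply HomologicalComplex.hom_ext
    intro i
    exact η.naturality (HomologicalComplex.Hom.f u i)

/-- The morphism of complexes defined by a natural transformation `Φ ⋙ Ψ ⟶ 𝟭`. -/
def counitCx (Φ : TDMod T s ⥤ TDMod T' s') [Φ.Additive] (Ψ : TDMod T' s' ⥤ TDMod T s) [Ψ.Additive]
    (η : Φ ⋙ Ψ ⟶ 𝟭 _) : mapCx Φ ⋙ mapCx Ψ ⟶ 𝟭 _ where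
  app K :=
    { f := fun i => η.app (HomologicalComplex.X K i)
      comm' := fun i j _ => (η.naturality (HomologicalComplex.d K i j)).symm }
  naturality K L u := by
    apply HomologicalComplex.hom_ext
    intro i
    exact η.naturality (HomologicalComplex.Hom.f u i)

/-- `Φ ⋙ Ψ` is connected with the identity by a natural transformation (in one of the two
directions) which is a quasi-isomorphism on cartesian complexes. -/
def InverseUpToQis (Φ : TDMod T s ⥤ TDMod T' s') [Φ.Additive] (Ψ : TDMod T' s' ⥤ TDMod T s)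
    [Ψ.Additive] : Prop :=
  (∃ η : 𝟭 _ ⟶ Φ ⋙ Ψ, ∀ K, Cartesian K → qis T s ((unitCx Φ Ψ η).app K)) ∨
  (∃ η : Φ ⋙ Ψ ⟶ 𝟭 _, ∀ K, Cartesian K → qis T s ((counitCx Φ Ψ η).app K))

/-- A functor preserves cartesian complexes and quasi-isomorphisms of cartesian complexes. -/
structure PresCart (Φ : TDMod T s ⥤ TDMod T' s') [Φ.Additive] : Prop where
  cart : ∀ K : TCx T s, Cartesian K → Cartesian ((mapCx Φ).obj K)
  qis : ∀ (K L : TCx T s) (u : K ⟶ L), Cartesian K → Cartesian L → qis T s u →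
    qis T' s' ((mapCx Φ).map u)

/-- The functor on cartesian complexes. -/
abbrev PresCart.functor {Φ : TDMod T s ⥤ TDMod T' s'} [Φ.Additive] (h : PresCart Φ) :
    CartCx T s ⥤ CartCx T' s' :=
  (cartesian T' s').lift ((cartesian T s).ι ⋙ mapCx Φ) (fun K => h.cart K.obj K.property)

/-- The localizer morphism on cartesian complexes. -/
abbrev PresCart.localizer {Φ : TDMod T s ⥤ TDMod T' s'} [Φ.Additive] (h : PresCart Φ) :
    LocalizerMorphism (qisCart T s) (qisCart T' s') where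
  functor := h.functor
  map := fun K L u hu => h.qis K.obj L.obj u.hom K.property L.property hu

theorem InverseUpToQis.iso {Φ : TDMod T s ⥤ TDMod T' s'} [Φ.Additive]
    {Ψ : TDMod T' s' ⥤ TDMod T s} [Ψ.Additive] (h : InverseUpToQis Φ Ψ) (h₁ : PresCart Φ)
    (h₂ : PresCart Ψ) :
    Nonempty ((h₁.functor ⋙ h₂.functor) ⋙ (qisCart T s).Q ≅ (qisCart T s).Q) := by
  rcases h with ⟨η, hη⟩ | ⟨η, hη⟩
  · refine nonempty_iso_of_unit _ (F := h₁.functor ⋙ h₂.functor)
      { app := fun K => ObjectProperty.homMk ((unitCx Φ Ψ η).app K.obj)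
        naturality := ?_ } ?_
    · intro K L u
      apply ObjectProperty.hom_ext
      exact (unitCx Φ Ψ η).naturality u.hom
    · intro K
      exact hη K.obj K.property
  · refine nonempty_iso_of_counit _ (F := h₁.functor ⋙ h₂.functor)
      { app := fun K => ObjectProperty.homMk ((counitCx Φ Ψ η).app K.obj)
        naturality := ?_ } ?_
    · intro K L u
      apply ObjectProperty.hom_ext
      exact (counitCx Φ Ψ η).naturality u.hom
    · intro K
      exact hη K.obj K.property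

/-- The criterion for quasi-equivalences. -/
theorem quasiEquiv_of_inverse (Φ : TDMod T s ⥤ TDMod T' s') [Φ.Additive] [Φ.Linear ℂ]
    (Ψ : TDMod T' s' ⥤ TDMod T s) [Ψ.Additive] (hΦ : PresCart Φ) (hΨ : PresCart Ψ)
    (h₁ : InverseUpToQis Φ Ψ) (h₂ : InverseUpToQis Ψ Φ) : IsQuasiEquiv Φ where
  cart := hΦ.cart
  qis := hΦ.qis
  equiv := by
    obtain ⟨e₁⟩ := h₁.iso hΦ hΨ
    obtain ⟨e₂⟩ := h₂.iso hΨ hΦ
    exact isLocalizedEquivalence_of_iso hΦ.localizer hΨ.localizer e₁ e₂

end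

end Vale.Agent.P286
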