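import Vale.Agent.P286.St.ToT
import Vale.Agent.P286.H211.QE

/-!
# Comparison of the two descriptions of twisted `D`-modules
-/

namespace Vale.Agent.P286

open CategoryTheory

noncomputable section

namespace Br

variable {T : Site} {s : ℂ}

section Lin

variable {U : St.TSite}

theorem ap_add (M : St.Pre U) {X Y : U.C} (e : St.Arr U X Y) (m m' : M.S X) :
    M.ap e (m + m') = M.ap e m + M.ap e m' :=
  map_add (ModuleCat.Hom.hom (M.F.map (St.pa e))) m m'

theorem ap_zero (M : St.Pre U) {X Y : U.C} (e : St.Arr U X Y) : M.ap e (0 : M.S X) = 0 :=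
  map_zero (ModuleCat.Hom.hom (M.F.map (St.pa e)))

theorem ap_smul (M : St.Pre U) {X Y : U.C} (e : St.Arr U X Y) (c : ℂ) (m : M.S X) :
    M.ap e (c • m) = c • M.ap e m :=
  map_smul (ModuleCat.Hom.hom (M.F.map (St.pa e))) c m

theorem hm_add {M N : St.Pre U} (u : M ⟶ N) (X : U.C) (m m' : M.S X) :
    St.Pre.hm u X (m + m') = St.Pre.hm u X m + St.Pre.hm u X m' :=
  map_add (ModuleCat.Hom.hom (NatTrans.app (F := M.F) (G := N.F) u X)) m m'

theorem hm_smul {M N : St.Pre U} (u : M ⟶ N) (X : U.C) (c : ℂ) (m : M.S X) :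
    St.Pre.hm u X (c • m) = c • St.Pre.hm u X m :=
  map_smul (ModuleCat.Hom.hom (NatTrans.app (F := M.F) (G := N.F) u X)) c m

theorem hm_ap {M N : St.Pre U} (u : M ⟶ N) {X Y : U.C} (e : St.Arr U X Y) (m : M.S X) :
    St.Pre.hm u Y (M.ap e m) = N.ap e (St.Pre.hm u X m) := by
  have h := NatTrans.naturality (F := M.F) (G := N.F) u (St.pa e)
  exact congrArg (fun v : M.F.obj X ⟶ N.F.obj Y => ModuleCat.Hom.hom v m) h

/-- the module structure over functions -/
abbrev modR (M : St.Pre U) (hM : St.IsTD U M) (X : U.C) : Module (U.R X) (M.S X) where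
  smul a m := M.fn X a m
  one_smul m := by
    change M.fn X 1 m = m
    have h := (hM.dmod X).const 1 m
    rw [map_one, one_smul] at h
    exact h
  mul_smul a b m := (hM.dmod X).fn_mul a b m
  smul_zero a := ap_zero M _
  smul_add a m m' := ap_add M _ m m'
  add_smul a b m := (hM.dmod X).fn_add a b m
  zero_smul m := by
    change M.fn X 0 m = 0
    have h := (hM.dmod X).const 0 m
    rw [map_zero, zero_smul] at h
    exact h

end Lin

/-- From quiver representations to families of modules, on objects. -/
def Eobj (M : St.TD (T.toT s)) : TDMod T s where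
  M X := M.pre.S X
  grp X := inferInstance
  mod X := modR M.pre M.property X
  act X v m := M.pre.vf X v m
  act_add X v m m' := ap_add M.pre _ m m'
  add_act X v w m := (M.property.dmod X).vf_add v w m
  smul_act X a v m := (M.property.dmod X).vf_smul a v m
  leibniz X v a m := (M.property.dmod X).vf_fn v a m
  lie_act X v w m := (M.property.dmod X).vf_lie v w m
  map {X Y} φ :=
    { toFun := M.pre.tr φ
      map_zero' := ap_zero M.pre _
      map_add' := ap_add M.pre _ }
  map_smul {X Y} φ a m := (M.property.trans X Y φ).fn a m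
  map_id X m := M.property.id X m
  map_comp {X Y Z} φ ψ m := M.property.comp X Y Z φ ψ m
  map_act {X Y} φ w k c v h m := by
    let : Module (T.R Y) (M.pre.S Y) := modR M.pre M.property Y
    have h1 : (T.dl φ : T.R Y) • M.pre.vf Y w (M.pre.tr φ m) =
        (T.dl φ : T.R Y) • (∑ i, c i • M.pre.tr φ (M.pre.vf X (v i) m)) -
          s • w (T.dl φ : T.R Y) • M.pre.tr φ m := (M.property.trans X Y φ).vf w k c v h m
    have h2 : s • w (T.dl φ : T.R Y) • M.pre.tr φ m =
        algebraMap ℂ (T.R Y) s • w (T.dl φ : T.R Y) • M.pre.tr φ m :=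
      ((M.property.dmod Y).const s _).symm
    rw [h2] at h1
    have h3 := congrArg (fun x : M.pre.S Y => (((T.dl φ)⁻¹ : (T.R Y)ˣ) : T.R Y) • x) h1
    have e : (((T.dl φ)⁻¹ : (T.R Y)ˣ) : T.R Y) * (T.dl φ : T.R Y) = 1 := Units.inv_mul _
    have e2 : (((T.dl φ)⁻¹ : (T.R Y)ˣ) : T.R Y) * (algebraMap ℂ (T.R Y) s * w (T.dl φ : T.R Y)) =
        algebraMap ℂ (T.R Y) s * ((T.dl φ)⁻¹ : (T.R Y)ˣ) * w (T.dl φ : T.R Y) := by ring
    change M.pre.vf Y w (M.pre.tr φ m) = (∑ i, c i • M.pre.tr φ (M.pre.vf X (v i) m)) -
      (algebraMap ℂ (T.R Y) s * ((T.dl φ)⁻¹ : (T.R Y)ˣ) * w (T.dl φ : T.R Y)) • M.pre.tr φ m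
    simp only [smul_sub, smul_smul] at h3
    rw [e, one_smul, one_smul, e2] at h3
    exact h3
  map_cen X φ h m := M.property.cen X φ h m

/-- the underlying morphism of representations -/
def uh {U : St.TSite} {M N : St.TD U} (u : M ⟶ N) : M.pre ⟶ N.pre := InducedCategory.Hom.hom u

/-- From quiver representations to families of modules. -/
def E (T : Site) (s : ℂ) : St.TD (T.toT s) ⥤ TDMod T s where
  obj M := Eobj M
  map {M N} u :=
    { app := fun X =>
        { toFun := St.TD.hm u X
          map_add' := hm_add (uh u) X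
          map_smul' := fun a m => hm_ap (uh u) (.fn a) m }
      act := fun _ v m => hm_ap (uh u) (.vf v) m
      nat := fun φ m => hm_ap (uh u) (.tr φ) m }
  map_id _ := rfl
  map_comp _ _ := rfl

instance : (E T s).Additive where
  map_add := rfl

instance : (E T s).Linear ℂ where
  map_smul {M N} u c := by
    apply TDMod.hom_ext
    intro X m
    exact ((N.property.dmod X).const c _).symm

/-- the vector space of sections -/
abbrev modC (M : TDMod T s) (X : T.C) : Module ℂ (M.M X) :=
  Module.compHom (M.M X) (algebraMap ℂ (T.R X))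

/-- the vector space of sections -/
def vs (M : TDMod T s) (X : T.C) : ModuleCat.{0} ℂ :=
  letI := modC M X
  ModuleCat.of ℂ (M.M X)

theorem map_csmul (M : TDMod T s) {X Y : T.C} (φ : X ⟶ Y) (c : ℂ) (m : M.M X) :
    M.map φ (algebraMap ℂ (T.R X) c • m) = algebraMap ℂ (T.R Y) c • M.map φ m := by
  rw [M.map_smul, AlgHom.commutes]

/-- the maps defined by the arrows -/
def arr (M : TDMod T s) : ∀ {X Y : T.C}, St.Arr (T.toT s) X Y → (vs M X ⟶ vs M Y)
  | X, Y, .tr φ =>
    letI := modC M X
    letI := modC M Y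
    ModuleCat.ofHom
      { toFun := M.map φ
        map_add' := map_add _
        map_smul' := fun c m => map_csmul M (X := X) (Y := Y) φ c m }
  | X, _, .fn a =>
    letI := modC M X
    ModuleCat.ofHom
      { toFun := fun m => (show T.R X from a) • m
        map_add' := smul_add _
        map_smul' := fun c m => by
          change (show T.R X from a) • algebraMap ℂ (T.R X) c • m =
            algebraMap ℂ (T.R X) c • (show T.R X from a) • m
          rw [smul_comm] }
  | X, _, .vf v =>
    letI := modC M X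
    ModuleCat.ofHom
      { toFun := M.act X v
        map_add' := M.act_add X v
        map_smul' := fun c m => M.act_csmul X v c m }

/-- the quiver representation -/
def pre (M : TDMod T s) : St.Pre (T.toT s) :=
  Paths.lift (V := St.Vx (T.toT s)) (C := ModuleCat.{0} ℂ)
    { obj := fun X => vs M X
      map := fun e => arr M e }

theorem pre_ap (M : TDMod T s) {X Y : T.C} (e : St.Arr (T.toT s) X Y) :
    (pre M).ap e = St.mh (arr M e) := rfl

theorem M_add_smul (M : TDMod T s) {X : T.C} (a b : T.R X) (m : M.M X) :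
    (a + b) • m = a • m + b • m := add_smul a b m

theorem M_mul_smul (M : TDMod T s) {X : T.C} (a b : T.R X) (m : M.M X) :
    (a * b) • m = a • b • m := mul_smul a b m

theorem M_map_act (M : TDMod T s) {X Y : T.C} (φ : X ⟶ Y) (w : T.Der Y) (k : ℕ)
    (c : Fin k → T.R Y) (v : Fin k → T.Der X)
    (h : ∀ a : T.R X, w (T.res φ a) = ∑ i, c i * T.res φ (v i a)) (m : M.M X) :
    (T.dl φ : T.R Y) • M.act Y w (M.map φ m) =
      (T.dl φ : T.R Y) • (∑ i, c i • M.map φ (M.act X (v i) m)) -
        algebraMap ℂ (T.R Y) s • w (T.dl φ : T.R Y) • M.map φ m := by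
  rw [M.map_act φ w k c v h m, smul_sub]
  congr 1
  rw [smul_smul, smul_smul]
  congr 1
  have := Units.mul_inv (T.dl φ)
  linear_combination (algebraMap ℂ (T.R Y) s * w (T.dl φ : T.R Y)) * this

theorem isTD (M : TDMod T s) : St.IsTD (T.toT s) (pre M) where
  dmod X :=
    { const := fun c m => rfl
      fn_add := fun a b m => M_add_smul M (X := X) a b m
      fn_mul := fun a b m => M_mul_smul M (X := X) a b m
      vf_add := fun v w m => M.add_act X v w m
      vf_smul := fun a v m => M.smul_act X a v m
      vf_fn := fun v a m => M.leibniz X v a m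
      vf_lie := fun v w m => M.lie_act X v w m }
  trans X Y φ :=
    { fn := fun a m => M.map_smul φ a m
      vf := fun w k c v h m => M_map_act M (X := X) (Y := Y) φ w k c v h m }
  id X m := M.map_id X m
  comp X Y Z φ ψ m := M.map_comp φ ψ m
  cen X φ h m := M.map_cen X φ h m

theorem nat_paths {U : St.TSite} {M N : Paths (St.Vx U) ⥤ ModuleCat.{0} ℂ}
    (app : ∀ X : Paths (St.Vx U), M.obj X ⟶ N.obj X)
    (h : ∀ {X Y : St.Vx U} (e : X ⟶ Y), M.map ((Paths.of (St.Vx U)).map e) ≫
      app ((Paths.of (St.Vx U)).obj Y) =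
      app ((Paths.of (St.Vx U)).obj X) ≫ N.map ((Paths.of (St.Vx U)).map e))
    {X Y : Paths (St.Vx U)} (p : X ⟶ Y) :
    M.map p ≫ app Y = app X ≫ N.map p := by
  refine Paths.induction (V := St.Vx U)
    (P := fun {X Y} p => M.map p ≫ app Y = app X ≫ N.map p) ?_ ?_ p
  · intro v
    simp
  · intro u v w p q hp
    rw [Functor.map_comp, Functor.map_comp, Category.assoc, h q, ← Category.assoc, hp,
      Category.assoc]

/-- the linear map on sections -/
def lin {M N : TDMod T s} (f : M ⟶ N) (X : T.C) : vs M X ⟶ vs N X :=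
  letI := modC M X
  letI := modC N X
  ModuleCat.ofHom
    { toFun := TDMod.Hom.app f X
      map_add' := map_add _
      map_smul' := fun c m => map_smul (TDMod.Hom.app f X) (algebraMap ℂ (T.R X) c) m }

theorem app_smul {M N : TDMod T s} (f : M ⟶ N) {X : T.C} (a : T.R X) (m : M.M X) :
    TDMod.Hom.app f X (a • m) = a • TDMod.Hom.app f X m := map_smul _ a m

theorem lin_nat {M N : TDMod T s} (f : M ⟶ N) :
    ∀ {X Y : (T.toT s).C} (e : St.Arr (T.toT s) X Y), arr M e ≫ lin f Y = lin f X ≫ arr N e
  | X, Y, .tr φ => ModuleCat.hom_ext (LinearMap.ext fun m => TDMod.Hom.nat f (X := X) (Y := Y) φ m)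
  | X, _, .fn a => ModuleCat.hom_ext (LinearMap.ext fun m => app_smul f (X := X) a m)
  | X, _, .vf v => ModuleCat.hom_ext (LinearMap.ext fun m => TDMod.Hom.act f X v m)

/-- the underlying functor of the representation -/
def preF (M : TDMod T s) : Paths (St.Vx (T.toT s)) ⥤ ModuleCat.{0} ℂ :=
  Paths.lift
    { obj := fun X => vs M X
      map := fun e => arr M e }

/-- the natural transformation -/
def preMap {M N : TDMod T s} (f : M ⟶ N) : preF M ⟶ preF N where
  app X := lin f X
  naturality X Y p := by
    refine nat_paths (U := T.toT s) (M := preF M) (N := preF N) (fun X => lin f X) ?_ p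
    intro X Y e
    have h1 : (preF M).map ((Paths.of (St.Vx (T.toT s))).map e) = arr M e := Paths.lift_toPath _ e
    have h2 : (preF N).map ((Paths.of (St.Vx (T.toT s))).map e) = arr N e := Paths.lift_toPath _ e
    rw [h1, h2]
    exact lin_nat f e

/-- From families of modules to quiver representations. -/
def F (T : Site) (s : ℂ) : TDMod T s ⥤ St.TD (T.toT s) where
  obj M := ⟨pre M, isTD M⟩
  map {M N} f := ObjectProperty.homMk (P := St.IsTD (T.toT s)) (preMap f)
  map_id M := rfl
  map_comp f g := rfl

instance : (F T s).Additive where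
  map_add := rfl

instance : (F T s).Linear ℂ where
  map_smul _ _ := rfl

/-- one composite -/
def FE (T : Site) (s : ℂ) : F T s ⋙ E T s ≅ 𝟭 (TDMod T s) :=
  NatIso.ofComponents
    (fun M =>
      { hom :=
          { app := fun X => { toFun := fun m => m, map_add' := fun _ _ => rfl, map_smul' := fun _ _ => rfl }
            act := fun _ _ _ => rfl
            nat := fun _ _ => rfl }
        inv :=
          { app := fun X => { toFun := fun m => m, map_add' := fun _ _ => rfl, map_smul' := fun _ _ => rfl }
            act := fun _ _ _ => rfl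
            nat := fun _ _ => rfl }
        hom_inv_id := rfl
        inv_hom_id := rfl })
    (fun _ => rfl)

/-- the comparison of the sections -/
def cmpI (N : St.TD (T.toT s)) (X : T.C) : vs (Eobj N) X ≅ N.pre.o X :=
  letI := modC (Eobj N) X
  LinearEquiv.toModuleIso
    { toFun := fun m => m
      invFun := fun m => m
      left_inv := fun _ => rfl
      right_inv := fun _ => rfl
      map_add' := fun _ _ => rfl
      map_smul' := fun c m => (N.property.dmod X).const c m }

theorem cmpI_nat (N : St.TD (T.toT s)) :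
    ∀ {X Y : (T.toT s).C} (e : St.Arr (T.toT s) X Y),
      arr (Eobj N) e ≫ (cmpI N Y).hom = (cmpI N X).hom ≫ N.pre.F.map (St.pa e)
  | X, Y, .tr φ => ModuleCat.hom_ext (LinearMap.ext fun m => rfl)
  | X, _, .fn a => ModuleCat.hom_ext (LinearMap.ext fun m => rfl)
  | X, _, .vf v => ModuleCat.hom_ext (LinearMap.ext fun m => rfl)

/-- the underlying functor of a representation -/
def uF (N : St.TD (T.toT s)) : Paths (St.Vx (T.toT s)) ⥤ ModuleCat.{0} ℂ := N.pre.F

/-- the comparison isomorphism -/
def preIso (N : St.TD (T.toT s)) : preF (Eobj N) ≅ uF N :=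
  NatIso.ofComponents (fun X => cmpI N X) (fun {X Y} p => by
    refine nat_paths (U := T.toT s) (M := preF (Eobj N)) (N := uF N) (fun X => (cmpI N X).hom) ?_ p
    intro X Y e
    have h1 : (preF (Eobj N)).map ((Paths.of (St.Vx (T.toT s))).map e) = arr (Eobj N) e :=
      Paths.lift_toPath _ e
    rw [h1]
    exact cmpI_nat N e)

/-- the other composite -/
def EF (T : Site) (s : ℂ) : E T s ⋙ F T s ≅ 𝟭 (St.TD (T.toT s)) :=
  NatIso.ofComponents
    (fun N => 
      { hom := ObjectProperty.homMk (P := St.IsTD (T.toT s)) (preIso N).hom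
        inv := ObjectProperty.homMk (P := St.IsTD (T.toT s)) (preIso N).inv
        hom_inv_id := ObjectProperty.hom_ext _ (preIso N).hom_inv_id
        inv_hom_id := ObjectProperty.hom_ext _ (preIso N).inv_hom_id })
    (fun {M N} f => ObjectProperty.hom_ext _ (by
      apply NatTrans.ext
      funext X
      rfl))

end Br

end

end Vale.Agent.P286
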