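import Vale.Agent.P286.H211.Bridge

/-!
# Comparison of the two descriptions: complexes
-/

namespace Vale.Agent.P286

open CategoryTheory

noncomputable section

namespace Br

variable {T : Site} {s : ℂ}

/-- the functor on complexes -/
def EC (T : Site) (s : ℂ) : St.Cx (T.toT s) ⥤ TCx T s :=
  (E T s).mapHomologicalComplex (ComplexShape.up ℤ)

/-- the functor on complexes -/
def FC (T : Site) (s : ℂ) : TCx T s ⥤ St.Cx (T.toT s) :=
  (F T s).mapHomologicalComplex (ComplexShape.up ℤ)

theorem qis_EC {K L : St.Cx (T.toT s)} (u : K ⟶ L) (h : St.Cx.qis (T.toT s) u) :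
    qis T s ((EC T s).map u) :=
  fun X i j k hi hk => h X i j k hi hk

theorem qis_FC {K L : TCx T s} (u : K ⟶ L) (h : qis T s u) :
    St.Cx.qis (T.toT s) ((FC T s).map u) :=
  fun X i j k hi hk => h X i j k hi hk

/-- a function on a tensor product is determined by its values on pure tensors -/
theorem eq_lift {A B P N : Type} [CommRing A] [CommRing B] [AddCommGroup P] [Module A P]
    [AddCommGroup N] [Module B N] (f : A →+* B) (u : P →+ N)
    (hu : ∀ (a : A) (x : P), u (a • x) = f a • u x) (q : ExtS f P → N)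
    (h1 : ∀ x y, q (x + y) = q x + q y) (h2 : ∀ b x, q (ExtS.el f b x) = b • u x) :
    q = ExtS.lift f u hu := by
  let : Module A B := Module.compHom B f
  have h0 : q 0 = 0 := by
    have := h1 0 0
    rw [add_zero] at this
    simpa using this
  funext w
  induction w using TensorProduct.induction_on with
  | zero => rw [h0, map_zero]
  | tmul b x => exact h2 b x
  | add x y hx hy => rw [h1, map_add, hx, hy]

/-- the condition on a cartesian complex at `X`, in terms of functions -/
def CartAt (K : TCx T s) (X : T.C) : Prop :=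
  ∃ (P : MCx (T.R X)) (p : ∀ i, P.X i → K.obj i X),
    St.IsFlatRes P (fun i (a : T.R X) (m : K.obj i X) => a • m) (fun i j => K.d X i j) p ∧
    ∀ (Y : T.C) (φ : X ⟶ Y), ∃ q, St.IsBaseCh (T.res φ).toRingHom P
      (fun i (b : T.R Y) (m : K.obj i Y) => b • m) (fun i j => K.d Y i j)
      (fun i => K.map φ i) p q

theorem cartesian_iff (K : TCx T s) : Cartesian K ↔ ∀ X, CartAt K X := by
  constructor
  · intro hK X
    obtain ⟨P, hP, p, h1, h2, h3⟩ := hK X
    refine ⟨P, fun i => p i, ⟨hP, fun i => map_add (p i), fun i => map_smul (p i), h1, h2⟩, ?_⟩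
    intro Y φ
    refine ⟨fun i => ExtS.lift (T.res φ).toRingHom ((K.map φ i).comp (p i).toAddMonoidHom)
      (fun a x => by simp [TCx.map, TDMod.map_smul]), ⟨?_, ?_, ?_⟩⟩
    · exact fun i => map_add _
    · intro i b x
      rfl
    · exact h3 Y φ
  · intro hK X
    obtain ⟨P, p, hp, hq⟩ := hK X
    refine ⟨P, hp.flat, fun i => { toFun := p i, map_add' := hp.add i, map_smul' := hp.hom i },
      hp.comm, fun i j k hi hk => hp.hiso i j k hi hk, ?_⟩
    intro Y φ i j k hi hk
    obtain ⟨q, hq⟩ := hq Y φ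
    have h := hq.hiso i j k hi hk
    have e := eq_lift (T.res φ).toRingHom ((K.map φ j).comp
      ({ toFun := p j, map_add' := hp.add j, map_smul' := hp.hom j } :
        P.X j →ₗ[T.R X] K.obj j X).toAddMonoidHom)
      (fun a x => by
        change K.map φ j (p j (a • x)) = T.res φ a • K.map φ j (p j x)
        rw [hp.hom j a x]
        exact TCx.map_smul K φ j a (p j x)) (q j) (hq.add j) (hq.el j)
    rw [e] at h
    exact h

theorem cart_EC {K : St.Cx (T.toT s)} (hK : St.Cx.Cart K) : Cartesian ((EC T s).obj K) :=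
  (cartesian_iff _).2 hK

theorem cart_FC {K : TCx T s} (hK : Cartesian K) : St.Cx.Cart ((FC T s).obj K) :=
  (cartesian_iff _).1 hK

/-- one composite on complexes -/
def EFC (T : Site) (s : ℂ) : EC T s ⋙ FC T s ≅ 𝟭 (St.Cx (T.toT s)) :=
  NatIso.ofComponents
    (fun K => HomologicalComplex.Hom.isoOfComponents
      (fun i => (EF T s).app (HomologicalComplex.X K i))
      (fun i j _ => ((EF T s).hom.naturality (HomologicalComplex.d K i j)).symm))
    (fun {K L} u => HomologicalComplex.hom_ext _ _ fun i =>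
      (EF T s).hom.naturality (HomologicalComplex.Hom.f u i))

/-- the other composite on complexes -/
def FEC (T : Site) (s : ℂ) : FC T s ⋙ EC T s ≅ 𝟭 (TCx T s) :=
  NatIso.ofComponents
    (fun K => HomologicalComplex.Hom.isoOfComponents
      (fun i => (FE T s).app (HomologicalComplex.X K i))
      (fun i j _ => ((FE T s).hom.naturality (HomologicalComplex.d K i j)).symm))
    (fun {K L} u => HomologicalComplex.hom_ext _ _ fun i =>
      (FE T s).hom.naturality (HomologicalComplex.Hom.f u i))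

/-- the functor on cartesian complexes -/
def LE (T : Site) (s : ℂ) : LocalizerMorphism (St.CCx.qis (T.toT s)) (qisCart T s) where
  functor := (cartesian T s).lift (St.CCx.incl (T.toT s) ⋙ EC T s) (fun K => cart_EC K.property)
  map := fun K L u hu => qis_EC _ hu

/-- the functor on cartesian complexes -/
def LF (T : Site) (s : ℂ) : LocalizerMorphism (qisCart T s) (St.CCx.qis (T.toT s)) where
  functor := (St.Cx.Cart (T := T.toT s)).lift ((cartesian T s).ι ⋙ FC T s)
    (fun K => cart_FC K.property)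
  map := fun K L u hu => qis_FC _ hu

/-- one composite on cartesian complexes -/
def LEF (T : Site) (s : ℂ) : (LE T s).functor ⋙ (LF T s).functor ≅ 𝟭 (St.CCx (T.toT s)) :=
  NatIso.ofComponents
    (fun K => ObjectProperty.isoMk _ ((EFC T s).app (ObjectProperty.FullSubcategory.obj K)))
    (fun {K L} u => ObjectProperty.hom_ext _ ((EFC T s).hom.naturality u.hom))

/-- the other composite on cartesian complexes -/
def LFE (T : Site) (s : ℂ) : (LF T s).functor ⋙ (LE T s).functor ≅ 𝟭 (CartCx T s) :=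
  NatIso.ofComponents
    (fun K => ObjectProperty.isoMk _ ((FEC T s).app (ObjectProperty.FullSubcategory.obj K)))
    (fun {K L} u => ObjectProperty.hom_ext _ ((FEC T s).hom.naturality u.hom))

theorem LE_isLocalizedEquivalence (T : Site) (s : ℂ) : (LE T s).IsLocalizedEquivalence :=
  isLocalizedEquivalence_of_iso (LE T s) (LF T s)
    (Functor.isoWhiskerRight (LEF T s) _ ≪≫ Functor.leftUnitor _)
    (Functor.isoWhiskerRight (LFE T s) _ ≪≫ Functor.leftUnitor _)

theorem LF_isLocalizedEquivalence (T : Site) (s : ℂ) : (LF T s).IsLocalizedEquivalence :=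
  isLocalizedEquivalence_of_iso (LF T s) (LE T s)
    (Functor.isoWhiskerRight (LFE T s) _ ≪≫ Functor.leftUnitor _)
    (Functor.isoWhiskerRight (LEF T s) _ ≪≫ Functor.leftUnitor _)

variable {T₁ : Site} {s₁ : ℂ}

/-- the localizer morphism of a quasi-equivalence -/
def LPhi {Φ : TDMod T s ⥤ TDMod T₁ s₁} [Φ.Additive] [Φ.Linear ℂ] (h : IsQuasiEquiv Φ) :
    LocalizerMorphism (qisCart T s) (qisCart T₁ s₁) :=
  LocalizerMorphism.mk
    ((cartesian T₁ s₁).lift
      ((cartesian T s).ι ⋙ Φ.mapHomologicalComplex (ComplexShape.up ℤ))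
      (fun K => h.cart K.obj K.property))
    (fun K L u hu => h.qis K.obj L.obj u.hom K.property L.property hu)

universe v₁ v₂ u₁ u₂ in
theorem exists_localized {C₁ : Type u₁} {C₂ : Type u₂} [Category.{v₁} C₁] [Category.{v₂} C₂]
    {W₁ : MorphismProperty C₁} {W₂ : MorphismProperty C₂} (L : LocalizerMorphism W₁ W₂)
    [L.IsLocalizedEquivalence] : ∃ F : W₁.Localization ⥤ W₂.Localization, F.IsEquivalence ∧
      Nonempty (W₁.Q ⋙ F ≅ L.functor ⋙ W₂.Q) :=
  ⟨L.localizedFunctor W₁.Q W₂.Q, inferInstance, ⟨(L.catCommSq W₁.Q W₂.Q).iso.symm⟩⟩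

theorem st_isQuasiEquiv {Φ : TDMod T s ⥤ TDMod T₁ s₁} [Φ.Additive] [Φ.Linear ℂ]
    (h : IsQuasiEquiv Φ) : St.IsQuasiEquiv (E T s ⋙ Φ ⋙ F T₁ s₁) := by
  have h1 := LE_isLocalizedEquivalence T s
  have h2 : (LPhi h).IsLocalizedEquivalence := h.equiv
  have h3 := LF_isLocalizedEquivalence T₁ s₁
  refine ⟨((LE T s).comp ((LPhi h).comp (LF T₁ s₁))).functor, ⟨?_⟩,
    exists_localized ((LE T s).comp ((LPhi h).comp (LF T₁ s₁)))⟩
  exact NatIso.ofComponents (fun K => Iso.refl _) (fun {K L} u =>
    (Category.comp_id _).trans (Category.id_comp _).symm)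

theorem stStep {Φ : TDMod T s ⥤ TDMod T₁ s₁} [Φ.Additive] [Φ.Linear ℂ]
    (h : IsQuasiEquiv Φ) : St.DGStep (T.toT s) (T₁.toT s₁) :=
  ⟨E T s ⋙ Φ ⋙ F T₁ s₁, inferInstance, inferInstance, st_isQuasiEquiv h⟩

theorem st_dgEquivalent {p q : Site × ℂ} (h : DGEquivalent p q) :
    St.DGEquivalent (p.1.toT p.2) (q.1.toT q.2) := by
  induction h with
  | rel p q h =>
    obtain ⟨Φ, h1, h2, h3⟩ := h
    exact Relation.EqvGen.rel _ _ (stStep h3)
  | refl p => exact Relation.EqvGen.refl _
  | symm p q _ ih => exact Relation.EqvGen.symm _ _ ih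
  | trans p q r _ _ ih1 ih2 => exact Relation.EqvGen.trans _ _ _ ih1 ih2

theorem st_not_acyclic {K : TCx T s}
    (hK : ¬ ∀ (X : T.C) (j : ℤ) (z : K.obj j X), K.Cyc X j z → K.Bd X j z) :
    ¬ St.Cx.Acyclic ((FC T s).obj K) := by
  intro h
  apply hK
  intro X j z hz
  exact h X (j - 1) j (j + 1) (by ring) rfl z hz

theorem st_exists_not_acyclic {K : TCx T s} (h : Cartesian K)
    (hK : ¬ ∀ (X : T.C) (j : ℤ) (z : K.obj j X), K.Cyc X j z → K.Bd X j z) :
    ∃ K' : St.Cx (T.toT s), K'.Cart ∧ ¬ K'.Acyclic :=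
  ⟨(FC T s).obj K, cart_FC h, st_not_acyclic hK⟩

end Br

end

end Vale.Agent.P286
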