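import Vale.Agent.P286.H211.Torus

/-! Canonical factorisation where the Toeplitz operator is invertible, and generic splitting. -/

namespace Vale.Agent.P286

open LaurentPolynomial Matrix

noncomputable section

section Lift

variable {n : ℕ} {A B : Type} [CommRing A] [CommRing B]

theorem exists_toLaurent (x : A[T;T⁻¹]) (h : GE 0 x) : ∃ p : Polynomial A, Polynomial.toLaurent p = x := by
  classical
  refine ⟨∑ l ∈ x.coeff.support.image Int.toNat, Polynomial.monomial l (x.coeff l), ?_⟩
  rw [map_sum]
  ext m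
  rw [AddMonoidAlgebra.coeff_sum, Finsupp.finsetSum_apply]
  have key : ∀ l : ℕ, (Polynomial.toLaurent (Polynomial.monomial l (x.coeff (l : ℤ)))).coeff m =
      if (l : ℤ) = m then x.coeff l else 0 := by
    intro l
    rw [← Polynomial.C_mul_X_pow_eq_monomial, Polynomial.toLaurent_C_mul_X_pow,
      ← single_eq_C_mul_T, AddMonoidAlgebra.coeff_single, Finsupp.single_apply]
  simp only [key]
  rcases lt_or_ge m 0 with hm | hm
  · rw [h m hm]
    refine Finset.sum_eq_zero fun l _ => ?_
    rw [if_neg (by omega)]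
  · lift m to ℕ using hm
    by_cases h0 : x.coeff m = 0
    · rw [h0]
      refine Finset.sum_eq_zero fun l _ => ?_
      split_ifs with hl
      · rw [hl, h0]
      · rfl
    · rw [Finset.sum_eq_single m]
      · simp
      · intro b _ hb
        rw [if_neg (by omega)]
      · intro hn
        exfalso
        apply hn
        rw [Finset.mem_image]
        exact ⟨m, Finsupp.mem_support_iff.mpr h0, by simp⟩

theorem exists_invert_toLaurent (x : A[T;T⁻¹]) (h : LE 0 x) :
    ∃ p : Polynomial A, invert (Polynomial.toLaurent p) = x := by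
  obtain ⟨p, hp⟩ := exists_toLaurent (invert x) (fun m hm => by
    rw [invert_apply]; exact h _ (by omega))
  refine ⟨p, ?_⟩
  rw [hp]
  exact involutive_invert x

theorem exists_posGL (X : Matrix (Fin n) (Fin n) A[T;T⁻¹]) (h : MGE 0 X) (hd : X.det = 1) :
    ∃ a : Matrix.SpecialLinearGroup (Fin n) (Polynomial A),
      ((posGL n A a : Matrix.GeneralLinearGroup (Fin n) A[T;T⁻¹]) :
      Matrix (Fin n) (Fin n) A[T;T⁻¹]) = X := by
  choose p hp using fun i j => exists_toLaurent (X i j) (h i j)
  have hX : (Polynomial.toLaurent (R := A)).mapMatrix (Matrix.of p) = X := by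
    ext1 i j
    exact hp i j
  have hdet : (Matrix.of p).det = 1 := by
    apply Polynomial.toLaurent_injective
    rw [RingHom.map_det, hX, hd, map_one]
  exact ⟨⟨Matrix.of p, hdet⟩, hX⟩

theorem exists_negGL (X : Matrix (Fin n) (Fin n) A[T;T⁻¹]) (h : MLE 0 X) (hd : X.det = 1) :
    ∃ a : Matrix.SpecialLinearGroup (Fin n) (Polynomial A),
      ((negGL n A a : Matrix.GeneralLinearGroup (Fin n) A[T;T⁻¹]) :
      Matrix (Fin n) (Fin n) A[T;T⁻¹]) = X := by
  choose p hp using fun i j => exists_invert_toLaurent (X i j) (h i j)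
  let φ : Polynomial A →+* A[T;T⁻¹] :=
    (invert (R := A)).toRingEquiv.toRingHom.comp (Polynomial.toLaurent (R := A))
  have hφ : Function.Injective φ := fun x y h => by
    apply Polynomial.toLaurent_injective
    exact (invert (R := A)).injective h
  have hX : φ.mapMatrix (Matrix.of p) = X := by
    ext1 i j
    exact hp i j
  have hdet : (Matrix.of p).det = 1 := by
    apply hφ
    rw [RingHom.map_det, hX, hd, map_one]
  exact ⟨⟨Matrix.of p, hdet⟩, hX⟩

theorem posGL_inv_val (a : Matrix.SpecialLinearGroup (Fin n) (Polynomial A)) :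
    (((posGL n A a)⁻¹ : Matrix.GeneralLinearGroup (Fin n) A[T;T⁻¹]) :
      Matrix (Fin n) (Fin n) A[T;T⁻¹]) =
    ((posGL n A a⁻¹ : Matrix.GeneralLinearGroup (Fin n) A[T;T⁻¹]) :
      Matrix (Fin n) (Fin n) A[T;T⁻¹]) := by rw [← map_inv]

/-- Constant coefficients of `posGL a`. -/
theorem cf_posGL (a : Matrix.SpecialLinearGroup (Fin n) (Polynomial A)) :
    cf 0 ((posGL n A a : Matrix.GeneralLinearGroup (Fin n) A[T;T⁻¹]) :
      Matrix (Fin n) (Fin n) A[T;T⁻¹]) =
      (a : Matrix (Fin n) (Fin n) (Polynomial A)).map Polynomial.constantCoeff := by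
  ext i j
  show (Polynomial.toLaurent ((a : Matrix (Fin n) (Fin n) (Polynomial A)) i j)).coeff 0 =
    Polynomial.constantCoeff ((a : Matrix (Fin n) (Fin n) (Polynomial A)) i j)
  rw [LaurentPolynomial.coeff_toLaurent]
  have := Finsupp.mapDomain_apply (Nat.castEmbedding (R := ℤ)).injective
    ((a : Matrix (Fin n) (Fin n) (Polynomial A)) i j).toFinsupp.coeff 0
  exact this

theorem posGL_injective : Function.Injective (posGL n A) := by
  intro a b h
  have h' := congrArg (fun g : Matrix.GeneralLinearGroup (Fin n) A[T;T⁻¹] =>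
    (g : Matrix (Fin n) (Fin n) A[T;T⁻¹])) h
  refine Matrix.SpecialLinearGroup.ext _ _ fun i j => ?_
  apply Polynomial.toLaurent_injective
  exact congrFun (congrFun h' i) j

theorem negGL_injective : Function.Injective (negGL n A) := by
  intro a b h
  have h' := congrArg (fun g : Matrix.GeneralLinearGroup (Fin n) A[T;T⁻¹] =>
    (g : Matrix (Fin n) (Fin n) A[T;T⁻¹])) h
  refine Matrix.SpecialLinearGroup.ext _ _ fun i j => ?_
  apply Polynomial.toLaurent_injective
  apply (invert (R := A)).injective
  exact congrFun (congrFun h' i) j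

/-- (B1u) A matrix which is polynomial both in `z` and in `z⁻¹` is constant. -/
theorem eq_const_of_pos_eq_neg {a b : Matrix.SpecialLinearGroup (Fin n) (Polynomial A)}
    (h : posGL n A a = negGL n A b) :
    a = constSL n A (Matrix.SpecialLinearGroup.map Polynomial.constantCoeff a) ∧ b = a := by
  have h1 : a = constSL n A (Matrix.SpecialLinearGroup.map Polynomial.constantCoeff a) := by
    apply posGL_injective
    apply Units.ext
    rw [posGL_constSL]
    have hge := posGL_MGE a
    have hle := negGL_MLE b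
    rw [← h] at hle
    ext1 i j
    rw [Matrix.map_apply]
    have h2 := eq_C_of_LE_GE (hle i j) (hge i j)
    rw [h2]
    congr 1
    exact congrFun (congrFun (cf_posGL a) i) j
  refine ⟨h1, ?_⟩
  apply negGL_injective
  rw [← h]
  conv_rhs => rw [h1]
  rw [negGL_constSL, ← h1]

end Lift

section Left

variable {n : ℕ} {A B : Type} [CommRing A] [CommRing B]

/-- `X ↦ (g X)_{≤ 0}` -/
def ltoep (g : Matrix (Fin n) (Fin n) A[T;T⁻¹]) : Module.End A (Ix n →₀ A) :=
  (npart n A).comp ((LinearMap.mulLeft A g).comp (toMat n A))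

theorem ltoep_apply (g : Matrix (Fin n) (Fin n) A[T;T⁻¹]) (x : Ix n →₀ A) :
    ltoep g x = npart n A (g * toMat n A x) := rfl

theorem bc_ltoep (f : A →+* B) (g : Matrix (Fin n) (Fin n) A[T;T⁻¹]) :
    bc f (ltoep g) = ltoep (mp f g) := by
  refine end_ext_single fun i => ?_
  rw [bc_single, ltoep_apply, ltoep_apply, ← npart_map, toMat_single, toMat_single]
  congr 1
  rw [Matrix.map_mul]
  congr 1
  ext p q
  rw [Matrix.map_apply, Matrix.single_apply, Matrix.single_apply]
  split_ifs
  · rw [lmap_T]
  · rw [map_zero]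

/-- Over a field: a bundle whose endomorphism bundle has no cohomology after twisting by
`O(-1)`, with degree in `[0, n)`, is trivial; then the left Toeplitz operator is onto. -/
theorem field_case {F : Type} [Field F] (g : Matrix.GeneralLinearGroup (Fin n) F[T;T⁻¹]) {k : ℤ}
    (hk0 : 0 ≤ k) (hkn : k < n)
    (hg : (g : Matrix (Fin n) (Fin n) F[T;T⁻¹]).det = T k)
    (hinj : ∀ x, toep g x = 0 → x = 0) :
    k = 0 ∧ ∀ y, ∃ x, ltoep (g : Matrix (Fin n) (Fin n) F[T;T⁻¹]) x = y := by
  obtain ⟨a, b, l, ha, ha1, hb, hb1, hab, hl⟩ := birkhoff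
    (g : Matrix (Fin n) (Fin n) F[T;T⁻¹]) _ (by rw [← Units.val_mul, mul_inv_cancel, Units.val_one]) hg
  set gi := ((g⁻¹ : Matrix.GeneralLinearGroup (Fin n) F[T;T⁻¹]) :
      Matrix (Fin n) (Fin n) F[T;T⁻¹]) with hgi
  have hggi : (g : Matrix (Fin n) (Fin n) F[T;T⁻¹]) * gi = 1 := by
    rw [hgi, ← Units.val_mul, mul_inv_cancel, Units.val_one]
  have hgig : gi * (g : Matrix (Fin n) (Fin n) F[T;T⁻¹]) = 1 := by
    rw [hgi, ← Units.val_mul, inv_mul_cancel, Units.val_one]
  have ha' := adjugate_mul_self ha1
  have hb' := adjugate_mul_self hb1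
  have ha'' := self_mul_adjugate ha1
  have hb'' := self_mul_adjugate hb1
  -- all `l i` are equal
  have hconst : ∀ p q, l p ≤ l q := by
    intro p q
    by_contra hlt
    rw [not_le] at hlt
    set E : Matrix (Fin n) (Fin n) F[T;T⁻¹] := Matrix.single p q 1 with hE
    set X := b.adjugate * E * b with hX
    have hEL : MLE 0 E := fun i j => by
      rw [hE, Matrix.single_apply]; split_ifs
      · exact LE.one
      · exact LE.zero _
    have hXL : MLE 0 X := by
      have := (hb.adjugate.mul hEL).mul hb
      simpa using this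
    have h1 : toep g (npart n F X) = 0 := by
      rw [toep_apply, toMat_npart hXL, ← hgi]
      -- `g X g⁻¹ = a⁻¹ mono E mono⁻¹ a`
      have e1 : (g : Matrix (Fin n) (Fin n) F[T;T⁻¹]) = a.adjugate * (mono l * b) := by
        rw [← hab, ← Matrix.mul_assoc, ha', Matrix.one_mul]
      have e2 : gi = b.adjugate * mono (-l) * a := by
        have : (g : Matrix (Fin n) (Fin n) F[T;T⁻¹]) * (b.adjugate * mono (-l) * a) = 1 := by
          rw [e1]
          calc a.adjugate * (mono l * b) * (b.adjugate * mono (-l) * a) =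
              a.adjugate * (mono l * (b * b.adjugate) * mono (-l)) * a := by
                simp only [Matrix.mul_assoc]
            _ = 1 := by rw [hb'', Matrix.mul_one, mono_mul_neg, Matrix.mul_one, ha']
        calc gi = gi * ((g : Matrix (Fin n) (Fin n) F[T;T⁻¹]) * (b.adjugate * mono (-l) * a)) := by
              rw [this, Matrix.mul_one]
          _ = _ := by rw [← Matrix.mul_assoc, hgig, Matrix.one_mul]
      have e3 : (g : Matrix (Fin n) (Fin n) F[T;T⁻¹]) * (X * gi) =
          a.adjugate * (mono l * E * mono (-l)) * a := by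
        rw [e1, e2, hX]
        calc a.adjugate * (mono l * b) * (b.adjugate * E * b * (b.adjugate * mono (-l) * a)) =
            a.adjugate * (mono l * (b * b.adjugate) * E * (b * b.adjugate) * mono (-l)) * a := by
              simp only [Matrix.mul_assoc]
          _ = _ := by rw [hb'', Matrix.mul_one, Matrix.mul_one]
      have e4 : MGE 1 (mono l * E * mono (-l)) := by
        intro i j
        rw [mono, mono, Matrix.mul_diagonal, Matrix.diagonal_mul, hE, Matrix.single_apply]
        split_ifs with h
        · obtain ⟨rfl, rfl⟩ := h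
          rw [mul_one, ← T_add]
          refine (GE.T _).mono ?_
          simp only [Pi.neg_apply]; omega
        · rw [mul_zero, zero_mul]; exact GE.zero _
      have e5 : MGE 1 ((g : Matrix (Fin n) (Fin n) F[T;T⁻¹]) * (X * gi)) := by
        rw [e3]
        have := (ha.adjugate.mul e4).mul ha
        simpa using this
      exact npart_eq_zero e5
    have h2 := hinj _ h1
    have h3 : X = 0 := by
      rw [← toMat_npart hXL, h2, map_zero]
    have h4 : E = 0 := by
      calc E = (b * b.adjugate) * E * (b * b.adjugate) := by rw [hb'', Matrix.one_mul, Matrix.mul_one]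
        _ = b * X * b.adjugate := by rw [hX]; simp only [Matrix.mul_assoc]
        _ = 0 := by rw [h3, Matrix.mul_zero, Matrix.zero_mul]
    have h5 := congrFun (congrFun h4 p) q
    rw [hE, Matrix.single_apply_same] at h5
    simp at h5
  have hn : 0 < n := by omega
  have hl0 : ∀ p, l p = l ⟨0, hn⟩ := fun p => le_antisymm (hconst _ _) (hconst _ _)
  have hsum : (n : ℤ) * l ⟨0, hn⟩ = k := by
    rw [← hl, Finset.sum_congr rfl fun i _ => hl0 i]
    simp
  have hl1 : l ⟨0, hn⟩ = 0 := by
    by_contra hne
    rcases lt_or_gt_of_ne hne with h | h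
    · have : (n : ℤ) * l ⟨0, hn⟩ < 0 := mul_neg_of_pos_of_neg (by exact_mod_cast hn) h
      omega
    · have : (n : ℤ) * 1 ≤ (n : ℤ) * l ⟨0, hn⟩ := mul_le_mul_of_nonneg_left (by omega) (by omega)
      omega
  have hlz : l = 0 := funext fun p => by rw [hl0, hl1]; rfl
  refine ⟨by rw [← hsum, hl1, mul_zero], fun y => ?_⟩
  rw [hlz, mono_zero, Matrix.one_mul] at hab
  set Y := toMat n F y
  refine ⟨npart n F (b.adjugate * toMat n F (npart n F (a * Y))), ?_⟩
  have h6 : MLE 0 (b.adjugate * toMat n F (npart n F (a * Y))) := by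
    have := hb.adjugate.mul (toMat_MLE (npart n F (a * Y)))
    simpa using this
  rw [ltoep_apply, toMat_npart h6]
  have e1 : (g : Matrix (Fin n) (Fin n) F[T;T⁻¹]) = a.adjugate * b := by
    rw [← hab, ← Matrix.mul_assoc, ha', Matrix.one_mul]
  have e2 : (g : Matrix (Fin n) (Fin n) F[T;T⁻¹]) * (b.adjugate * toMat n F (npart n F (a * Y))) =
      Y - a.adjugate * (a * Y - toMat n F (npart n F (a * Y))) := by
    rw [e1, Matrix.mul_sub, ← Matrix.mul_assoc, Matrix.mul_assoc a.adjugate, hb'', Matrix.mul_one,
      ← Matrix.mul_assoc, ha', Matrix.one_mul]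
    abel
  rw [e2, map_sub, npart_toMat, npart_eq_zero, sub_zero]
  have := ha.adjugate.mul (sub_toMat_npart (a * Y))
  simpa using this

end Left

end

end Vale.Agent.P286
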