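import Vale.Agent.P286.H211.Fact

/-! The canonical factorisation over a ring, and generic splitting over a domain. -/

namespace Vale.Agent.P286

open LaurentPolynomial Matrix

noncomputable section

section B1

variable {n : ℕ} {B : Type} [CommRing B]

theorem exists_residue (m : Ideal B) (hm : m.IsMaximal) :
    ∃ (F : Type) (_ : Field F) (π : B →+* F), Function.Surjective π ∧ RingHom.ker π = m :=
  ⟨B ⧸ m, Ideal.Quotient.field m, Ideal.Quotient.mk m, Ideal.Quotient.mk_surjective, Ideal.mk_ker⟩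

theorem mem_smul_top_of_coeff (m : Ideal B) (x : Ix n →₀ B) (hx : ∀ i, x i ∈ m) :
    x ∈ m • (⊤ : Submodule B (Ix n →₀ B)) := by
  rw [← Finsupp.sum_single x]
  refine Submodule.sum_mem _ fun i _ => ?_
  have : (Finsupp.single i (x i) : Ix n →₀ B) = x i • Finsupp.single i 1 := by simp
  rw [this]
  exact Submodule.smul_mem_smul (hx i) Submodule.mem_top

theorem surj_ltoep (g : Matrix.GeneralLinearGroup (Fin n) B[T;T⁻¹])
    (h : ∀ (F : Type) [Field F] (π : B →+* F), Function.Surjective π →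
      ∀ y, ∃ x, ltoep (mp π (g : Matrix (Fin n) (Fin n) B[T;T⁻¹])) x = y) :
    ∀ y, ∃ x, ltoep (g : Matrix (Fin n) (Fin n) B[T;T⁻¹]) x = y := by
  classical
  set gi := ((g⁻¹ : Matrix.GeneralLinearGroup (Fin n) B[T;T⁻¹]) :
      Matrix (Fin n) (Fin n) B[T;T⁻¹]) with hgi
  have hggi : (g : Matrix (Fin n) (Fin n) B[T;T⁻¹]) * gi = 1 := by
    rw [hgi, ← Units.val_mul, mul_inv_cancel, Units.val_one]
  let R := LinearMap.range (ltoep (g : Matrix (Fin n) (Fin n) B[T;T⁻¹]))
  obtain ⟨K, hK⟩ := exists_MLE gi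
  have hbig : ∀ i : Ix n, K ≤ i.1 → (Finsupp.single i 1 : Ix n →₀ B) ∈ R := by
    intro i hi
    refine ⟨npart n B (gi * toMat n B (Finsupp.single i 1)), ?_⟩
    have h1 : MLE 0 (gi * toMat n B (Finsupp.single i 1)) := by
      have h2 : MLE (-(i.1 : ℤ)) (toMat n B (Finsupp.single i 1)) := by
        rw [toMat_single]
        intro p q
        rw [Matrix.single_apply]; split_ifs
        · exact LE.T _
        · exact LE.zero _
      exact (hK.mul h2).mono (by omega)
    rw [ltoep_apply, toMat_npart h1, ← Matrix.mul_assoc, hggi, Matrix.one_mul, npart_toMat]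
  have hfg : (⊤ : Submodule B ((Ix n →₀ B) ⧸ R)).FG := by
    refine ⟨(Finset.range K ×ˢ (Finset.univ ×ˢ Finset.univ)).image
      (fun i : Ix n => R.mkQ (Finsupp.single i 1)), ?_⟩
    rw [eq_top_iff]
    rintro q -
    obtain ⟨x, rfl⟩ := R.mkQ_surjective q
    rw [← Finsupp.sum_single x, Finsupp.sum, map_sum]
    refine Submodule.sum_mem _ fun i _ => ?_
    have : (Finsupp.single i (x i) : Ix n →₀ B) = x i • Finsupp.single i 1 := by simp
    rw [this, map_smul]
    refine Submodule.smul_mem _ _ ?_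
    by_cases hi : K ≤ i.1
    · have : R.mkQ (Finsupp.single i 1) = 0 := by
        rw [Submodule.mkQ_apply, Submodule.Quotient.mk_eq_zero]
        exact hbig i hi
      rw [this]; exact Submodule.zero_mem _
    · apply Submodule.subset_span
      rw [Finset.coe_image]
      exact ⟨i, by simp; omega, rfl⟩
  have hnak : ∀ m : Ideal B, m.IsMaximal → (⊤ : Submodule B ((Ix n →₀ B) ⧸ R)) ≤ m • ⊤ := by
    rintro m hm q -
    obtain ⟨y, rfl⟩ := R.mkQ_surjective q
    obtain ⟨F, _, π, hπ, hker⟩ := exists_residue m hm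
    obtain ⟨x', hx'⟩ := h F π hπ (y.mapRange π (map_zero π))
    obtain ⟨x, rfl⟩ := Finsupp.mapRange_surjective π (map_zero π) hπ x'
    rw [← bc_ltoep, bc_mapRange] at hx'
    have h1 : y - ltoep (g : Matrix (Fin n) (Fin n) B[T;T⁻¹]) x ∈ m • (⊤ : Submodule B (Ix n →₀ B)) := by
      refine mem_smul_top_of_coeff m _ fun i => ?_
      rw [← hker, RingHom.mem_ker, Finsupp.sub_apply, map_sub]
      have := DFunLike.congr_fun hx' i
      rw [Finsupp.mapRange_apply, Finsupp.mapRange_apply] at this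
      rw [this, sub_self]
    have h2 : R.mkQ y = R.mkQ (y - ltoep (g : Matrix (Fin n) (Fin n) B[T;T⁻¹]) x) := by
      rw [map_sub]
      have : R.mkQ (ltoep (g : Matrix (Fin n) (Fin n) B[T;T⁻¹]) x) = 0 := by
        rw [Submodule.mkQ_apply, Submodule.Quotient.mk_eq_zero]
        exact ⟨x, rfl⟩
      rw [this, sub_zero]
    rw [h2]
    have h3 := Submodule.mem_map_of_mem (f := R.mkQ) h1
    rw [Submodule.map_smul''] at h3
    exact Submodule.smul_mono le_rfl le_top h3
  have hann : Module.annihilator B ((Ix n →₀ B) ⧸ R) = ⊤ := by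
    by_contra hne
    obtain ⟨m, hm, hle⟩ := Ideal.exists_le_maximal _ hne
    obtain ⟨r, hr1, hr2⟩ := Submodule.exists_sub_one_mem_and_smul_eq_zero_of_fg_of_le_smul m ⊤ hfg
      (hnak m hm)
    have hr : r ∈ m := hle (Module.mem_annihilator.mpr fun q => hr2 q Submodule.mem_top)
    have : (1 : B) ∈ m := by
      have := m.sub_mem hr hr1
      simpa using this
    exact hm.ne_top ((Ideal.eq_top_iff_one m).mpr this)
  intro y
  have h1 : (1 : B) ∈ Module.annihilator B ((Ix n →₀ B) ⧸ R) := by rw [hann]; exact Submodule.mem_top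
  have h2 := Module.mem_annihilator.mp h1 (R.mkQ y)
  rw [one_smul, Submodule.mkQ_apply, Submodule.Quotient.mk_eq_zero] at h2
  exact h2

theorem det_GLmap {A B : Type} [CommRing A] [CommRing B] (f : A →+* B)
    (g : Matrix.GeneralLinearGroup (Fin n) A[T;T⁻¹]) {k : ℤ}
    (hg : (g : Matrix (Fin n) (Fin n) A[T;T⁻¹]).det = T k) :
    ((Matrix.GeneralLinearGroup.map (lmap f) g : Matrix.GeneralLinearGroup (Fin n) B[T;T⁻¹]) :
      Matrix (Fin n) (Fin n) B[T;T⁻¹]).det = T k := by
  have : ((Matrix.GeneralLinearGroup.map (lmap f) g : Matrix.GeneralLinearGroup (Fin n) B[T;T⁻¹]) :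
      Matrix (Fin n) (Fin n) B[T;T⁻¹]) = (lmap f).mapMatrix (g : Matrix (Fin n) (Fin n) A[T;T⁻¹]) := rfl
  rw [this, ← RingHom.map_det, hg, lmap_T]

/-- (B1) Where the Toeplitz operator of `Ad g` is invertible the bundle is trivial, with a
canonical trivialisation. -/
theorem exists_fact (g : Matrix.GeneralLinearGroup (Fin n) B[T;T⁻¹]) {k : ℤ} (hk0 : 0 ≤ k)
    (hkn : k < n) (hg : (g : Matrix (Fin n) (Fin n) B[T;T⁻¹]).det = T k) (hu : IsUnit (toep g)) :
    ∃ a b : Matrix.SpecialLinearGroup (Fin n) (Polynomial B),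
      g * negGL n B b = posGL n B a ∧
      Matrix.SpecialLinearGroup.map Polynomial.constantCoeff a = 1 := by
  rcases subsingleton_or_nontrivial B with hB | hB
  · refine ⟨1, 1, ?_, ?_⟩
    · apply Units.ext
      ext i j m
      exact Subsingleton.elim _ _
    · rw [map_one]
  -- residue fields
  have hres : ∀ (F : Type) [Field F] (π : B →+* F), Function.Surjective π →
      k = 0 ∧ ∀ y, ∃ x, ltoep (mp π (g : Matrix (Fin n) (Fin n) B[T;T⁻¹])) x = y := by
    intro F _ π hπ
    have h1 : IsUnit (toep (Matrix.GeneralLinearGroup.map (lmap π) g)) := by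
      rw [← bc_toep]
      exact hu.map (bcHom (Ix n) π)
    refine field_case (Matrix.GeneralLinearGroup.map (lmap π) g) hk0 hkn (det_GLmap π g hg) ?_
    intro x hx
    obtain ⟨u, hu⟩ := h1
    rw [← hu] at hx
    have : ((u⁻¹ : (Module.End F (Ix n →₀ F))ˣ) : Module.End F (Ix n →₀ F))
        ((u : Module.End F (Ix n →₀ F)) x) = x := LinearMap.congr_fun (Units.inv_mul u) x
    rw [← this, hx, map_zero]
  have hk : k = 0 := by
    obtain ⟨m, hm⟩ := Ideal.exists_maximal B
    obtain ⟨F, _, π, hπ, _⟩ := exists_residue m hm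
    exact (hres F π hπ).1
  subst hk
  obtain ⟨x, hx⟩ := surj_ltoep g (fun F _ π hπ => (hres F π hπ).2) (npart n B 1)
  rw [ltoep_apply] at hx
  set Y := toMat n B x with hY
  set X := (g : Matrix (Fin n) (Fin n) B[T;T⁻¹]) * Y with hX
  have hYL : MLE 0 Y := toMat_MLE x
  have h1 : MGE 1 (X - 1) := by
    have := sub_toMat_npart X
    rwa [hx, toMat_npart MLE.one] at this
  have hXG : MGE 0 X := by
    have := (h1.mono (show (0 : ℤ) ≤ 1 by norm_num)).add MGE.one
    simpa using this
  have hX0 : cf 0 X = 1 := by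
    have := h1.cf_eq (show (0 : ℤ) < 1 by norm_num)
    rw [cf_sub, cf_one, sub_eq_zero] at this
    exact this
  have hdet : X.det = Y.det := by rw [hX, Matrix.det_mul, hg, T_zero, one_mul]
  have hdX : X.det = 1 := by
    have h2 : LE 0 X.det := by rw [hdet]; exact hYL.det.1
    rw [eq_C_of_LE_GE h2 hXG.det.1, hXG.det.2, hX0, Matrix.det_one, map_one]
  obtain ⟨a, ha⟩ := exists_posGL X hXG hdX
  obtain ⟨b, hb⟩ := exists_negGL Y hYL (by rw [← hdet, hdX])
  refine ⟨a, b, ?_, ?_⟩
  · apply Units.ext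
    rw [Units.val_mul, ha, hb]
  · apply Matrix.SpecialLinearGroup.ext
    intro i j
    have h3 := cf_posGL a
    rw [ha, hX0] at h3
    exact (congrFun (congrFun h3 i) j).symm

end B1

section B2

variable {n : ℕ}

theorem lmap_injective {A B : Type} [CommRing A] [CommRing B] (f : A →+* B)
    (hf : Function.Injective f) : Function.Injective (lmap f) := by
  intro x y h
  ext m
  apply hf
  have := congrArg (fun z : B[T;T⁻¹] => z.coeff m) h
  simpa [lmap] using this

theorem lmap_comp {A B D : Type} [CommRing A] [CommRing B] [CommRing D] (f : A →+* B)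
    (g : B →+* D) (x : A[T;T⁻¹]) : lmap g (lmap f x) = lmap (g.comp f) x := by
  ext m
  simp [lmap]

theorem finRank_theta {A : Type} [CommRing A] (g : Matrix.GeneralLinearGroup (Fin n) A[T;T⁻¹])
    (S : (Module.End A (Ix n →₀ A))ˣ) (hS : FinRank ((S : Module.End A (Ix n →₀ A)) - toep g)) :
    FinRank (toep g * ((S⁻¹ : (Module.End A (Ix n →₀ A))ˣ) : Module.End A (Ix n →₀ A)) - 1) := by
  have e : toep g * ((S⁻¹ : (Module.End A (Ix n →₀ A))ˣ) : Module.End A (Ix n →₀ A)) - 1 =
      -(((S : Module.End A (Ix n →₀ A)) - toep g) *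
        ((S⁻¹ : (Module.End A (Ix n →₀ A))ˣ) : Module.End A (Ix n →₀ A))) := by
    refine LinearMap.ext fun x => ?_
    have h : (S : Module.End A (Ix n →₀ A)) (((S⁻¹ : (Module.End A (Ix n →₀ A))ˣ) :
        Module.End A (Ix n →₀ A)) x) = x := LinearMap.congr_fun (Units.mul_inv S) x
    simp only [LinearMap.sub_apply, LinearMap.neg_apply, Module.End.mul_apply,
      Module.End.one_apply, h]
    abel
  rw [e]
  exact (hS.mul_right _).neg

/-- (B2) Over a domain, a bundle which is not generically trivial is generically a nontrivial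
split bundle. -/
theorem generic_split {A : Type} [CommRing A] [IsDomain A]
    (g : Matrix.GeneralLinearGroup (Fin n) A[T;T⁻¹]) (S : (Module.End A (Ix n →₀ A))ˣ)
    (hS : FinRank ((S : Module.End A (Ix n →₀ A)) - toep g)) {k : ℤ} (hk0 : 0 ≤ k)
    (hkn : k < n) (hg : (g : Matrix (Fin n) (Fin n) A[T;T⁻¹]).det = T k)
    (hθ : fdet (toep g * ((S⁻¹ : (Module.End A (Ix n →₀ A))ˣ) : Module.End A (Ix n →₀ A))) = 0) :
    ∃ h : A, h ≠ 0 ∧ ∃ lam : Fin n → ℤ, (∃ i j, lam i ≠ lam j) ∧
      ∃ a b : Matrix.SpecialLinearGroup (Fin n) (Polynomial (Localization.Away h)),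
        Matrix.GeneralLinearGroup.map (lmap (algebraMap A (Localization.Away h))) g *
          negGL n (Localization.Away h) b =
        posGL n (Localization.Away h) a * monoGL (Localization.Away h) lam := by
  classical
  let K := FractionRing A
  let al : A →+* K := algebraMap A K
  let gK : Matrix.GeneralLinearGroup (Fin n) K[T;T⁻¹] := Matrix.GeneralLinearGroup.map (lmap al) g
  have hgK : (gK : Matrix (Fin n) (Fin n) K[T;T⁻¹]).det = T k := det_GLmap al g hg
  obtain ⟨a0, b0, l, ha, ha1, hb, hb1, hab, hl⟩ := birkhoff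
    (gK : Matrix (Fin n) (Fin n) K[T;T⁻¹])
    ((gK⁻¹ : Matrix.GeneralLinearGroup (Fin n) K[T;T⁻¹]) : Matrix (Fin n) (Fin n) K[T;T⁻¹])
    (by rw [← Units.val_mul, mul_inv_cancel, Units.val_one]) hgK
  set X := a0.adjugate with hX
  set Y := b0.adjugate with hY
  have hXG : MGE 0 X := ha.adjugate
  have hYL : MLE 0 Y := hb.adjugate
  have hX1 : X.det = 1 := det_adjugate_one ha1
  have hY1 : Y.det = 1 := det_adjugate_one hb1
  have hXY : (gK : Matrix (Fin n) (Fin n) K[T;T⁻¹]) * Y = X * mono l := by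
    calc (gK : Matrix (Fin n) (Fin n) K[T;T⁻¹]) * Y =
        (X * a0) * (gK : Matrix (Fin n) (Fin n) K[T;T⁻¹]) * Y := by
          rw [hX, adjugate_mul_self ha1, Matrix.one_mul]
      _ = X * (mono l * b0) * Y := by rw [Matrix.mul_assoc X, hab]
      _ = X * mono l * (b0 * Y) := by simp only [Matrix.mul_assoc]
      _ = X * mono l := by rw [hY, self_mul_adjugate hb1, Matrix.mul_one]
  -- nonconstant
  have hne : ∃ i j, l i ≠ l j := by
    by_contra hcon
    push Not at hcon
    have hn : 0 < n := by omega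
    have hsum : (n : ℤ) * l ⟨0, hn⟩ = k := by
      rw [← hl, Finset.sum_congr rfl fun i _ => hcon i ⟨0, hn⟩]
      simp
    have hl1 : l ⟨0, hn⟩ = 0 := by
      by_contra hne
      rcases lt_or_gt_of_ne hne with h | h
      · have : (n : ℤ) * l ⟨0, hn⟩ < 0 := mul_neg_of_pos_of_neg (by exact_mod_cast hn) h
        omega
      · have : (n : ℤ) * 1 ≤ (n : ℤ) * l ⟨0, hn⟩ := mul_le_mul_of_nonneg_left (by omega) (by omega)
        omega
    have hlz : l = 0 := funext fun p => by rw [hcon p ⟨0, hn⟩, hl1]; rfl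
    rw [hlz, mono_zero, Matrix.mul_one] at hXY
    obtain ⟨a, ha'⟩ := exists_posGL X hXG hX1
    obtain ⟨b, hb'⟩ := exists_negGL Y hYL hY1
    have h1 : gK * negGL n K b = posGL n K a := by
      apply Units.ext
      rw [Units.val_mul, hb', hXY, ha']
    have h2 : gK = posGL n K a * negGL n K b⁻¹ := by
      rw [← h1, mul_assoc, ← map_mul, mul_inv_cancel, map_one, mul_one]
    have h3 : IsUnit (toep gK) := by
      rw [h2, toep_pos_mul]
      refine IsUnit.mul ?_ ?_
      · refine ⟨⟨_, _, isUnit_toep_pos a, ?_⟩, rfl⟩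
        have := isUnit_toep_pos a⁻¹
        rwa [inv_inv] at this
      · refine ⟨⟨_, _, isUnit_toep_neg b⁻¹, ?_⟩, rfl⟩
        have := isUnit_toep_neg b⁻¹⁻¹
        rwa [inv_inv] at this ⊢
    have hfr := finRank_theta g S hS
    have h4 : IsUnit (bc al (toep g * ((S⁻¹ : (Module.End A (Ix n →₀ A))ˣ) : Module.End A (Ix n →₀ A)))) := by
      rw [bc_mul, bc_toep]
      exact h3.mul ((S⁻¹).isUnit.map (bcHom (Ix n) al))
    have h5 := isUnit_fdet (FinRank.bc_sub_one al hfr) h4
    rw [fdet_bc al hfr, hθ, map_zero] at h5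
    exact not_isUnit_zero h5
  -- spreading out
  let s : Finset K := Finset.univ.biUnion fun ij : Fin n × Fin n =>
    (X ij.1 ij.2).coeff.support.image (fun m => (X ij.1 ij.2).coeff m) ∪
    (Y ij.1 ij.2).coeff.support.image (fun m => (Y ij.1 ij.2).coeff m)
  obtain ⟨⟨h, hh⟩, hs⟩ := IsLocalization.exist_integer_multiples_of_finset (nonZeroDivisors A) s
  have hh0 : h ≠ 0 := nonZeroDivisors.ne_zero hh
  have halh : al h ≠ 0 := by
    intro h0
    exact hh0 (IsFractionRing.injective A K (by rw [h0, map_zero]))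
  let φ : Localization.Away h →+* K :=
    IsLocalization.Away.lift (S := Localization.Away h) h (g := al) (isUnit_iff_ne_zero.mpr halh)
  have hφal : φ.comp (algebraMap A (Localization.Away h)) = al :=
    IsLocalization.Away.lift_comp h _
  have hφa : ∀ a, φ (algebraMap A (Localization.Away h) a) = al a := fun a =>
    RingHom.congr_fun hφal a
  have hφinj : Function.Injective φ := by
    rw [injective_iff_map_eq_zero]
    intro x hx
    obtain ⟨⟨y, ⟨_, ⟨j, rfl⟩⟩⟩, hy⟩ := IsLocalization.surj (Submonoid.powers h) x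
    simp only at hy
    have h1 : al y = 0 := by rw [← hφa, ← hy, map_mul, hx, zero_mul]
    have h2 : y = 0 := IsFractionRing.injective A K (by rw [map_zero]; exact h1)
    rw [h2, map_zero] at hy
    have hu : IsUnit (algebraMap A (Localization.Away h) (h ^ j)) := by
      rw [map_pow]
      exact (IsLocalization.Away.algebraMap_isUnit h).pow j
    exact (hu.mul_left_eq_zero).mp hy
  have hrange : ∀ c ∈ s, ∃ r, φ r = c := by
    intro c hc
    obtain ⟨r, hr⟩ := hs c hc
    obtain ⟨u, hu⟩ := IsLocalization.Away.algebraMap_isUnit (S := Localization.Away h) h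
    refine ⟨(u⁻¹ : (Localization.Away h)ˣ) * algebraMap A _ r, ?_⟩
    have h1 : φ u * φ ((u⁻¹ : (Localization.Away h)ˣ) * algebraMap A _ r) = al h * c := by
      rw [← map_mul, ← mul_assoc, Units.mul_inv, one_mul, hφa]
      rw [show al r = algebraMap A K r from rfl, hr, Algebra.smul_def]
    rw [hu, hφa] at h1
    exact mul_left_cancel₀ halh h1
  let r : K → Localization.Away h := fun c =>
    if hc : c = 0 then 0 else if hc : ∃ r, φ r = c then hc.choose else 0
  have hr0 : r 0 = 0 := by simp [r]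
  have hr : ∀ c ∈ s, φ (r c) = c := by
    intro c hc
    by_cases h0 : c = 0
    · rw [h0, hr0, map_zero]
    · simp only [r, dif_neg h0, dif_pos (hrange c hc)]
      exact (hrange c hc).choose_spec
  let lift : K[T;T⁻¹] → (Localization.Away h)[T;T⁻¹] := fun x => ⟨x.coeff.mapRange r hr0⟩
  have hlift : ∀ x : K[T;T⁻¹], (∀ m, x.coeff m ≠ 0 → x.coeff m ∈ s) → lmap φ (lift x) = x := by
    intro x hx
    ext m
    rw [lmap, AddMonoidAlgebra.coeff_mapRingHom]
    show φ ((x.coeff.mapRange r hr0) m) = _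
    rw [Finsupp.mapRange_apply]
    by_cases h0 : x.coeff m = 0
    · rw [h0, hr0, map_zero]
    · exact hr _ (hx m h0)
  have hliftc : ∀ (x : K[T;T⁻¹]) m, x.coeff m = 0 → (lift x).coeff m = 0 := by
    intro x m hx
    show (x.coeff.mapRange r hr0) m = 0
    rw [Finsupp.mapRange_apply, hx, hr0]
  let X' : Matrix (Fin n) (Fin n) (Localization.Away h)[T;T⁻¹] := Matrix.of fun i j => lift (X i j)
  let Y' : Matrix (Fin n) (Fin n) (Localization.Away h)[T;T⁻¹] := Matrix.of fun i j => lift (Y i j)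
  have hX' : mp φ X' = X := by
    ext1 i j
    refine hlift (X i j) fun m hm => ?_
    simp only [s, Finset.mem_biUnion, Finset.mem_univ, true_and, Finset.mem_union, Finset.mem_image]
    exact ⟨(i, j), Or.inl ⟨m, Finsupp.mem_support_iff.mpr hm, rfl⟩⟩
  have hY' : mp φ Y' = Y := by
    ext1 i j
    refine hlift (Y i j) fun m hm => ?_
    simp only [s, Finset.mem_biUnion, Finset.mem_univ, true_and, Finset.mem_union, Finset.mem_image]
    exact ⟨(i, j), Or.inr ⟨m, Finsupp.mem_support_iff.mpr hm, rfl⟩⟩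
  have hX'G : MGE 0 X' := fun i j m hm => hliftc _ _ (hXG i j m hm)
  have hY'L : MLE 0 Y' := fun i j m hm => hliftc _ _ (hYL i j m hm)
  have hinj := lmap_injective φ hφinj
  have hX'1 : X'.det = 1 := by
    apply hinj
    have := det_mp φ X'
    rw [hX', hX1] at this
    rw [map_one]
    exact this.symm
  have hY'1 : Y'.det = 1 := by
    apply hinj
    have := det_mp φ Y'
    rw [hY', hY1] at this
    rw [map_one]
    exact this.symm
  obtain ⟨a, ha'⟩ := exists_posGL X' hX'G hX'1
  obtain ⟨b, hb'⟩ := exists_negGL Y' hY'L hY'1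
  refine ⟨h, hh0, l, hne, a, b, ?_⟩
  apply Units.ext
  rw [Units.val_mul, Units.val_mul, ha', hb']
  have hmpinj : ∀ M M' : Matrix (Fin n) (Fin n) (Localization.Away h)[T;T⁻¹],
      mp φ M = mp φ M' → M = M' := by
    intro M M' hMM
    ext1 i j
    exact hinj (congrFun (congrFun hMM i) j)
  apply hmpinj
  rw [mp_mul, mp_mul, hX', hY']
  have e1 : mp φ ((Matrix.GeneralLinearGroup.map (lmap (algebraMap A (Localization.Away h))) g :
      Matrix.GeneralLinearGroup (Fin n) (Localization.Away h)[T;T⁻¹]) :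
      Matrix (Fin n) (Fin n) (Localization.Away h)[T;T⁻¹]) =
      (gK : Matrix (Fin n) (Fin n) K[T;T⁻¹]) := by
    ext1 i j
    show lmap φ (lmap (algebraMap A (Localization.Away h)) ((g : Matrix (Fin n) (Fin n) A[T;T⁻¹]) i j)) =
      lmap al ((g : Matrix (Fin n) (Fin n) A[T;T⁻¹]) i j)
    rw [lmap_comp, hφal]
  have e2 : mp φ ((monoGL (Localization.Away h) l :
      Matrix.GeneralLinearGroup (Fin n) (Localization.Away h)[T;T⁻¹]) :
      Matrix (Fin n) (Fin n) (Localization.Away h)[T;T⁻¹]) = mono l := mp_mono φ l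
  rw [e1, e2, hXY]

end B2

end

end Vale.Agent.P286
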