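import Vale.Agent.P286.Loop

/-! Fredholm determinants of operators `1 + (finite rank)` on free modules. -/

namespace Vale.Agent.P286

noncomputable section

section BaseChange

variable {I : Type} {A B D : Type} [CommRing A] [CommRing B] [CommRing D]

theorem bc_single (f : A →+* B) (φ : Module.End A (I →₀ A)) (i : I) :
    bc f φ (Finsupp.single i 1) = (φ (Finsupp.single i 1)).mapRange f (map_zero f) := by
  rw [bc, Finsupp.linearCombination_single, one_smul]

theorem bc_mapRange (f : A →+* B) (φ : Module.End A (I →₀ A)) (x : I →₀ A) :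
    bc f φ (x.mapRange f (map_zero f)) = (φ x).mapRange f (map_zero f) := by
  induction x using Finsupp.induction_linear with
  | zero => simp
  | add x y hx hy =>
    rw [Finsupp.mapRange_add (by simp), map_add, hx, hy, map_add, Finsupp.mapRange_add (by simp)]
  | single i a =>
    rw [Finsupp.mapRange_single]
    have h1 : (Finsupp.single i (f a) : I →₀ B) = f a • Finsupp.single i 1 := by simp
    have h2 : (Finsupp.single i a : I →₀ A) = a • Finsupp.single i 1 := by simp
    rw [h1, h2, map_smul, map_smul, bc_single]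
    ext j
    simp

theorem bc_apply_single (f : A →+* B) (φ : Module.End A (I →₀ A)) (i j : I) :
    bc f φ (Finsupp.single i 1) j = f (φ (Finsupp.single i 1) j) := by
  rw [bc_single, Finsupp.mapRange_apply]

theorem end_ext_single {φ ψ : Module.End A (I →₀ A)}
    (h : ∀ i, φ (Finsupp.single i 1) = ψ (Finsupp.single i 1)) : φ = ψ := by
  ext i : 2
  simpa using h i

theorem bc_id (φ : Module.End A (I →₀ A)) : bc (RingHom.id A) φ = φ :=
  end_ext_single fun i => by ext j; rw [bc_apply_single]; rfl

theorem bc_bc (f : A →+* B) (g : B →+* D) (φ : Module.End A (I →₀ A)) :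
    bc g (bc f φ) = bc (g.comp f) φ :=
  end_ext_single fun i => by
    ext j
    rw [bc_apply_single, bc_apply_single, bc_apply_single]; rfl

theorem bc_mul (f : A →+* B) (φ ψ : Module.End A (I →₀ A)) : bc f (φ * ψ) = bc f φ * bc f ψ :=
  end_ext_single fun i => by
    rw [Module.End.mul_apply, bc_single f ψ, bc_mapRange, bc_single]; rfl

theorem bc_one (f : A →+* B) : bc f (1 : Module.End A (I →₀ A)) = 1 :=
  end_ext_single fun i => by
    rw [bc_single, Module.End.one_apply, Module.End.one_apply, Finsupp.mapRange_single, map_one]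

theorem bc_add (f : A →+* B) (φ ψ : Module.End A (I →₀ A)) : bc f (φ + ψ) = bc f φ + bc f ψ :=
  end_ext_single fun i => by
    ext j
    simp [bc_apply_single]

theorem bc_sub (f : A →+* B) (φ ψ : Module.End A (I →₀ A)) : bc f (φ - ψ) = bc f φ - bc f ψ :=
  end_ext_single fun i => by
    ext j
    simp [bc_apply_single]

/-- Base change as a monoid homomorphism. -/
def bcHom (I : Type) (f : A →+* B) : Module.End A (I →₀ A) →* Module.End B (I →₀ B) where
  toFun := bc f
  map_one' := bc_one f
  map_mul' := bc_mul f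

@[simp] theorem bcHom_apply (f : A →+* B) (φ : Module.End A (I →₀ A)) : bcHom I f φ = bc f φ := rfl

end BaseChange

section FinRank

variable {I : Type} {A B : Type} [CommRing A] [CommRing B]

theorem FinRank.zero : FinRank (0 : Module.End A (I →₀ A)) := ⟨∅, fun x i _ => by simp⟩

theorem FinRank.add {φ ψ : Module.End A (I →₀ A)} (hφ : FinRank φ) (hψ : FinRank ψ) :
    FinRank (φ + ψ) := by
  classical
  obtain ⟨s, hs⟩ := hφ
  obtain ⟨t, ht⟩ := hψ
  refine ⟨s ∪ t, fun x i hi => ?_⟩
  rw [Finset.notMem_union] at hi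
  rw [LinearMap.add_apply, Finsupp.add_apply, hs x i hi.1, ht x i hi.2, add_zero]

theorem FinRank.neg {φ : Module.End A (I →₀ A)} (hφ : FinRank φ) : FinRank (-φ) := by
  obtain ⟨s, hs⟩ := hφ
  exact ⟨s, fun x i hi => by rw [LinearMap.neg_apply, Finsupp.neg_apply, hs x i hi, neg_zero]⟩

theorem FinRank.sub {φ ψ : Module.End A (I →₀ A)} (hφ : FinRank φ) (hψ : FinRank ψ) :
    FinRank (φ - ψ) := by
  have h : φ - ψ = φ + -ψ := sub_eq_add_neg φ ψ
  rw [h]; exact hφ.add hψ.neg

/-- `φ * ψ` has finite rank if `φ` has. -/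
theorem FinRank.mul_right {φ : Module.End A (I →₀ A)} (hφ : FinRank φ) (ψ : Module.End A (I →₀ A)) :
    FinRank (φ * ψ) := by
  obtain ⟨s, hs⟩ := hφ
  exact ⟨s, fun x i hi => hs (ψ x) i hi⟩

/-- Expansion of an operator applied to a vector with support in a finite set. -/
theorem end_apply_eq_sum (φ : Module.End A (I →₀ A)) (s : Finset I) (x : I →₀ A)
    (hx : ∀ i, i ∉ s → x i = 0) (j : I) :
    φ x j = ∑ i ∈ s, x i * φ (Finsupp.single i 1) j := by
  have h : x = ∑ i ∈ s, x i • Finsupp.single i (1 : A) := by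
    conv_lhs => rw [← Finsupp.sum_single x]
    rw [Finsupp.sum]
    have hsub : x.support ⊆ s := fun i hi => by
      by_contra hn
      exact (Finsupp.mem_support_iff.mp hi) (hx i hn)
    rw [Finset.sum_subset hsub]
    · exact Finset.sum_congr rfl fun i _ => by simp
    · intro i _ hi
      rw [Finsupp.notMem_support_iff.mp hi, Finsupp.single_zero]
  conv_lhs => rw [h]
  rw [map_sum, Finsupp.finsetSum_apply]
  exact Finset.sum_congr rfl fun i _ => by rw [map_smul, Finsupp.smul_apply, smul_eq_mul]

/-- `φ * ψ` has finite rank if `ψ` has. -/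
theorem FinRank.mul_left {ψ : Module.End A (I →₀ A)} (hψ : FinRank ψ) (φ : Module.End A (I →₀ A)) :
    FinRank (φ * ψ) := by
  classical
  obtain ⟨s, hs⟩ := hψ
  refine ⟨s.biUnion fun i => (φ (Finsupp.single i 1)).support, fun x j hj => ?_⟩
  rw [Module.End.mul_apply, end_apply_eq_sum φ s (ψ x) (fun i hi => hs x i hi)]
  refine Finset.sum_eq_zero fun i hi => ?_
  have : φ (Finsupp.single i 1) j = 0 := by
    by_contra h
    exact hj (Finset.mem_biUnion.mpr ⟨i, hi, Finsupp.mem_support_iff.mpr h⟩)
  rw [this, mul_zero]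

theorem FinRank.bc (f : A →+* B) {φ : Module.End A (I →₀ A)} (hφ : FinRank φ) :
    FinRank (bc f φ) := by
  obtain ⟨s, hs⟩ := hφ
  refine ⟨s, fun x i hi => ?_⟩
  rw [P286.bc, Finsupp.linearCombination_apply, Finsupp.sum, Finsupp.finsetSum_apply]
  refine Finset.sum_eq_zero fun j _ => ?_
  rw [Finsupp.smul_apply, Finsupp.mapRange_apply, hs _ i hi, map_zero, smul_zero]

theorem mul_sub_one_eq (φ ψ : Module.End A (I →₀ A)) : φ * ψ - 1 = (φ - 1) * ψ + (ψ - 1) := by
  apply LinearMap.ext
  intro x
  simp only [LinearMap.sub_apply, LinearMap.add_apply, Module.End.mul_apply, Module.End.one_apply]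
  abel

theorem FinRank.mul_sub_one {φ ψ : Module.End A (I →₀ A)} (hφ : FinRank (φ - 1))
    (hψ : FinRank (ψ - 1)) : FinRank (φ * ψ - 1) := by
  rw [mul_sub_one_eq]
  exact (hφ.mul_right ψ).add hψ

theorem FinRank.bc_sub_one (f : A →+* B) {φ : Module.End A (I →₀ A)} (hφ : FinRank (φ - 1)) :
    FinRank (P286.bc f φ - 1) := by
  have := FinRank.bc f hφ
  rwa [bc_sub, bc_one] at this

theorem FinRank.inv_sub_one (u : (Module.End A (I →₀ A))ˣ) (hu : FinRank ((u : Module.End A (I →₀ A)) - 1)) :
    FinRank (((u⁻¹ : (Module.End A (I →₀ A))ˣ) : Module.End A (I →₀ A)) - 1) := by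
  have : ((u⁻¹ : (Module.End A (I →₀ A))ˣ) : Module.End A (I →₀ A)) - 1 =
      -(((u⁻¹ : (Module.End A (I →₀ A))ˣ) : Module.End A (I →₀ A)) * ((u : Module.End A (I →₀ A)) - 1)) := by
    apply LinearMap.ext
    intro x
    have h : ((u⁻¹ : (Module.End A (I →₀ A))ˣ) : Module.End A (I →₀ A)) ((u : Module.End A (I →₀ A)) x) = x :=
      LinearMap.congr_fun (Units.inv_mul u) x
    simp only [LinearMap.sub_apply, LinearMap.neg_apply, Module.End.mul_apply,
      Module.End.one_apply, map_sub, h]
    abel
  rw [this]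
  exact (hu.mul_left _).neg

end FinRank

section Fdet

variable {I : Type} {A B : Type} [CommRing A] [CommRing B]

open Classical in
/-- The determinant of `1 + X Y` with `X`, `Y` through a finite free module. -/
theorem det_minor_one_add (κ : Type) [Fintype κ] [DecidableEq κ] (X : (κ → A) →ₗ[A] (I →₀ A))
    (Y : (I →₀ A) →ₗ[A] (κ → A)) (t : Finset I)
    (ht : ∀ k i, i ∉ t → X (Pi.single k 1) i = 0) :
    (minor (1 + X ∘ₗ Y) t).det = (1 + LinearMap.toMatrix' (Y ∘ₗ X)).det := by
  let X' : Matrix t κ A := Matrix.of fun i k => X (Pi.single k 1) (i : I)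
  let Y' : Matrix κ t A := Matrix.of fun k i => Y (Finsupp.single (i : I) 1) k
  have h1 : minor (1 + X ∘ₗ Y) t = 1 + X' * Y' := by
    ext i j
    rw [minor, Matrix.of_apply, Matrix.add_apply, Matrix.mul_apply]
    rw [LinearMap.add_apply, Module.End.one_apply, Finsupp.add_apply]
    congr 1
    · rw [Finsupp.single_apply, Matrix.one_apply]
      simp only [Subtype.ext_iff, eq_comm]
    · rw [LinearMap.comp_apply]
      conv_lhs => rw [pi_eq_sum_univ (Y (Finsupp.single (j : I) 1))]
      rw [map_sum, Finsupp.finsetSum_apply]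
      refine Finset.sum_congr rfl fun k _ => ?_
      rw [map_smul, Finsupp.smul_apply, smul_eq_mul, mul_comm]
      simp only [X', Y', Matrix.of_apply]
      congr 3
      ext k'
      rw [Pi.single_apply]
      simp only [eq_comm]
  have h2 : LinearMap.toMatrix' (Y ∘ₗ X) = Y' * X' := by
    ext k l
    rw [LinearMap.toMatrix'_apply, LinearMap.comp_apply, Matrix.mul_apply]
    have e1 : (fun j' => if j' = l then (1 : A) else 0) = Pi.single l 1 := by
      ext j'; rw [Pi.single_apply]
    have e2 : X (Pi.single l 1) = ∑ i : t, X (Pi.single l 1) (i : I) • Finsupp.single (i : I) (1 : A) := by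
      rw [Finset.sum_coe_sort t (fun i => X (Pi.single l 1) i • Finsupp.single i (1 : A))]
      ext j
      rw [Finsupp.finsetSum_apply]
      by_cases hj : j ∈ t
      · rw [Finset.sum_eq_single j]
        · simp
        · intro b _ hb; simp [hb]
        · intro h; exact absurd hj h
      · rw [ht l j hj]
        symm
        refine Finset.sum_eq_zero fun i hi => ?_
        have : i ≠ j := fun h => hj (h ▸ hi)
        simp [this]
    first
      | rw [e1, e2]
      | rw [e2]
    rw [map_sum, Finset.sum_apply]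
    refine Finset.sum_congr rfl fun i _ => ?_
    rw [map_smul, Pi.smul_apply, smul_eq_mul, mul_comm]
    rfl
  rw [h1, h2]
  exact Matrix.det_one_add_mul_comm X' Y'

open Classical in
theorem fdet_one_add (κ : Type) [Fintype κ] [DecidableEq κ] (X : (κ → A) →ₗ[A] (I →₀ A))
    (Y : (I →₀ A) →ₗ[A] (κ → A)) :
    fdet (1 + X ∘ₗ Y) = (1 + LinearMap.toMatrix' (Y ∘ₗ X)).det := by
  have h : ∃ d : A, ∃ s₀ : Finset I, ∀ s : Finset I, s₀ ⊆ s → (minor (1 + X ∘ₗ Y) s).det = d := by
    refine ⟨(1 + LinearMap.toMatrix' (Y ∘ₗ X)).det,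
      Finset.univ.biUnion fun k => (X (Pi.single k 1)).support, fun s hs => ?_⟩
    refine det_minor_one_add κ X Y s fun k i hi => ?_
    by_contra hne
    exact hi (hs (Finset.mem_biUnion.mpr ⟨k, Finset.mem_univ _, Finsupp.mem_support_iff.mpr hne⟩))
  rw [fdet, dif_pos h]
  obtain ⟨s₁, hs₁⟩ := h.choose_spec
  have h2 := hs₁ (s₁ ∪ Finset.univ.biUnion fun k => (X (Pi.single k 1)).support)
    Finset.subset_union_left
  rw [← h2]
  refine det_minor_one_add κ X Y _ fun k i hi => ?_
  by_contra hne
  exact hi (Finset.mem_union_right _ (Finset.mem_biUnion.mpr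
    ⟨k, Finset.mem_univ _, Finsupp.mem_support_iff.mpr hne⟩))

/-- The inclusion of the coordinates in `s`. -/
def inclS (s : Finset I) : (s → A) →ₗ[A] (I →₀ A) :=
  Fintype.linearCombination A fun i : s => Finsupp.single (i : I) (1 : A)

/-- The projection to the coordinates in `s`. -/
def projS (s : Finset I) : (I →₀ A) →ₗ[A] (s → A) :=
  LinearMap.pi fun i : s => Finsupp.lapply (i : I)

theorem projS_apply (s : Finset I) (x : I →₀ A) (i : s) : projS s x i = x i := rfl

theorem inclS_projS (s : Finset I) (x : I →₀ A) (hx : ∀ i, i ∉ s → x i = 0) :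
    inclS s (projS s x) = x := by
  classical
  ext j
  rw [inclS, Fintype.linearCombination_apply, Finsupp.finsetSum_apply]
  simp only [projS_apply]
  rw [Finset.sum_coe_sort s (fun i => (x i • Finsupp.single i (1 : A)) j)]
  by_cases hj : j ∈ s
  · rw [Finset.sum_eq_single j]
    · simp
    · intro b _ hb; simp [hb]
    · intro h; exact absurd hj h
  · rw [hx j hj]
    refine Finset.sum_eq_zero fun i hi => ?_
    have : i ≠ j := fun h => hj (h ▸ hi)
    simp [this]

theorem inclS_single [DecidableEq I] (s : Finset I) (i : s) :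
    inclS (A := A) s (Pi.single i 1) = Finsupp.single (i : I) 1 := by
  classical
  rw [inclS, Fintype.linearCombination_apply_single, one_smul]

theorem projS_inclS (s : Finset I) (v : s → A) : projS s (inclS s v) = v := by
  classical
  have : projS s ∘ₗ inclS s = (LinearMap.id : (s → A) →ₗ[A] (s → A)) := by
    apply (Pi.basisFun A s).ext
    intro i
    rw [Pi.basisFun_apply, LinearMap.comp_apply, inclS_single]
    ext j
    rw [projS_apply, LinearMap.id_apply, Finsupp.single_apply, Pi.single_apply]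
    simp only [Subtype.ext_iff, eq_comm]
  exact LinearMap.congr_fun this v

/-- A finite rank perturbation of the identity factors through coordinates. -/
theorem eq_one_add {φ : Module.End A (I →₀ A)} {s : Finset I}
    (hs : ∀ x i, i ∉ s → (φ - 1) x i = 0) : φ = 1 + inclS s ∘ₗ (projS s ∘ₗ (φ - 1)) := by
  apply LinearMap.ext
  intro x
  rw [LinearMap.add_apply, LinearMap.comp_apply, LinearMap.comp_apply,
    inclS_projS s _ (fun i hi => hs x i hi), LinearMap.sub_apply]
  abel

open Classical in
theorem toMatrix_minor (φ : Module.End A (I →₀ A)) (s : Finset I) :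
    1 + LinearMap.toMatrix' ((projS s ∘ₗ (φ - 1)) ∘ₗ inclS s) = minor φ s := by
  ext i j
  rw [Matrix.add_apply, LinearMap.toMatrix'_apply, minor, Matrix.of_apply]
  have e1 : (fun j' => if j' = j then (1 : A) else 0) = Pi.single j 1 := by
    ext j'; rw [Pi.single_apply]
  try rw [e1]
  rw [LinearMap.comp_apply, LinearMap.comp_apply, inclS_single, projS_apply, LinearMap.sub_apply,
    Finsupp.sub_apply, Module.End.one_apply, Finsupp.single_apply, Matrix.one_apply]
  by_cases h : i = j
  · subst h; simp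
  · have h' : ¬ ((j : I) = (i : I)) := fun h' => h (Subtype.ext h'.symm)
    simp [h, h']

open Classical in
/-- The Fredholm determinant is the determinant of any minor containing the finite rank part. -/
theorem fdet_eq {φ : Module.End A (I →₀ A)} {s : Finset I}
    (hs : ∀ x i, i ∉ s → (φ - 1) x i = 0) : fdet φ = (minor φ s).det := by
  conv_lhs => rw [eq_one_add hs]
  rw [fdet_one_add, toMatrix_minor]

theorem fdet_one : fdet (1 : Module.End A (I →₀ A)) = 1 := by
  classical
  rw [fdet_eq (s := ∅) (fun x i _ => by simp)]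
  exact Matrix.det_isEmpty

theorem fdet_conj (u : (Module.End A (I →₀ A))ˣ) {φ : Module.End A (I →₀ A)}
    (h : FinRank (φ - 1)) :
    fdet ((u : Module.End A (I →₀ A)) * φ * ((u⁻¹ : (Module.End A (I →₀ A))ˣ) : Module.End A (I →₀ A))) =
      fdet φ := by
  classical
  obtain ⟨s, hs⟩ := h
  have e : (u : Module.End A (I →₀ A)) * φ * ((u⁻¹ : (Module.End A (I →₀ A))ˣ) : Module.End A (I →₀ A)) =
      1 + ((u : Module.End A (I →₀ A)) ∘ₗ inclS s) ∘ₗ
        ((projS s ∘ₗ (φ - 1)) ∘ₗ ((u⁻¹ : (Module.End A (I →₀ A))ˣ) : Module.End A (I →₀ A))) := by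
    conv_lhs => rw [eq_one_add hs]
    rw [mul_add, add_mul, mul_one, Units.mul_inv]
    rfl
  rw [e, fdet_one_add]
  conv_rhs => rw [eq_one_add hs, fdet_one_add]
  congr 3
  apply LinearMap.ext
  intro v
  simp only [LinearMap.comp_apply]
  congr 2
  have : ((u⁻¹ : (Module.End A (I →₀ A))ˣ) : Module.End A (I →₀ A)) * (u : Module.End A (I →₀ A)) = 1 :=
    Units.inv_mul u
  exact LinearMap.congr_fun this (inclS s v)

theorem fdet_mul {φ ψ : Module.End A (I →₀ A)} (hφ : FinRank (φ - 1)) (hψ : FinRank (ψ - 1)) :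
    fdet (φ * ψ) = fdet φ * fdet ψ := by
  classical
  obtain ⟨s, hs⟩ := hφ
  obtain ⟨t, ht⟩ := hψ
  have h1 : ∀ x i, i ∉ s ∪ t → (φ - 1) x i = 0 := fun x i hi =>
    hs x i fun h => hi (Finset.mem_union_left _ h)
  have h2 : ∀ x i, i ∉ s ∪ t → (ψ - 1) x i = 0 := fun x i hi =>
    ht x i fun h => hi (Finset.mem_union_right _ h)
  have h3 : ∀ x i, i ∉ s ∪ t → (φ * ψ - 1) x i = 0 := fun x i hi => by
    rw [mul_sub_one_eq, LinearMap.add_apply, Finsupp.add_apply, h2 x i hi, Module.End.mul_apply,
      h1 _ i hi, add_zero]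
  rw [fdet_eq h1, fdet_eq h2, fdet_eq h3, ← Matrix.det_mul]
  congr 1
  ext i j
  rw [Matrix.mul_apply]
  simp only [minor, Matrix.of_apply]
  rw [Module.End.mul_apply, end_apply_eq_sum φ (s ∪ t) (ψ (Finsupp.single (j : I) 1))]
  · rw [← Finset.sum_coe_sort (s ∪ t)]
    exact Finset.sum_congr rfl fun k _ => mul_comm _ _
  · intro k hk
    have := h2 (Finsupp.single (j : I) 1) k hk
    rw [LinearMap.sub_apply, Finsupp.sub_apply, Module.End.one_apply, sub_eq_zero] at this
    rw [this, Finsupp.single_apply, if_neg]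
    exact fun h => hk (h ▸ j.2)

theorem fdet_bc (f : A →+* B) {φ : Module.End A (I →₀ A)} (h : FinRank (φ - 1)) :
    fdet (bc f φ) = f (fdet φ) := by
  classical
  obtain ⟨s, hs⟩ := h
  have h2 : ∀ x i, i ∉ s → (bc f φ - 1) x i = 0 := by
    intro x i hi
    have e : bc f φ - 1 = bc f (φ - 1) := by rw [bc_sub, bc_one]
    rw [e, P286.bc, Finsupp.linearCombination_apply, Finsupp.sum, Finsupp.finsetSum_apply]
    refine Finset.sum_eq_zero fun j _ => ?_
    rw [Finsupp.smul_apply, Finsupp.mapRange_apply, hs _ i hi, map_zero, smul_zero]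
  rw [fdet_eq hs, fdet_eq h2, RingHom.map_det]
  congr 1
  ext i j
  simp only [minor, Matrix.of_apply, RingHom.mapMatrix_apply, Matrix.map_apply]
  rw [bc_apply_single]

theorem isUnit_fdet {φ : Module.End A (I →₀ A)} (h : FinRank (φ - 1)) (hu : IsUnit φ) :
    IsUnit (fdet φ) := by
  obtain ⟨u, rfl⟩ := hu
  have h2 := FinRank.inv_sub_one u h
  have := fdet_mul h h2
  rw [Units.mul_inv, fdet_one] at this
  exact IsUnit.of_mul_eq_one _ this.symm

theorem isUnit_of_isUnit_fdet {φ : Module.End A (I →₀ A)} (h : FinRank (φ - 1))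
    (hu : IsUnit (fdet φ)) : IsUnit φ := by
  classical
  obtain ⟨s, hs⟩ := h
  rw [fdet_eq hs] at hu
  set M := minor φ s with hM
  have hMu : IsUnit M := (Matrix.isUnit_iff_isUnit_det M).mpr hu
  obtain ⟨m, hm⟩ := hMu
  let P : (s → A) →ₗ[A] (s → A) := Matrix.toLin' M
  let Q : (s → A) →ₗ[A] (s → A) := Matrix.toLin' ((m⁻¹ : (Matrix s s A)ˣ) : Matrix s s A)
  have hPQ : ∀ v, P (Q v) = v := fun v => by
    have : P ∘ₗ Q = LinearMap.id := by
      rw [← Matrix.toLin'_mul, ← hm, Units.mul_inv, Matrix.toLin'_one]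
    exact LinearMap.congr_fun this v
  have hQP : ∀ v, Q (P v) = v := fun v => by
    have : Q ∘ₗ P = LinearMap.id := by
      rw [← Matrix.toLin'_mul, ← hm, Units.inv_mul, Matrix.toLin'_one]
    exact LinearMap.congr_fun this v
  set G := φ - 1 with hG
  have hφ : φ = 1 + G := by rw [hG]; abel
  have hGx : ∀ x, inclS s (projS s (G x)) = G x := fun x => inclS_projS s _ fun i hi => hs x i hi
  -- `P v = v + projS (G (inclS v))`
  have hPv : ∀ v, P v = v + projS s (G (inclS s v)) := by
    intro v
    have := toMatrix_minor φ s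
    rw [← hM] at this
    simp only [P]
    rw [← this, map_add, Matrix.toLin'_one, Matrix.toLin'_toMatrix']
    rfl
  let K : Module.End A (I →₀ A) := 1 - inclS s ∘ₗ Q ∘ₗ projS s ∘ₗ G
  have h1 : φ * K = 1 := by
    apply LinearMap.ext
    intro x
    have e : φ (inclS s (Q (projS s (G x)))) = G x := by
      rw [hφ, LinearMap.add_apply, Module.End.one_apply]
      have h := hPv (Q (projS s (G x)))
      rw [hPQ] at h
      have h' := congrArg (inclS s) h
      rw [hGx, map_add, hGx] at h'
      exact h'.symm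
    have : (φ * K) x = φ x - φ (inclS s (Q (projS s (G x)))) := by
      rw [Module.End.mul_apply]
      simp only [K, LinearMap.sub_apply, Module.End.one_apply, LinearMap.comp_apply, map_sub]
    rw [this, e, hφ, LinearMap.add_apply]
    simp
  have h2 : K * φ = 1 := by
    apply LinearMap.ext
    intro x
    have e : inclS s (Q (projS s (G (φ x)))) = G x := by
      have h3 : projS s (G (φ x)) = P (projS s (G x)) := by
        rw [hPv, hGx, hφ, LinearMap.add_apply, Module.End.one_apply, map_add, map_add]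
      rw [h3, hQP, hGx]
    have : (K * φ) x = φ x - inclS s (Q (projS s (G (φ x)))) := by
      rw [Module.End.mul_apply]
      simp only [K, LinearMap.sub_apply, Module.End.one_apply, LinearMap.comp_apply]
    rw [this, e, hφ, LinearMap.add_apply]
    simp
  exact ⟨⟨φ, K, h1, h2⟩, rfl⟩

end Fdet

end

end Vale.Agent.P286
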