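import Mathlib

/-! Laurent polynomials with bounded exponents, and matrices of such. -/

namespace Vale.Agent.P286

open LaurentPolynomial

section Scalar

variable {R : Type*} [CommRing R] {S : Type*} [CommRing S]

/-- All exponents of `x` are at most `n`. -/
def LE (n : ℤ) (x : R[T;T⁻¹]) : Prop := ∀ m, n < m → x.coeff m = 0

/-- All exponents of `x` are at least `n`. -/
def GE (n : ℤ) (x : R[T;T⁻¹]) : Prop := ∀ m, m < n → x.coeff m = 0

theorem coeff_mul' (x y : R[T;T⁻¹]) (k : ℤ) :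
    (x * y).coeff k = x.coeff.sum fun i a => a * y.coeff (k - i) := by
  classical
  rw [AddMonoidAlgebra.coeff_mul]
  refine Finsupp.sum_congr fun i _ => ?_
  rw [Finsupp.sum]
  have : ∀ j, (if i + j = k then x.coeff i * y.coeff j else 0) =
      if j = k - i then x.coeff i * y.coeff j else 0 := by
    intro j; congr 1; simp only [eq_iff_iff]; constructor <;> intro h <;> omega
  simp only [this]
  rw [Finset.sum_ite_eq']
  split_ifs with h
  · rfl
  · rw [Finsupp.notMem_support_iff.mp h, mul_zero]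

theorem LE.zero (n : ℤ) : LE n (0 : R[T;T⁻¹]) := fun m _ => by simp
theorem GE.zero (n : ℤ) : GE n (0 : R[T;T⁻¹]) := fun m _ => by simp

theorem LE.add {n : ℤ} {x y : R[T;T⁻¹]} (hx : LE n x) (hy : LE n y) : LE n (x + y) := fun m h => by
  simp [hx m h, hy m h]
theorem GE.add {n : ℤ} {x y : R[T;T⁻¹]} (hx : GE n x) (hy : GE n y) : GE n (x + y) := fun m h => by
  simp [hx m h, hy m h]
theorem LE.neg {n : ℤ} {x : R[T;T⁻¹]} (hx : LE n x) : LE n (-x) := fun m h => by
  simp [hx m h]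
theorem GE.neg {n : ℤ} {x : R[T;T⁻¹]} (hx : GE n x) : GE n (-x) := fun m h => by
  simp [hx m h]
theorem LE.sub {n : ℤ} {x y : R[T;T⁻¹]} (hx : LE n x) (hy : LE n y) : LE n (x - y) := by
  rw [sub_eq_add_neg]; exact hx.add hy.neg
theorem GE.sub {n : ℤ} {x y : R[T;T⁻¹]} (hx : GE n x) (hy : GE n y) : GE n (x - y) := by
  rw [sub_eq_add_neg]; exact hx.add hy.neg

theorem LE.mono {n m : ℤ} {x : R[T;T⁻¹]} (hx : LE n x) (h : n ≤ m) : LE m x :=
  fun k hk => hx k (by omega)
theorem GE.mono {n m : ℤ} {x : R[T;T⁻¹]} (hx : GE n x) (h : m ≤ n) : GE m x :=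
  fun k hk => hx k (by omega)

theorem LE.sum {ι : Type*} (s : Finset ι) {n : ℤ} {x : ι → R[T;T⁻¹]} (hx : ∀ i ∈ s, LE n (x i)) :
    LE n (∑ i ∈ s, x i) := by
  classical
  induction s using Finset.induction_on with
  | empty => simpa using LE.zero n
  | insert a s ha ih =>
    rw [Finset.sum_insert ha]
    exact (hx a (Finset.mem_insert_self _ _)).add (ih fun i hi => hx i (Finset.mem_insert_of_mem hi))

theorem GE.sum {ι : Type*} (s : Finset ι) {n : ℤ} {x : ι → R[T;T⁻¹]} (hx : ∀ i ∈ s, GE n (x i)) :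
    GE n (∑ i ∈ s, x i) := by
  classical
  induction s using Finset.induction_on with
  | empty => simpa using GE.zero n
  | insert a s ha ih =>
    rw [Finset.sum_insert ha]
    exact (hx a (Finset.mem_insert_self _ _)).add (ih fun i hi => hx i (Finset.mem_insert_of_mem hi))

theorem LE.mul {n m : ℤ} {x y : R[T;T⁻¹]} (hx : LE n x) (hy : LE m y) : LE (n + m) (x * y) := by
  intro k hk
  rw [coeff_mul']
  refine Finset.sum_eq_zero fun i hi => ?_
  show x.coeff i * y.coeff (k - i) = 0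
  rcases le_or_gt i n with h | h
  · rw [hy (k - i) (by omega), mul_zero]
  · rw [hx i h, zero_mul]

theorem GE.mul {n m : ℤ} {x y : R[T;T⁻¹]} (hx : GE n x) (hy : GE m y) : GE (n + m) (x * y) := by
  intro k hk
  rw [coeff_mul']
  refine Finset.sum_eq_zero fun i hi => ?_
  show x.coeff i * y.coeff (k - i) = 0
  rcases lt_or_ge i n with h | h
  · rw [hx i h, zero_mul]
  · rw [hy (k - i) (by omega), mul_zero]

theorem LE.coeff_mul {n m : ℤ} {x y : R[T;T⁻¹]} (hx : LE n x) (hy : LE m y) :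
    (x * y).coeff (n + m) = x.coeff n * y.coeff m := by
  rw [coeff_mul', Finsupp.sum, Finset.sum_eq_single n]
  · congr 2; omega
  · intro i _ hin
    rcases lt_or_ge n i with h | h
    · rw [hx i h, zero_mul]
    · rw [hy _ (by omega), mul_zero]
  · intro h
    rw [Finsupp.notMem_support_iff.mp h, zero_mul]

theorem GE.coeff_mul {n m : ℤ} {x y : R[T;T⁻¹]} (hx : GE n x) (hy : GE m y) :
    (x * y).coeff (n + m) = x.coeff n * y.coeff m := by
  rw [coeff_mul', Finsupp.sum, Finset.sum_eq_single n]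
  · congr 2; omega
  · intro i _ hin
    rcases lt_or_ge i n with h | h
    · rw [hx i h, zero_mul]
    · rw [hy _ (by omega), mul_zero]
  · intro h
    rw [Finsupp.notMem_support_iff.mp h, zero_mul]

theorem LE.C (r : R) : LE 0 (C r) := fun m h => by
  rw [C_apply, if_neg (by omega)]
theorem GE.C (r : R) : GE 0 (C r) := fun m h => by
  rw [C_apply, if_neg (by omega)]
theorem LE.one : LE 0 (1 : R[T;T⁻¹]) := by simpa using LE.C (1 : R)
theorem GE.one : GE 0 (1 : R[T;T⁻¹]) := by simpa using GE.C (1 : R)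
theorem LE.T (n : ℤ) : LE n (T n : R[T;T⁻¹]) := fun m h => by
  rw [T_apply, if_neg (by omega)]
theorem GE.T (n : ℤ) : GE n (T n : R[T;T⁻¹]) := fun m h => by
  rw [T_apply, if_neg (by omega)]

theorem LE.map (f : R →+* S) {n : ℤ} {x : R[T;T⁻¹]} (hx : LE n x) :
    LE n (AddMonoidAlgebra.mapRingHom ℤ f x) := fun m h => by
  simp [hx m h]
theorem GE.map (f : R →+* S) {n : ℤ} {x : R[T;T⁻¹]} (hx : GE n x) :
    GE n (AddMonoidAlgebra.mapRingHom ℤ f x) := fun m h => by
  simp [hx m h]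

theorem eq_C_of_LE_GE {x : R[T;T⁻¹]} (h1 : LE 0 x) (h2 : GE 0 x) : x = LaurentPolynomial.C (x.coeff 0) := by
  ext m
  rw [C_apply]
  split_ifs with h
  · rw [h]
  · rcases lt_or_gt_of_ne h with h | h
    · exact h2 m h
    · exact h1 m h

theorem eq_zero_of_LE_GE {n m : ℤ} {x : R[T;T⁻¹]} (h1 : LE n x) (h2 : GE m x) (h : n < m) : x = 0 := by
  ext k
  rcases le_or_gt k n with hk | hk
  · simpa using h2 k (by omega)
  · simpa using h1 k hk

theorem exists_LE (x : R[T;T⁻¹]) : ∃ n : ℕ, LE (n : ℤ) x := by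
  refine ⟨x.coeff.support.sup Int.toNat, fun m hm => ?_⟩
  by_contra h
  have := Finset.le_sup (f := Int.toNat) (Finsupp.mem_support_iff.mpr h)
  omega

theorem exists_GE (x : R[T;T⁻¹]) : ∃ n : ℕ, GE (-(n : ℤ)) x := by
  refine ⟨x.coeff.support.sup (fun i => (-i).toNat), fun m hm => ?_⟩
  by_contra h
  have := Finset.le_sup (f := fun i : ℤ => (-i).toNat) (Finsupp.mem_support_iff.mpr h)
  omega

end Scalar

section Matrix

open Matrix

variable {R : Type*} [CommRing R] {S : Type*} [CommRing S]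
variable {l m n : Type*}

/-- All entries have exponents at most `k`. -/
def MLE (k : ℤ) (X : Matrix m n R[T;T⁻¹]) : Prop := ∀ i j, LE k (X i j)
/-- All entries have exponents at least `k`. -/
def MGE (k : ℤ) (X : Matrix m n R[T;T⁻¹]) : Prop := ∀ i j, GE k (X i j)

/-- The matrix of the coefficients of `T ^ k`. -/
def cf (k : ℤ) (X : Matrix m n R[T;T⁻¹]) : Matrix m n R := fun i j => (X i j).coeff k

/-- Base change of a matrix of Laurent polynomials. -/
noncomputable def mp (f : R →+* S) (X : Matrix m n R[T;T⁻¹]) : Matrix m n S[T;T⁻¹] :=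
  X.map (AddMonoidAlgebra.mapRingHom ℤ f)

theorem cf_apply (k : ℤ) (X : Matrix m n R[T;T⁻¹]) (i j) : cf k X i j = (X i j).coeff k := rfl
theorem mp_apply (f : R →+* S) (X : Matrix m n R[T;T⁻¹]) (i j) :
    mp f X i j = AddMonoidAlgebra.mapRingHom ℤ f (X i j) := rfl

theorem cf_ext {X Y : Matrix m n R[T;T⁻¹]} (h : ∀ k, cf k X = cf k Y) : X = Y := by
  ext i j k
  exact congrFun (congrFun (h k) i) j

theorem cf_mp (f : R →+* S) (k : ℤ) (X : Matrix m n R[T;T⁻¹]) : cf k (mp f X) = (cf k X).map f := by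
  ext i j; simp [cf, mp]

theorem cf_add (k : ℤ) (X Y : Matrix m n R[T;T⁻¹]) : cf k (X + Y) = cf k X + cf k Y := by
  ext i j; simp [cf]
theorem cf_sub (k : ℤ) (X Y : Matrix m n R[T;T⁻¹]) : cf k (X - Y) = cf k X - cf k Y := by
  ext i j; simp [cf]
theorem cf_zero (k : ℤ) : cf k (0 : Matrix m n R[T;T⁻¹]) = 0 := by
  ext i j; simp [cf]
theorem cf_smul (k : ℤ) (r : R) (X : Matrix m n R[T;T⁻¹]) : cf k (r • X) = r • cf k X := by
  ext i j; simp [cf]

theorem MLE.cf_eq {k : ℤ} {X : Matrix m n R[T;T⁻¹]} (h : MLE k X) {j : ℤ} (hj : k < j) : cf j X = 0 := by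
  ext i i'; exact h i i' j hj
theorem MGE.cf_eq {k : ℤ} {X : Matrix m n R[T;T⁻¹]} (h : MGE k X) {j : ℤ} (hj : j < k) : cf j X = 0 := by
  ext i i'; exact h i i' j hj
theorem MLE_iff {k : ℤ} {X : Matrix m n R[T;T⁻¹]} : MLE k X ↔ ∀ j, k < j → cf j X = 0 :=
  ⟨fun h _ hj => h.cf_eq hj, fun h i i' j hj => congrFun (congrFun (h j hj) i) i'⟩
theorem MGE_iff {k : ℤ} {X : Matrix m n R[T;T⁻¹]} : MGE k X ↔ ∀ j, j < k → cf j X = 0 :=
  ⟨fun h _ hj => h.cf_eq hj, fun h i i' j hj => congrFun (congrFun (h j hj) i) i'⟩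

theorem MLE.zero (k : ℤ) : MLE k (0 : Matrix m n R[T;T⁻¹]) := fun _ _ => LE.zero k
theorem MGE.zero (k : ℤ) : MGE k (0 : Matrix m n R[T;T⁻¹]) := fun _ _ => GE.zero k
theorem MLE.add {k : ℤ} {X Y : Matrix m n R[T;T⁻¹]} (h : MLE k X) (h' : MLE k Y) : MLE k (X + Y) :=
  fun i j => (h i j).add (h' i j)
theorem MGE.add {k : ℤ} {X Y : Matrix m n R[T;T⁻¹]} (h : MGE k X) (h' : MGE k Y) : MGE k (X + Y) :=
  fun i j => (h i j).add (h' i j)
theorem MLE.sub {k : ℤ} {X Y : Matrix m n R[T;T⁻¹]} (h : MLE k X) (h' : MLE k Y) : MLE k (X - Y) :=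
  fun i j => (h i j).sub (h' i j)
theorem MGE.sub {k : ℤ} {X Y : Matrix m n R[T;T⁻¹]} (h : MGE k X) (h' : MGE k Y) : MGE k (X - Y) :=
  fun i j => (h i j).sub (h' i j)
theorem MLE.mono {k k' : ℤ} {X : Matrix m n R[T;T⁻¹]} (h : MLE k X) (hk : k ≤ k') : MLE k' X :=
  fun i j => (h i j).mono hk
theorem MGE.mono {k k' : ℤ} {X : Matrix m n R[T;T⁻¹]} (h : MGE k X) (hk : k' ≤ k) : MGE k' X :=
  fun i j => (h i j).mono hk

variable [Fintype m]

theorem mp_mul (f : R →+* S) (X : Matrix l m R[T;T⁻¹]) (Y : Matrix m n R[T;T⁻¹]) :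
    mp f (X * Y) = mp f X * mp f Y := Matrix.map_mul

theorem MLE.mul {k k' : ℤ} {X : Matrix l m R[T;T⁻¹]} {Y : Matrix m n R[T;T⁻¹]} (h : MLE k X)
    (h' : MLE k' Y) : MLE (k + k') (X * Y) := fun i j => by
  rw [Matrix.mul_apply]
  exact LE.sum _ fun q _ => (h i q).mul (h' q j)

theorem MGE.mul {k k' : ℤ} {X : Matrix l m R[T;T⁻¹]} {Y : Matrix m n R[T;T⁻¹]} (h : MGE k X)
    (h' : MGE k' Y) : MGE (k + k') (X * Y) := fun i j => by
  rw [Matrix.mul_apply]
  exact GE.sum _ fun q _ => (h i q).mul (h' q j)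

theorem MLE.cf_mul {k k' : ℤ} {X : Matrix l m R[T;T⁻¹]} {Y : Matrix m n R[T;T⁻¹]} (h : MLE k X)
    (h' : MLE k' Y) : cf (k + k') (X * Y) = cf k X * cf k' Y := by
  ext i j
  rw [Matrix.mul_apply, cf_apply, Matrix.mul_apply, AddMonoidAlgebra.coeff_sum, Finsupp.finsetSum_apply]
  exact Finset.sum_congr rfl fun q _ => (h i q).coeff_mul (h' q j)

theorem MGE.cf_mul {k k' : ℤ} {X : Matrix l m R[T;T⁻¹]} {Y : Matrix m n R[T;T⁻¹]} (h : MGE k X)
    (h' : MGE k' Y) : cf (k + k') (X * Y) = cf k X * cf k' Y := by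
  ext i j
  rw [Matrix.mul_apply, cf_apply, Matrix.mul_apply, AddMonoidAlgebra.coeff_sum, Finsupp.finsetSum_apply]
  exact Finset.sum_congr rfl fun q _ => (h i q).coeff_mul (h' q j)

theorem LE.prod_zero {ι : Type*} (s : Finset ι) {x : ι → R[T;T⁻¹]} (hx : ∀ i ∈ s, LE 0 (x i)) :
    LE 0 (∏ i ∈ s, x i) ∧ (∏ i ∈ s, x i).coeff 0 = ∏ i ∈ s, (x i).coeff 0 := by
  classical
  induction s using Finset.induction_on with
  | empty => exact ⟨by simpa using LE.one, by simp [← T_zero]⟩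
  | insert a s ha ih =>
    obtain ⟨h1, h2⟩ := ih fun i hi => hx i (Finset.mem_insert_of_mem hi)
    rw [Finset.prod_insert ha, Finset.prod_insert ha]
    have ha := hx a (Finset.mem_insert_self _ _)
    refine ⟨by simpa using ha.mul h1, ?_⟩
    have := ha.coeff_mul h1
    rw [add_zero] at this
    rw [this, h2]

theorem GE.prod_zero {ι : Type*} (s : Finset ι) {x : ι → R[T;T⁻¹]} (hx : ∀ i ∈ s, GE 0 (x i)) :
    GE 0 (∏ i ∈ s, x i) ∧ (∏ i ∈ s, x i).coeff 0 = ∏ i ∈ s, (x i).coeff 0 := by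
  classical
  induction s using Finset.induction_on with
  | empty => exact ⟨by simpa using GE.one, by simp [← T_zero]⟩
  | insert a s ha ih =>
    obtain ⟨h1, h2⟩ := ih fun i hi => hx i (Finset.mem_insert_of_mem hi)
    rw [Finset.prod_insert ha, Finset.prod_insert ha]
    have ha := hx a (Finset.mem_insert_self _ _)
    refine ⟨by simpa using ha.mul h1, ?_⟩
    have := ha.coeff_mul h1
    rw [add_zero] at this
    rw [this, h2]

variable [DecidableEq m]

theorem MLE.one : MLE 0 (1 : Matrix m m R[T;T⁻¹]) := fun i j => by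
  rw [Matrix.one_apply]; split_ifs
  · exact LE.one
  · exact LE.zero _
theorem MGE.one : MGE 0 (1 : Matrix m m R[T;T⁻¹]) := fun i j => by
  rw [Matrix.one_apply]; split_ifs
  · exact GE.one
  · exact GE.zero _

theorem mp_one (f : R →+* S) : mp f (1 : Matrix m m R[T;T⁻¹]) = 1 :=
  Matrix.map_one _ (map_zero _) (map_one _)

theorem cf_one : cf 0 (1 : Matrix m m R[T;T⁻¹]) = 1 := by
  ext i j
  rw [cf_apply, Matrix.one_apply, Matrix.one_apply]
  split_ifs
  · rw [← T_zero, T_apply, if_pos rfl]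
  · simp

theorem MLE.det {X : Matrix m m R[T;T⁻¹]} (h : MLE 0 X) :
    LE 0 X.det ∧ X.det.coeff 0 = (cf 0 X).det := by
  have key : ∀ σ : Equiv.Perm m, LE 0 (∏ i, X (σ i) i) ∧
      (∏ i, X (σ i) i).coeff 0 = ∏ i, (X (σ i) i).coeff 0 :=
    fun σ => LE.prod_zero _ fun i _ => h _ _
  rw [Matrix.det_apply, Matrix.det_apply]
  constructor
  · refine LE.sum _ fun σ _ => ?_
    rcases Int.units_eq_one_or (Equiv.Perm.sign σ) with h | h <;> rw [h]
    · rw [one_smul]; exact (key σ).1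
    · rw [Units.neg_smul, one_smul]; exact (key σ).1.neg
  · rw [AddMonoidAlgebra.coeff_sum, Finsupp.finsetSum_apply]
    refine Finset.sum_congr rfl fun σ _ => ?_
    rcases Int.units_eq_one_or (Equiv.Perm.sign σ) with h | h <;> rw [h]
    · rw [one_smul, one_smul, (key σ).2]; rfl
    · rw [Units.neg_smul, one_smul, Units.neg_smul, one_smul]
      rw [AddMonoidAlgebra.coeff_neg, Finsupp.neg_apply, (key σ).2]; rfl

theorem MGE.det {X : Matrix m m R[T;T⁻¹]} (h : MGE 0 X) :
    GE 0 X.det ∧ X.det.coeff 0 = (cf 0 X).det := by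
  have key : ∀ σ : Equiv.Perm m, GE 0 (∏ i, X (σ i) i) ∧
      (∏ i, X (σ i) i).coeff 0 = ∏ i, (X (σ i) i).coeff 0 :=
    fun σ => GE.prod_zero _ fun i _ => h _ _
  rw [Matrix.det_apply, Matrix.det_apply]
  constructor
  · refine GE.sum _ fun σ _ => ?_
    rcases Int.units_eq_one_or (Equiv.Perm.sign σ) with h | h <;> rw [h]
    · rw [one_smul]; exact (key σ).1
    · rw [Units.neg_smul, one_smul]; exact (key σ).1.neg
  · rw [AddMonoidAlgebra.coeff_sum, Finsupp.finsetSum_apply]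
    refine Finset.sum_congr rfl fun σ _ => ?_
    rcases Int.units_eq_one_or (Equiv.Perm.sign σ) with h | h <;> rw [h]
    · rw [one_smul, one_smul, (key σ).2]; rfl
    · rw [Units.neg_smul, one_smul, Units.neg_smul, one_smul]
      rw [AddMonoidAlgebra.coeff_neg, Finsupp.neg_apply, (key σ).2]; rfl

theorem det_mp (f : R →+* S) (X : Matrix m m R[T;T⁻¹]) :
    (mp f X).det = AddMonoidAlgebra.mapRingHom ℤ f X.det := by
  rw [RingHom.map_det]; rfl

theorem MLE.adjugate {X : Matrix m m R[T;T⁻¹]} (h : MLE 0 X) : MLE 0 X.adjugate := fun i j => by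
  rw [Matrix.adjugate_apply]
  refine (MLE.det (X := X.updateRow j (Pi.single i 1)) fun p q => ?_).1
  rw [Matrix.updateRow_apply]
  split_ifs
  · rw [Pi.single_apply]; split_ifs
    · exact LE.one
    · exact LE.zero _
  · exact h _ _

theorem MGE.adjugate {X : Matrix m m R[T;T⁻¹]} (h : MGE 0 X) : MGE 0 X.adjugate := fun i j => by
  rw [Matrix.adjugate_apply]
  refine (MGE.det (X := X.updateRow j (Pi.single i 1)) fun p q => ?_).1
  rw [Matrix.updateRow_apply]
  split_ifs
  · rw [Pi.single_apply]; split_ifs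
    · exact GE.one
    · exact GE.zero _
  · exact h _ _

theorem adjugate_mul_self {A : Type*} [CommRing A] {X : Matrix m m A} (h : X.det = 1) :
    X.adjugate * X = 1 := by
  rw [Matrix.adjugate_mul, h, one_smul]

theorem self_mul_adjugate {A : Type*} [CommRing A] {X : Matrix m m A} (h : X.det = 1) :
    X * X.adjugate = 1 := by
  rw [Matrix.mul_adjugate, h, one_smul]

theorem det_adjugate_one {A : Type*} [CommRing A] {X : Matrix m m A} (h : X.det = 1) :
    X.adjugate.det = 1 := by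
  rw [Matrix.det_adjugate, h, one_pow]

theorem mp_adjugate (f : R →+* S) (X : Matrix m m R[T;T⁻¹]) :
    mp f X.adjugate = (mp f X).adjugate :=
  RingHom.map_adjugate _ _

omit [Fintype m] [DecidableEq m] in
theorem exists_MLE [Finite m] [Finite n] (X : Matrix m n R[T;T⁻¹]) : ∃ k : ℕ, MLE (k : ℤ) X := by
  cases nonempty_fintype m
  cases nonempty_fintype n
  choose k hk using fun i j => exists_LE (X i j)
  refine ⟨Finset.univ.sup fun p : m × n => k p.1 p.2, fun i j => (hk i j).mono ?_⟩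
  exact_mod_cast Finset.le_sup (f := fun p : m × n => k p.1 p.2) (Finset.mem_univ (i, j))

omit [Fintype m] [DecidableEq m] in
theorem exists_MGE [Finite m] [Finite n] (X : Matrix m n R[T;T⁻¹]) : ∃ k : ℕ, MGE (-(k : ℤ)) X := by
  cases nonempty_fintype m
  cases nonempty_fintype n
  choose k hk using fun i j => exists_GE (X i j)
  refine ⟨Finset.univ.sup fun p : m × n => k p.1 p.2, fun i j => (hk i j).mono ?_⟩
  have := Finset.le_sup (f := fun p : m × n => k p.1 p.2) (Finset.mem_univ (i, j))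
  simp only at this
  omega

end Matrix

end Vale.Agent.P286
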