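import Vale.Agent.P286.H211.Toep
import Vale.Agent.P286.H211.Birk

/-! The action of a torus on the determinant of cohomology of a split bundle. -/

namespace Vale.Agent.P286

open LaurentPolynomial Matrix

noncomputable section

section Diag

variable {I : Type} {A B : Type} [CommRing A] [CommRing B]

/-- The diagonal operator with entries `d`. -/
def diagOp (d : I → A) : Module.End A (I →₀ A) :=
  Finsupp.linearCombination A fun i => Finsupp.single i (d i)

theorem diagOp_single (d : I → A) (i : I) : diagOp d (Finsupp.single i 1) = Finsupp.single i (d i) := by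
  rw [diagOp, Finsupp.linearCombination_single, one_smul]

theorem diagOp_apply (d : I → A) (x : I →₀ A) (i : I) : diagOp d x i = x i * d i := by
  classical
  rw [diagOp, Finsupp.linearCombination_apply, Finsupp.sum, Finsupp.finsetSum_apply]
  rw [Finset.sum_eq_single i]
  · simp
  · intro j _ hj; simp [hj]
  · intro h; rw [Finsupp.notMem_support_iff.mp h]; simp

theorem diagOp_mul (d d' : I → A) : diagOp d * diagOp d' = diagOp (d * d') := by
  refine LinearMap.ext fun x => ?_
  ext i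
  rw [Module.End.mul_apply, diagOp_apply, diagOp_apply, diagOp_apply, Pi.mul_apply]
  ring

theorem diagOp_one : diagOp (1 : I → A) = 1 := by
  refine LinearMap.ext fun x => ?_
  ext i
  rw [diagOp_apply, Pi.one_apply, mul_one, Module.End.one_apply]

theorem fdet_diagOp (d : I → A) (s : Finset I) (hs : ∀ i, i ∉ s → d i = 1) :
    FinRank (diagOp d - 1) ∧ fdet (diagOp d) = ∏ i ∈ s, d i := by
  classical
  have h : ∀ x i, i ∉ s → (diagOp d - 1) x i = 0 := fun x i hi => by
    rw [LinearMap.sub_apply, Finsupp.sub_apply, diagOp_apply, hs i hi, mul_one,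
      Module.End.one_apply, sub_self]
  refine ⟨⟨s, h⟩, ?_⟩
  rw [fdet_eq h]
  have : minor (diagOp d) s = Matrix.diagonal fun i : s => d i := by
    ext i j
    rw [minor, Matrix.of_apply, diagOp_single, Finsupp.single_apply, Matrix.diagonal_apply]
    by_cases h : i = j
    · subst h; simp
    · have : ¬ ((j : I) = i) := fun h' => h (Subtype.ext h'.symm)
      simp [h, this]
  rw [this, Matrix.det_diagonal, Finset.prod_coe_sort s d]

/-- The permutation operator. -/
def permOp (A : Type) [CommRing A] (σ : Equiv.Perm I) : Module.End A (I →₀ A) :=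
  Finsupp.linearCombination A fun i => Finsupp.single (σ i) 1

theorem permOp_single (σ : Equiv.Perm I) (i : I) :
    permOp A σ (Finsupp.single i 1) = Finsupp.single (σ i) 1 := by
  rw [permOp, Finsupp.linearCombination_single, one_smul]

theorem permOp_mul (σ τ : Equiv.Perm I) : permOp A σ * permOp A τ = permOp A (σ * τ) :=
  end_ext_single fun i => by
    rw [Module.End.mul_apply, permOp_single, permOp_single, permOp_single, Equiv.Perm.mul_apply]

theorem permOp_one : permOp A (1 : Equiv.Perm I) = 1 :=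
  end_ext_single fun i => by rw [permOp_single]; rfl

/-- The permutation operator as a unit. -/
def permU (A : Type) [CommRing A] (σ : Equiv.Perm I) : (Module.End A (I →₀ A))ˣ where
  val := permOp A σ
  inv := permOp A σ⁻¹
  val_inv := by rw [permOp_mul, mul_inv_cancel, permOp_one]
  inv_val := by rw [permOp_mul, inv_mul_cancel, permOp_one]

theorem bc_permOp (f : A →+* B) (σ : Equiv.Perm I) : bc f (permOp A σ) = permOp B σ :=
  end_ext_single fun i => by
    rw [bc_single, permOp_single, permOp_single, Finsupp.mapRange_single, map_one]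

theorem comm_diag_perm (d e : I → A) (hde : d * e = 1) (σ : Equiv.Perm I) :
    diagOp d * permOp A σ * diagOp e * permOp A σ⁻¹ = diagOp fun j => d j * e (σ⁻¹ j) := by
  refine end_ext_single fun j => ?_
  simp only [Module.End.mul_apply]
  rw [permOp_single, diagOp_single]
  have h1 : (Finsupp.single (σ⁻¹ j) (e (σ⁻¹ j)) : I →₀ A) = e (σ⁻¹ j) • Finsupp.single (σ⁻¹ j) 1 := by
    simp
  rw [h1, map_smul, permOp_single, map_smul, diagOp_single, diagOp_single]
  have : σ (σ⁻¹ j) = j := by simp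
  rw [this]
  simp [mul_comm]

end Diag

section Shift

variable {n : ℕ}

/-- The permutation of the basis of `M_n(A[z⁻¹])` which is the shift `z^{λ_p - λ_q}` on
`E_{pq}` where this makes sense. -/
def shiftFun (lam : Fin n → ℤ) (i : Ix n) : Ix n :=
  if lam i.2.1 - lam i.2.2 ≤ (i.1 : ℤ) then
    (((i.1 : ℤ) - (lam i.2.1 - lam i.2.2)).toNat, i.2.1, i.2.2) else (i.1, i.2.2, i.2.1)

theorem shiftFun_neg (lam : Fin n → ℤ) (i : Ix n) : shiftFun (-lam) (shiftFun lam i) = i := by
  obtain ⟨l, p, q⟩ := i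
  simp only [shiftFun, Pi.neg_apply]
  by_cases h : lam p - lam q ≤ (l : ℤ)
  · simp only [if_pos h]
    have h2 : -lam p - -lam q ≤ ((((l : ℤ) - (lam p - lam q)).toNat : ℕ) : ℤ) := by omega
    rw [if_pos h2]
    simp only [Prod.mk.injEq, and_self, and_true]
    omega
  · simp only [if_neg h]
    have h2 : ¬ (-lam q - -lam p ≤ (l : ℤ)) := by omega
    rw [if_neg h2]

/-- The shift permutation. -/
def shift (lam : Fin n → ℤ) : Equiv.Perm (Ix n) where
  toFun := shiftFun lam
  invFun := shiftFun (-lam)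
  left_inv := shiftFun_neg lam
  right_inv := fun i => by
    have := shiftFun_neg (-lam) i
    rwa [neg_neg] at this

theorem shift_inv_apply (lam : Fin n → ℤ) (i : Ix n) : (shift lam)⁻¹ i = shiftFun (-lam) i := rfl

end Shift

section Torus

variable {n : ℕ}

/-- `diag (T ^ (lam i))` as an element of `GL_n`. -/
def monoGL (A : Type) [CommRing A] (lam : Fin n → ℤ) : Matrix.GeneralLinearGroup (Fin n) A[T;T⁻¹] where
  val := mono lam
  inv := mono (-lam)
  val_inv := mono_mul_neg lam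
  inv_val := mono_neg_mul lam

/-- `diag (T ^ (mu i))` as an element of `SL_n(A[T, T⁻¹])`. -/
def tor (A : Type) [CommRing A] (mu : Fin n → ℤ) (h : ∑ i, mu i = 0) :
    Matrix.SpecialLinearGroup (Fin n) A[T;T⁻¹] :=
  ⟨mono mu, by rw [det_mono, h, T_zero]⟩

/-- A constant matrix, as an element of `SL_n(A[z])`. -/
def constSL (n : ℕ) (A : Type) [CommRing A] :
    Matrix.SpecialLinearGroup (Fin n) A →* Matrix.SpecialLinearGroup (Fin n) (Polynomial A) :=
  Matrix.SpecialLinearGroup.map Polynomial.C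

theorem toep_monoGL_single (A : Type) [CommRing A] (lam : Fin n → ℤ) (i : Ix n) :
    toep (monoGL A lam) (Finsupp.single i 1) =
      if lam i.2.1 - lam i.2.2 ≤ (i.1 : ℤ) then Finsupp.single (shiftFun lam i) 1 else 0 := by
  obtain ⟨l, p, q⟩ := i
  rw [toep_apply, toMat_single]
  have h1 : ((monoGL A lam : Matrix.GeneralLinearGroup (Fin n) A[T;T⁻¹]) :
      Matrix (Fin n) (Fin n) A[T;T⁻¹]) = Matrix.diagonal fun i => T (lam i) := rfl
  have h2 : (((monoGL A lam)⁻¹ : Matrix.GeneralLinearGroup (Fin n) A[T;T⁻¹]) :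
      Matrix (Fin n) (Fin n) A[T;T⁻¹]) = Matrix.diagonal fun i => T ((-lam) i) := rfl
  have h3 : (Matrix.diagonal fun i => (T (lam i) : A[T;T⁻¹])) *
      (Matrix.single p q (T (-(l : ℤ))) * Matrix.diagonal fun i => T ((-lam) i)) =
      Matrix.single p q (T (lam p - lam q - l)) := by
    ext1 p' q'
    rw [Matrix.diagonal_mul, Matrix.mul_diagonal, Matrix.single_apply, Matrix.single_apply]
    split_ifs with h
    · obtain ⟨rfl, rfl⟩ := h
      rw [← T_add, ← T_add]
      congr 1
      simp only [Pi.neg_apply]; ring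
    · simp
  rw [h1, h2]
  simp only
  rw [h3]
  ext ⟨l', p', q'⟩
  rw [npart_apply, Matrix.single_apply]
  simp only
  by_cases hpq : p = p' ∧ q = q'
  · obtain ⟨rfl, rfl⟩ := hpq
    rw [if_pos ⟨rfl, rfl⟩, T_apply]
    by_cases hl : lam p - lam q ≤ (l : ℤ)
    · rw [if_pos hl, shiftFun, if_pos hl, Finsupp.single_apply]
      simp only [Prod.mk.injEq, and_self, and_true]
      congr 1
      simp only [eq_iff_iff]
      constructor <;> intro h <;> omega
    · rw [if_neg hl, Finsupp.zero_apply, if_neg (by omega)]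
  · rw [if_neg hpq, AddMonoidAlgebra.coeff_zero, Finsupp.zero_apply]
    split_ifs with hl
    · rw [shiftFun, if_pos hl, Finsupp.single_apply, if_neg]
      simp only [Prod.mk.injEq]
      exact fun h => hpq ⟨h.2.1, h.2.2⟩
    · rfl

theorem finRank_perm_sub (A : Type) [CommRing A] (lam : Fin n → ℤ) :
    FinRank (permOp A (shift lam) - toep (monoGL A lam)) := by
  classical
  obtain ⟨K, hK⟩ : ∃ K : ℕ, ∀ p q, lam p - lam q ≤ (K : ℤ) := by
    refine ⟨Finset.univ.sup fun pq : Fin n × Fin n => (lam pq.1 - lam pq.2).toNat, fun p q => ?_⟩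
    have := Finset.le_sup (f := fun pq : Fin n × Fin n => (lam pq.1 - lam pq.2).toNat)
      (Finset.mem_univ (p, q))
    simp only at this
    omega
  refine ⟨Finset.range K ×ˢ (Finset.univ ×ˢ Finset.univ), fun x i hi => ?_⟩
  have hi' : K ≤ i.1 := by
    by_contra h
    exact hi (by simp; omega)
  induction x using Finsupp.induction_linear with
  | zero => simp
  | add x y hx hy => rw [map_add, Finsupp.add_apply, hx, hy, add_zero]
  | single j a =>
    have h2 : (Finsupp.single j a : Ix n →₀ A) = a • Finsupp.single j 1 := by simp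
    rw [h2, map_smul, Finsupp.smul_apply, LinearMap.sub_apply, permOp_single, toep_monoGL_single]
    have : ((Finsupp.single (shift lam j) 1 : Ix n →₀ A) - (if lam j.2.1 - lam j.2.2 ≤ (j.1 : ℤ) then
        Finsupp.single (shiftFun lam j) (1 : A) else 0)) i = 0 := by
      by_cases h : lam j.2.1 - lam j.2.2 ≤ (j.1 : ℤ)
      · rw [if_pos h]
        show ((Finsupp.single (shiftFun lam j) 1 : Ix n →₀ A) - Finsupp.single (shiftFun lam j) (1 : A)) i = 0
        rw [sub_self, Finsupp.zero_apply]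
      · rw [if_neg h, sub_zero]
        show Finsupp.single (shiftFun lam j) (1 : A) i = 0
        rw [shiftFun, if_neg h, Finsupp.single_apply, if_neg]
        intro heq
        have h1 : j.1 = i.1 := by rw [← heq]
        have := hK j.2.1 j.2.2
        omega
    rw [this, smul_zero]

theorem posGL_constSL (A : Type) [CommRing A] (s : Matrix.SpecialLinearGroup (Fin n) A) :
    ((posGL n A (constSL n A s) : Matrix.GeneralLinearGroup (Fin n) A[T;T⁻¹]) :
      Matrix (Fin n) (Fin n) A[T;T⁻¹]) = (s : Matrix (Fin n) (Fin n) A).map LaurentPolynomial.C := by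
  ext1 p q
  show Polynomial.toLaurent (Polynomial.C ((s : Matrix (Fin n) (Fin n) A) p q)) = _
  rw [Polynomial.toLaurent_C]; rfl

theorem negGL_constSL (A : Type) [CommRing A] (s : Matrix.SpecialLinearGroup (Fin n) A) :
    negGL n A (constSL n A s) = posGL n A (constSL n A s) := by
  apply Units.ext
  ext1 p q
  show invert (Polynomial.toLaurent (Polynomial.C ((s : Matrix (Fin n) (Fin n) A) p q))) =
    Polynomial.toLaurent (Polynomial.C ((s : Matrix (Fin n) (Fin n) A) p q))
  rw [Polynomial.toLaurent_C, invert_C]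

/-- The Toeplitz operator of a torus element is diagonal. -/
theorem toep_tor (A : Type) [CommRing A] (mu : Fin n → ℤ) (h : ∑ i, mu i = 0) :
    toep (posGL n A[T;T⁻¹] (constSL n A[T;T⁻¹] (tor A mu h))) =
      diagOp fun i : Ix n => (T (mu i.2.1 - mu i.2.2) : A[T;T⁻¹]) := by
  refine end_ext_single fun i => ?_
  obtain ⟨l, p, q⟩ := i
  rw [diagOp_single, toep_apply, toMat_single, ← map_inv, ← map_inv]
  rw [posGL_constSL, posGL_constSL]
  have e1 : ((tor A mu h : Matrix.SpecialLinearGroup (Fin n) A[T;T⁻¹]) :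
      Matrix (Fin n) (Fin n) A[T;T⁻¹]) = mono mu := rfl
  have e2 : (((tor A mu h)⁻¹ : Matrix.SpecialLinearGroup (Fin n) A[T;T⁻¹]) :
      Matrix (Fin n) (Fin n) A[T;T⁻¹]) = mono (-mu) := by
    have h1 : ((tor A mu h : Matrix.SpecialLinearGroup (Fin n) A[T;T⁻¹]) :
      Matrix (Fin n) (Fin n) A[T;T⁻¹]) * (((tor A mu h)⁻¹ : Matrix.SpecialLinearGroup (Fin n) A[T;T⁻¹]) :
      Matrix (Fin n) (Fin n) A[T;T⁻¹]) = 1 := by
      rw [← Matrix.SpecialLinearGroup.coe_mul, mul_inv_cancel, Matrix.SpecialLinearGroup.coe_one]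
    rw [e1] at h1
    calc _ = mono (-mu) * (mono mu * (((tor A mu h)⁻¹ : Matrix.SpecialLinearGroup (Fin n) A[T;T⁻¹]) :
      Matrix (Fin n) (Fin n) A[T;T⁻¹])) := by rw [← Matrix.mul_assoc, mono_neg_mul, Matrix.one_mul]
      _ = _ := by rw [h1, Matrix.mul_one]
  rw [e1, e2, mono, mono, Matrix.diagonal_map (map_zero _), Matrix.diagonal_map (map_zero _)]
  ext ⟨l', p', q'⟩ : 1
  rw [npart_apply, Matrix.diagonal_mul, Matrix.mul_diagonal, Matrix.single_apply, Finsupp.single_apply]
  simp only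
  by_cases hpq : p = p' ∧ q = q'
  · obtain ⟨rfl, rfl⟩ := hpq
    rw [if_pos ⟨rfl, rfl⟩]
    have : (LaurentPolynomial.C (T (mu p)) * (T (-(l : ℤ)) * LaurentPolynomial.C (T ((-mu) q))) :
        A[T;T⁻¹][T;T⁻¹]) = LaurentPolynomial.C (T (mu p - mu q)) * T (-(l : ℤ)) := by
      rw [sub_eq_add_neg, T_add, map_mul, Pi.neg_apply]; ring
    rw [this, ← single_eq_C_mul_T, AddMonoidAlgebra.coeff_single, Finsupp.single_apply]
    simp only [Prod.mk.injEq, and_self, and_true]
    congr 1
    simp only [eq_iff_iff]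
    constructor <;> intro h <;> omega
  · rw [if_neg hpq, zero_mul, mul_zero, AddMonoidAlgebra.coeff_zero, Finsupp.zero_apply, if_neg]
    simp only [Prod.mk.injEq]
    exact fun h => hpq ⟨h.2.1, h.2.2⟩

/-- **The weight of the torus on the determinant of cohomology** of a nontrivial split bundle is
not zero. -/
theorem torus_weight (lam : Fin n → ℤ) (hlam : ∃ i j, lam i ≠ lam j) :
    ∃ (mu : Fin n → ℤ) (hmu : ∑ i, mu i = 0) (m : ℤ), m ≠ 0 ∧
      ∀ (A : Type) [CommRing A] (S : (Module.End A (Ix n →₀ A))ˣ),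
        FinRank ((S : Module.End A (Ix n →₀ A)) - toep (monoGL A lam)) →
        fdet (toep (posGL n A[T;T⁻¹] (constSL n A[T;T⁻¹] (tor A mu hmu))) *
          bc (LaurentPolynomial.C) (S : Module.End A (Ix n →₀ A)) *
          toep (negGL n A[T;T⁻¹] (constSL n A[T;T⁻¹] (tor A mu hmu))⁻¹) *
          (((Units.map (bcHom (Ix n) (LaurentPolynomial.C : A →+* A[T;T⁻¹])) S)⁻¹ :
            (Module.End A[T;T⁻¹] (Ix n →₀ A[T;T⁻¹]))ˣ) : Module.End A[T;T⁻¹] (Ix n →₀ A[T;T⁻¹]))) = T m := by
  classical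
  obtain ⟨K, hK⟩ : ∃ K : ℕ, ∀ p q, lam p - lam q ≤ (K : ℤ) := by
    refine ⟨Finset.univ.sup fun pq : Fin n × Fin n => (lam pq.1 - lam pq.2).toNat, fun p q => ?_⟩
    have := Finset.le_sup (f := fun pq : Fin n × Fin n => (lam pq.1 - lam pq.2).toNat)
      (Finset.mem_univ (p, q))
    simp only at this
    omega
  let mu : Fin n → ℤ := fun i => n * lam i - ∑ j, lam j
  have hmu : ∑ i, mu i = 0 := by
    simp only [mu, Finset.sum_sub_distrib, ← Finset.mul_sum, Finset.sum_const, Finset.card_univ,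
      Fintype.card_fin, nsmul_eq_mul, sub_self]
  let nu : Ix n → ℤ := fun i => mu i.2.1 - mu i.2.2
  let F : Finset (Ix n) := Finset.range K ×ˢ (Finset.univ ×ˢ Finset.univ)
  let e : Ix n → ℤ := fun j => nu j - nu ((shift lam)⁻¹ j)
  have he : ∀ j : Ix n, e j = if lam j.2.2 - lam j.2.1 ≤ (j.1 : ℤ) then 0 else
      2 * n * (lam j.2.1 - lam j.2.2) := by
    rintro ⟨l, p, q⟩
    simp only [e, nu, shift_inv_apply, shiftFun, Pi.neg_apply]
    by_cases h : lam q - lam p ≤ (l : ℤ)
    · rw [if_pos h, if_pos (by omega)]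
      simp only [sub_self]
    · rw [if_neg h, if_neg (by omega)]
      simp only [mu]; ring
  have hn : 0 < n := by
    obtain ⟨i, _⟩ := hlam
    exact Fin.pos i
  have hle : ∀ j, e j ≤ 0 := by
    intro j
    rw [he]
    split_ifs with h
    · exact le_refl _
    · have h1 : lam j.2.1 - lam j.2.2 ≤ 0 := by omega
      have h2 : (0 : ℤ) ≤ 2 * n := by positivity
      exact mul_nonpos_of_nonneg_of_nonpos h2 h1
  refine ⟨mu, hmu, ∑ j ∈ F, e j, ?_, ?_⟩
  · obtain ⟨i, j, hij⟩ := hlam
    obtain ⟨p, q, hpq⟩ : ∃ p q, lam p - lam q < 0 := by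
      rcases lt_or_gt_of_ne hij with h | h
      · exact ⟨i, j, by omega⟩
      · exact ⟨j, i, by omega⟩
    have hK1 : 0 < K := by
      have := hK q p
      omega
    have hlt : ∑ j ∈ F, e j < ∑ j ∈ F, (0 : ℤ) := by
      refine Finset.sum_lt_sum (fun j _ => hle j) ⟨(0, p, q), ?_, ?_⟩
      · simp only [F, Finset.mem_product, Finset.mem_range, Finset.mem_univ, and_self, and_true]
        exact hK1
      · rw [he, if_neg (by simp only; omega)]
        have h2 : (0 : ℤ) < 2 * n := by positivity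
        exact mul_neg_of_pos_of_neg h2 hpq
    rw [Finset.sum_const_zero] at hlt
    exact ne_of_lt hlt
  · intro A _ S hS
    set R := A[T;T⁻¹] with hR
    set ι : A →+* A[T;T⁻¹] := LaurentPolynomial.C with hι
    let d : Ix n → A[T;T⁻¹] := fun i => T (nu i)
    let d' : Ix n → A[T;T⁻¹] := fun i => T (-nu i)
    have hdd' : d * d' = 1 := by
      ext1 i
      simp only [Pi.mul_apply, d, d', ← T_add, add_neg_cancel, T_zero, Pi.one_apply]
    have hd'd : d' * d = 1 := by rw [mul_comm, hdd']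
    let Du : (Module.End A[T;T⁻¹] (Ix n →₀ A[T;T⁻¹]))ˣ :=
      ⟨diagOp d, diagOp d', by rw [diagOp_mul, hdd', diagOp_one], by rw [diagOp_mul, hd'd, diagOp_one]⟩
    have h1 : toep (posGL n A[T;T⁻¹] (constSL n A[T;T⁻¹] (tor A mu hmu))) = diagOp d :=
      toep_tor A mu hmu
    have h2 : toep (negGL n A[T;T⁻¹] (constSL n A[T;T⁻¹] (tor A mu hmu))⁻¹) = diagOp d' := by
      rw [← map_inv, negGL_constSL, map_inv]
      have h3 : toep (posGL n A[T;T⁻¹] (constSL n A[T;T⁻¹] (tor A mu hmu))) *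
          toep (posGL n A[T;T⁻¹] (constSL n A[T;T⁻¹] (tor A mu hmu))⁻¹) = 1 := isUnit_toep_pos _
      rw [h1] at h3
      have h4 : diagOp d' * (diagOp d *
          toep (posGL n A[T;T⁻¹] (constSL n A[T;T⁻¹] (tor A mu hmu))⁻¹)) = diagOp d' := by
        rw [h3, mul_one]
      rw [← mul_assoc, diagOp_mul, hd'd, diagOp_one, one_mul] at h4
      exact h4
    rw [h1, h2]
    let P : (Module.End A (Ix n →₀ A))ˣ := permU A (shift lam)
    let PR : (Module.End A[T;T⁻¹] (Ix n →₀ A[T;T⁻¹]))ˣ := permU A[T;T⁻¹] (shift lam)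
    let SR := Units.map (bcHom (Ix n) ι) S
    have hPR : Units.map (bcHom (Ix n) ι) P = PR := Units.ext (bc_permOp ι (shift lam))
    -- `U = S P⁻¹`
    let U : (Module.End A (Ix n →₀ A))ˣ := S * P⁻¹
    have hU : FinRank ((U : Module.End A (Ix n →₀ A)) - 1) := by
      have e1 : (U : Module.End A (Ix n →₀ A)) - 1 =
          ((S : Module.End A (Ix n →₀ A)) - (P : Module.End A (Ix n →₀ A))) *
            ((P⁻¹ : (Module.End A (Ix n →₀ A))ˣ) : Module.End A (Ix n →₀ A)) := by
        refine LinearMap.ext fun x => ?_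
        have h : (P : Module.End A (Ix n →₀ A)) (((P⁻¹ : (Module.End A (Ix n →₀ A))ˣ) : Module.End A (Ix n →₀ A)) x) = x :=
          LinearMap.congr_fun (Units.mul_inv P) x
        rw [LinearMap.sub_apply, Module.End.mul_apply, LinearMap.sub_apply, h, Module.End.one_apply]
        rfl
      rw [e1]
      refine FinRank.mul_right ?_ _
      have h5 : ((S : Module.End A (Ix n →₀ A)) - (P : Module.End A (Ix n →₀ A))) =
          ((S : Module.End A (Ix n →₀ A)) - toep (monoGL A lam)) -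
            (permOp A (shift lam) - toep (monoGL A lam)) := by
        refine LinearMap.ext fun x => ?_
        simp only [LinearMap.sub_apply]
        show _ - permOp A (shift lam) x = _
        abel
      rw [h5]
      exact hS.sub (finRank_perm_sub A lam)
    let UR := Units.map (bcHom (Ix n) ι) U
    have hUR : FinRank ((UR : Module.End A[T;T⁻¹] (Ix n →₀ A[T;T⁻¹])) - 1) := FinRank.bc_sub_one ι hU
    have hSU : SR = UR * PR := by
      rw [← hPR]
      simp only [SR, UR, U]
      rw [← map_mul, inv_mul_cancel_right]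
    -- the commutator
    have hcomm : diagOp d * bc ι (S : Module.End A (Ix n →₀ A)) * diagOp d' *
        ((SR⁻¹ : (Module.End A[T;T⁻¹] (Ix n →₀ A[T;T⁻¹]))ˣ) : Module.End A[T;T⁻¹] (Ix n →₀ A[T;T⁻¹])) =
        ((Du : Module.End A[T;T⁻¹] (Ix n →₀ A[T;T⁻¹])) * (UR : Module.End A[T;T⁻¹] (Ix n →₀ A[T;T⁻¹])) *
          ((Du⁻¹ : (Module.End A[T;T⁻¹] (Ix n →₀ A[T;T⁻¹]))ˣ) : Module.End A[T;T⁻¹] (Ix n →₀ A[T;T⁻¹]))) *
        (diagOp d * permOp A[T;T⁻¹] (shift lam) * diagOp d' * permOp A[T;T⁻¹] (shift lam)⁻¹) *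
        ((UR⁻¹ : (Module.End A[T;T⁻¹] (Ix n →₀ A[T;T⁻¹]))ˣ) : Module.End A[T;T⁻¹] (Ix n →₀ A[T;T⁻¹])) := by
      have h6 : Du * SR * Du⁻¹ * SR⁻¹ = (Du * UR * Du⁻¹) * (Du * PR * Du⁻¹ * PR⁻¹) * UR⁻¹ := by
        rw [hSU]; group
      have h7 := congrArg (fun u : (Module.End A[T;T⁻¹] (Ix n →₀ A[T;T⁻¹]))ˣ =>
        (u : Module.End A[T;T⁻¹] (Ix n →₀ A[T;T⁻¹]))) h6
      exact h7
    rw [hcomm, comm_diag_perm d d' hdd']
    have hdiag : (fun j => d j * d' ((shift lam)⁻¹ j)) = fun j => (T (e j) : A[T;T⁻¹]) := by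
      ext1 j
      simp only [d, d', e, ← T_add, sub_eq_add_neg]
    rw [hdiag]
    have hF : ∀ j, j ∉ F → (T (e j) : A[T;T⁻¹]) = 1 := by
      intro j hj
      have hj' : K ≤ j.1 := by
        by_contra h
        exact hj (by simp only [F, Finset.mem_product, Finset.mem_range, Finset.mem_univ,
          and_self, and_true]; omega)
      have := hK j.2.2 j.2.1
      rw [he, if_pos (by omega), T_zero]
    obtain ⟨hdf, hdd⟩ := fdet_diagOp (fun j => (T (e j) : A[T;T⁻¹])) F hF
    have hDU : FinRank (((Du : Module.End A[T;T⁻¹] (Ix n →₀ A[T;T⁻¹])) * (UR : Module.End A[T;T⁻¹] (Ix n →₀ A[T;T⁻¹])) *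
          ((Du⁻¹ : (Module.End A[T;T⁻¹] (Ix n →₀ A[T;T⁻¹]))ˣ) : Module.End A[T;T⁻¹] (Ix n →₀ A[T;T⁻¹]))) - 1) := by
      have e1 : ((Du : Module.End A[T;T⁻¹] (Ix n →₀ A[T;T⁻¹])) * (UR : Module.End A[T;T⁻¹] (Ix n →₀ A[T;T⁻¹])) *
          ((Du⁻¹ : (Module.End A[T;T⁻¹] (Ix n →₀ A[T;T⁻¹]))ˣ) : Module.End A[T;T⁻¹] (Ix n →₀ A[T;T⁻¹]))) - 1 =
          ((Du : Module.End A[T;T⁻¹] (Ix n →₀ A[T;T⁻¹])) * ((UR : Module.End A[T;T⁻¹] (Ix n →₀ A[T;T⁻¹])) - 1)) *
          ((Du⁻¹ : (Module.End A[T;T⁻¹] (Ix n →₀ A[T;T⁻¹]))ˣ) : Module.End A[T;T⁻¹] (Ix n →₀ A[T;T⁻¹])) := by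
        refine LinearMap.ext fun x => ?_
        have h : (Du : Module.End A[T;T⁻¹] (Ix n →₀ A[T;T⁻¹])) (((Du⁻¹ : (Module.End A[T;T⁻¹] (Ix n →₀ A[T;T⁻¹]))ˣ) : Module.End A[T;T⁻¹] (Ix n →₀ A[T;T⁻¹])) x) = x :=
          LinearMap.congr_fun (Units.mul_inv Du) x
        simp only [LinearMap.sub_apply, Module.End.mul_apply, Module.End.one_apply, map_sub, h]
      rw [e1]
      exact (hUR.mul_left _).mul_right _
    have hUi := FinRank.inv_sub_one UR hUR
    rw [fdet_mul (FinRank.mul_sub_one hDU hdf) hUi, fdet_mul hDU hdf, fdet_conj Du hUR, hdd, prod_T]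
    have h8 := fdet_mul hUR hUi
    rw [Units.mul_inv, fdet_one] at h8
    calc _ = (fdet (UR : Module.End A[T;T⁻¹] (Ix n →₀ A[T;T⁻¹])) *
        fdet ((UR⁻¹ : (Module.End A[T;T⁻¹] (Ix n →₀ A[T;T⁻¹]))ˣ) : Module.End A[T;T⁻¹] (Ix n →₀ A[T;T⁻¹]))) *
          T (∑ i ∈ F, e i) := by ring
      _ = _ := by rw [← h8, one_mul]

end Torus

end

end Vale.Agent.P286
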