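import Vale.Agent.P286.Defs
import Vale.Agent.P286.H211.Torus
import Vale.Agent.P286.H211.QE
import Vale.Agent.P286.H527.Gm

namespace Vale.Agent.P286
open CategoryTheory LaurentPolynomial

section Laurent

variable (A : Type) [CommRing A]

theorem smooth_poly : Algebra.Smooth A (Polynomial A) :=
  have : Algebra.Smooth A (MvPolynomial PUnit.{1} A) := ⟨inferInstance, inferInstance⟩
  Algebra.Smooth.of_equiv (MvPolynomial.uniqueAlgEquiv A PUnit.{1})

theorem smooth_laurent : Algebra.Smooth A A[T;T⁻¹] := by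
  have : IsScalarTower A (Polynomial A) A[T;T⁻¹] := by
    refine IsScalarTower.of_algebraMap_eq fun r => ?_
    simp
  have := smooth_poly A
  have : Algebra.Smooth (Polynomial A) A[T;T⁻¹] :=
    Algebra.Smooth.of_isLocalization_Away (Polynomial.X : Polynomial A)
  exact Algebra.Smooth.comp A (Polynomial A) A[T;T⁻¹]

/-- The Euler vector field `T ∂/∂T`. -/
noncomputable def eulerL : A[T;T⁻¹] →ₗ[A] A[T;T⁻¹] :=
  (Finsupp.lsum A (fun k : ℤ => (k : A) • (LinearMap.toSpanSingleton A A[T;T⁻¹] (T k)))).comp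
    (AddMonoidAlgebra.coeffLinearEquiv A).toLinearMap

theorem eulerL_C_mul_T (a : A) (k : ℤ) : eulerL A (C a * T k) = (k : A[T;T⁻¹]) * (C a * T k) := by
  rw [← single_eq_C_mul_T]
  change Finsupp.lsum A (fun k : ℤ => (k : A) • (LinearMap.toSpanSingleton A A[T;T⁻¹] (T k)))
    (Finsupp.single k a) = _
  rw [Finsupp.lsum_single, LinearMap.smul_apply, LinearMap.toSpanSingleton_apply, single_eq_C_mul_T,
    smul_eq_C_mul, smul_eq_C_mul]
  simp

theorem eulerL_mul (f g : A[T;T⁻¹]) : eulerL A (f * g) = f * eulerL A g + g * eulerL A f := by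
  induction f using LaurentPolynomial.induction_on' with
  | add p q hp hq => rw [add_mul, map_add, hp, hq, map_add]; ring
  | C_mul_T n a =>
    induction g using LaurentPolynomial.induction_on' with
    | add p q hp hq => rw [mul_add, map_add, hp, hq, map_add]; ring
    | C_mul_T m b =>
      have e : (C a * T n) * (C b * T m) = C (a * b) * T (n + m) := by
        rw [T_add, map_mul]; ring
      rw [e, eulerL_C_mul_T, eulerL_C_mul_T, eulerL_C_mul_T, T_add, map_mul]
      push_cast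
      ring

/-- The Euler vector field `T ∂/∂T`. -/
noncomputable def euler [Algebra ℂ A] : Derivation ℂ A[T;T⁻¹] A[T;T⁻¹] :=
  (Derivation.mk' (eulerL A) fun f g => by
    rw [eulerL_mul]; rfl : Derivation A A[T;T⁻¹] A[T;T⁻¹]).restrictScalars ℂ


theorem euler_C_mul_T [Algebra ℂ A] (a : A) (k : ℤ) :
    euler A (C a * T k) = (k : A[T;T⁻¹]) * (C a * T k) := eulerL_C_mul_T A a k

theorem euler_C [Algebra ℂ A] (a : A) : euler A (C a) = 0 := by
  have := euler_C_mul_T A a 0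
  simpa using this

theorem euler_T [Algebra ℂ A] (k : ℤ) : euler A (T k) = (k : A[T;T⁻¹]) * T k := by
  have := euler_C_mul_T A 1 k
  simpa using this

end Laurent

section GmBG

/-- The smooth algebra of Laurent polynomials. -/
noncomputable def SmAlg.lau (A : SmAlg) : SmAlg where
  R := A.R[T;T⁻¹]
  smooth := by
    have := smooth_laurent A.R
    exact Algebra.Smooth.comp ℂ A.R A.R[T;T⁻¹]

/-- The inclusion of the constants. -/
noncomputable def SmAlg.lauC (A : SmAlg) : A.R →ₐ[ℂ] A.lau.R :=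
  IsScalarTower.toAlgHom ℂ A.R A.R[T;T⁻¹]

theorem SmAlg.lauC_apply (A : SmAlg) (a : A.R) : A.lauC a = (C a : A.R[T;T⁻¹]) := rfl

/-- Evaluation at a constant. -/
noncomputable def SmAlg.lauEv (A : SmAlg) (ζ : ℂˣ) : A.lau.R →ₐ[ℂ] A.R where
  __ := LaurentPolynomial.eval₂ (RingHom.id A.R) (Units.map (algebraMap ℂ A.R) ζ)
  commutes' r := by
    change LaurentPolynomial.eval₂ _ _ (C (algebraMap ℂ A.R r)) = _
    rw [eval₂_C]
    rfl

theorem SmAlg.lauEv_C (A : SmAlg) (ζ : ℂˣ) (a : A.R) : A.lauEv ζ (C a : A.R[T;T⁻¹]) = a :=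
  eval₂_C _ _ _

theorem SmAlg.lauEv_T (A : SmAlg) (ζ : ℂˣ) (k : ℤ) :
    A.lauEv ζ (T k : A.R[T;T⁻¹]) = algebraMap ℂ A.R ((ζ ^ k : ℂˣ) : ℂ) := by
  change LaurentPolynomial.eval₂ _ _ (T k) = _
  rw [eval₂_T, ← map_zpow]
  rfl

/-- The weights `(1, …, 1, 1 - n)`. -/
def muW (n : ℕ) (i : Fin n) : ℤ := if (i : ℕ) + 1 = n then 1 - n else 1

theorem sum_muW {n : ℕ} (hn : 0 < n) : ∑ i, muW n i = 0 := by
  obtain ⟨m, rfl⟩ : ∃ m, n = m + 1 := ⟨n - 1, by omega⟩
  rw [Fin.sum_univ_castSucc]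
  simp [muW]
  rw [Finset.sum_congr rfl (g := fun _ => (1 : ℤ)) (fun x _ => if_neg (by omega))]
  simp

/-- `BG`, as a definition which is not unfolded automatically. -/
def BGd (n d : ℕ) : Site := BG n d

/-- A test object of `BG`. -/
def BG.pt (n d : ℕ) (A : SmAlg) : (BGd n d).C := (⟨A⟩ : BGObj n)

/-- A morphism of test objects of `BG`. -/
def BG.mor (n d : ℕ) {A B : SmAlg} (f : A.R →ₐ[ℂ] B.R) (h : Matrix.SpecialLinearGroup (Fin n) B.R) :
    BG.pt n d A ⟶ BG.pt n d B := (⟨f, h⟩ : BGHom (⟨A⟩ : BGObj n) (⟨B⟩ : BGObj n))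

/-- The basis of the Laurent polynomials. -/
noncomputable def SmAlg.lauE (A : SmAlg) :
    letI : Module A.R A.lau.R := Module.compHom A.lau.R A.lauC.toRingHom
    (ℤ →₀ A.R) ≃ₗ[A.R] A.lau.R :=
  letI : Module A.R A.lau.R := Module.compHom A.lau.R A.lauC.toRingHom
  { toFun := fun x => (AddMonoidAlgebra.ofCoeff x : A.R[T;T⁻¹])
    invFun := fun x => (x : A.R[T;T⁻¹]).coeff
    map_add' := fun _ _ => rfl
    map_smul' := fun a x => smul_eq_C_mul a (AddMonoidAlgebra.ofCoeff x : A.R[T;T⁻¹])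
    left_inv := fun _ => rfl
    right_inv := fun _ => rfl }

/-- The one-parameter group `diag (T, …, T, T^(1-n))`. -/
noncomputable def bgGm {n : ℕ} (hn : 0 < n) (d : ℕ) (A : SmAlg) :
    GmData (BGd n d) (BG.pt n d A) (BG.pt n d A.lau) where
  ι := BG.mor n d A.lauC 1
  e k := (T k : A.R[T;T⁻¹])
  E := A.lauE
  hE k := rfl
  e_zero := T_zero
  v := euler A.R
  v_res a := euler_C A.R a
  v_e k := euler_T A.R k
  v_dl := Derivation.map_one_eq_zero (euler A.R)
  σ := BG.mor n d (AlgHom.id ℂ A.lau.R) (tor A.R (muW n) (sum_muW hn))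
  res_σ := rfl
  c := 0
  v_dlσ := by
    rw [map_zero, zero_mul]
    exact Derivation.map_one_eq_zero (euler A.R)

/-- The central element `ζ` of `SL_n`. -/
def centSL (n : ℕ) (A : Type) [CommRing A] [Algebra ℂ A] (ζ : ℂ) (h : ζ ^ n = 1) :
    Matrix.SpecialLinearGroup (Fin n) A :=
  ⟨Matrix.scalar (Fin n) (algebraMap ℂ A ζ), by
    rw [Matrix.scalar_apply, Matrix.det_diagonal, Finset.prod_const, Finset.card_univ,
      Fintype.card_fin, ← map_pow, h, map_one]⟩

theorem centSL_comm {n : ℕ} {A : Type} [CommRing A] [Algebra ℂ A] (ζ : ℂ) (h : ζ ^ n = 1)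
    (g : Matrix.SpecialLinearGroup (Fin n) A) : centSL n A ζ h * g = g * centSL n A ζ h := by
  apply Subtype.ext
  exact Matrix.scalar_comm _ (fun r => Commute.all _ _) _

theorem centSL_mul {n : ℕ} {A : Type} [CommRing A] [Algebra ℂ A] (ζ ξ : ℂ) (h : ζ ^ n = 1)
    (h' : ξ ^ n = 1) : centSL n A ζ h * centSL n A ξ h' =
      centSL n A (ζ * ξ) (by rw [mul_pow, h, h', mul_one]) := by
  apply Subtype.ext
  change Matrix.scalar (Fin n) (algebraMap ℂ A ζ) * Matrix.scalar (Fin n) (algebraMap ℂ A ξ) =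
    Matrix.scalar (Fin n) (algebraMap ℂ A (ζ * ξ))
  rw [← map_mul, ← map_mul]

theorem centSL_one {n : ℕ} {A : Type} [CommRing A] [Algebra ℂ A] :
    centSL n A 1 (one_pow n) = 1 := by
  apply Subtype.ext
  change Matrix.scalar (Fin n) (algebraMap ℂ A 1) = 1
  rw [map_one, map_one]

theorem centSL_map {n : ℕ} {A B : Type} [CommRing A] [Algebra ℂ A] [CommRing B] [Algebra ℂ B]
    (f : A →ₐ[ℂ] B) (ζ : ℂ) (h : ζ ^ n = 1) :
    Matrix.SpecialLinearGroup.map (f : A →+* B) (centSL n A ζ h) = centSL n B ζ h := by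
  apply Subtype.ext
  change (Matrix.diagonal fun _ => algebraMap ℂ A ζ).map f = Matrix.diagonal fun _ => algebraMap ℂ B ζ
  rw [Matrix.diagonal_map (map_zero f)]
  congr 1
  funext i
  exact f.commutes ζ

/-- The central element `ζ` as an automorphism of a test object. -/
def BG.cent (n d : ℕ) (X : (BGd n d).C) (ζ : ℂ) (h : ζ ^ n = 1) : X ⟶ X :=
  (⟨AlgHom.id ℂ _, centSL n _ ζ h⟩ : BGHom (X : BGObj n) (X : BGObj n))

theorem BG.res_cent {n d : ℕ} (X : (BGd n d).C) (ζ : ℂ) (h : ζ ^ n = 1) :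
    (BGd n d).res (BG.cent n d X ζ h) = AlgHom.id ℂ _ := rfl

theorem BG.cent_comm {n d : ℕ} {X Y : (BGd n d).C} (φ : X ⟶ Y) (ζ : ℂ) (h : ζ ^ n = 1) :
    BG.cent n d X ζ h ≫ φ = φ ≫ BG.cent n d Y ζ h := by
  refine BGHom.ext ?_ ?_
  · rfl
  · change BGHom.h φ * Matrix.SpecialLinearGroup.map _ (centSL n _ ζ h) =
      centSL n _ ζ h * Matrix.SpecialLinearGroup.map _ (BGHom.h φ)
    rw [centSL_map, centSL_comm]
    rfl

theorem BG.cent_mul {n d : ℕ} (X : (BGd n d).C) (ζ ξ : ℂ) (h : ζ ^ n = 1) (h' : ξ ^ n = 1) :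
    BG.cent n d X ζ h ≫ BG.cent n d X ξ h' = BG.cent n d X (ξ * ζ) (by rw [mul_pow, h, h', mul_one]) := by
  refine BGHom.ext ?_ ?_
  · rfl
  · refine (congrArg (centSL n _ ξ h' * ·) (centSL_map _ ζ h)).trans ?_
    exact centSL_mul ξ ζ h' h

theorem BG.cent_one {n d : ℕ} (X : (BGd n d).C) :
    BG.cent n d X 1 (one_pow n) = 𝟙 X := by
  refine BGHom.ext ?_ ?_
  · rfl
  · exact centSL_one

theorem map_ev_tor {n : ℕ} (hn : 0 < n) {A : Type} [CommRing A] [Algebra ℂ A] (ζ : ℂˣ)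
    (h : (ζ : ℂ) ^ n = 1) (f : A[T;T⁻¹] →+* A)
    (hf : ∀ k : ℤ, f (T k) = algebraMap ℂ A ((ζ ^ k : ℂˣ) : ℂ)) :
    Matrix.SpecialLinearGroup.map f (tor A (muW n) (sum_muW hn)) = centSL n A ζ h := by
  apply Subtype.ext
  change (Matrix.diagonal fun i => (T (muW n i) : A[T;T⁻¹])).map f =
    Matrix.diagonal fun _ => algebraMap ℂ A ζ
  rw [Matrix.diagonal_map (map_zero _)]
  congr 1
  funext i
  refine (hf _).trans ?_
  congr 2
  have h1 : ζ ^ (n : ℤ) = 1 := by
    apply Units.ext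
    rw [zpow_natCast, Units.val_pow_eq_pow_val, h, Units.val_one]
  rw [muW]
  split_ifs
  · rw [zpow_sub, h1, zpow_one, inv_one, mul_one]
  · rw [zpow_one]

theorem BG.ι_σ_ev {n d : ℕ} (hn : 0 < n) (A : SmAlg) (ζ : ℂˣ) (h : (ζ : ℂ) ^ n = 1) :
    (bgGm hn d A).ι ≫ (bgGm hn d A).σ ≫ BG.mor n d (A.lauEv ζ) 1 =
      BG.cent n d (BG.pt n d A) ζ h := by
  refine BGHom.ext ?_ ?_
  · apply AlgHom.ext
    intro a
    exact A.lauEv_C ζ a
  · refine Eq.trans ?_ (map_ev_tor hn ζ h (A.lauEv ζ : A.lau.R →+* A.R) (A.lauEv_T ζ))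
    refine (congrArg (((1 : Matrix.SpecialLinearGroup (Fin n) A.R) *
      Matrix.SpecialLinearGroup.map ((A.lauEv ζ : A.lau.R →+* A.R) : A.R[T;T⁻¹] →+* A.R)
      (tor A.R (muW n) (sum_muW hn))) * ·) (map_one (Matrix.SpecialLinearGroup.map
      (((A.lauEv ζ).comp (AlgHom.id ℂ A.lau.R) : A.lau.R →ₐ[ℂ] A.R) : A.lau.R →+* A.R)))).trans ?_
    rw [mul_one, one_mul]
    rfl

theorem BG.ι_ev {n d : ℕ} (hn : 0 < n) (A : SmAlg) (ζ : ℂˣ) :
    (bgGm hn d A).ι ≫ BG.mor n d (A.lauEv ζ) 1 = 𝟙 (BG.pt n d A) := by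
  refine BGHom.ext ?_ ?_
  · apply AlgHom.ext
    intro a
    exact A.lauEv_C ζ a
  · exact (one_mul _).trans (map_one (Matrix.SpecialLinearGroup.map
      (A.lauEv ζ : A.lau.R →+* A.R)))

/-- The centre acts trivially on the cohomology of a cartesian complex. -/
theorem BG.cent_bd {n d : ℕ} (hn : 0 < n) {s : ℂ} {K : TCx (BGd n d) s} (hK : Cartesian K)
    (X : (BGd n d).C) (ζ : ℂ) (h : ζ ^ n = 1) (j : ℤ) (z : K.obj j X) (hz : K.Cyc X j z) :
    K.Bd X j (K.map (BG.cent n d X ζ h) j z - z) := by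
  obtain ⟨A, rfl⟩ : ∃ A, X = BG.pt n d A := ⟨BGObj.A X, rfl⟩
  have hζ : ζ ≠ 0 := by
    rintro rfl
    rw [zero_pow hn.ne'] at h
    exact zero_ne_one h
  obtain ⟨z', hz', h'⟩ := (bgGm hn d A).const hK rfl j z hz
  have h1 := h'.map (BG.mor n d (A.lauEv (Units.mk0 ζ hζ)) 1)
  have h2 := h'.map (BG.mor n d (A.lauEv 1) 1)
  rw [map_sub, ← K.map_comp, ← K.map_comp, ← K.map_comp, BG.ι_ev] at h1 h2
  rw [BG.ι_σ_ev hn A (Units.mk0 ζ hζ) h] at h1
  rw [BG.ι_σ_ev hn A 1 (one_pow n)] at h2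
  have h3 := h1.sub h2
  have e : BG.cent n d (BG.pt n d A) ((1 : ℂˣ) : ℂ) (one_pow n) = 𝟙 _ := BG.cent_one _
  rw [e, K.map_id, K.map_id] at h3
  simpa using h3

end GmBG

/-! ### The functor which forgets that `μ_d` acts trivially -/

section Incl

variable {n d : ℕ} {s : ℂ}

theorem BG.mem_cen (hd : d ∣ n) (X : (BGd n d).C) (φ : X ⟶ X) (h : φ ∈ (BGd n d).cen X) :
    ∃ ζ : ℂ, ∃ (h : ζ ^ n = 1), ζ ^ d = 1 ∧ φ = BG.cent n d X ζ h := by
  obtain ⟨h1, ζ, hζ, h2⟩ := h
  refine ⟨ζ, ?_, hζ, ?_⟩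
  · obtain ⟨k, rfl⟩ := hd
    rw [pow_mul, hζ, one_pow]
  · refine BGHom.ext h1 ?_
    exact Subtype.ext h2

theorem BG.cent_mem_cen (X : (BGd n d).C) (ζ : ℂ) (h : ζ ^ n = 1) (hζ : ζ ^ d = 1) :
    BG.cent n d X ζ h ∈ (BGd n d).cen X := ⟨rfl, ζ, hζ, rfl⟩

/-- The forgetful functor on objects. -/
def inclObj (n d : ℕ) (s : ℂ) (M : TDMod (BGd n d) s) : TDMod (BGd n 1) s where
  M := M.M
  grp := M.grp
  mod := M.mod
  act := M.act
  act_add := M.act_add
  add_act := M.add_act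
  smul_act := M.smul_act
  leibniz := M.leibniz
  lie_act := M.lie_act
  map := M.map
  map_smul := M.map_smul
  map_id := M.map_id
  map_comp := M.map_comp
  map_act := M.map_act
  map_cen X φ h m := by
    obtain ⟨ζ, h1, h2, rfl⟩ := BG.mem_cen (one_dvd n) X φ h
    rw [pow_one] at h2
    subst h2
    exact (congrArg (fun ψ => M.map (X := X) (Y := X) ψ m) (BG.cent_one (n := n) (d := 1) X)).trans
      (M.map_id X m)

/-- The forgetful functor. -/
def incl (n d : ℕ) (s : ℂ) : TDMod (BGd n d) s ⥤ TDMod (BGd n 1) s where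
  obj M := inclObj n d s M
  map {M N} f :=
    { app := TDMod.Hom.app (M := M) (N := N) f
      act := TDMod.Hom.act (M := M) (N := N) f
      nat := TDMod.Hom.nat (M := M) (N := N) f }

instance : (incl n d s).Additive where
  map_add := rfl

instance : (incl n d s).Linear ℂ where
  map_smul _ _ := rfl

theorem presCart_incl (n d : ℕ) (s : ℂ) : PresCart (incl n d s) where
  cart _ hK := hK
  qis _ _ _ _ _ hu := hu

end Incl

/-! ### Invariants -/

section Inv

variable {n : ℕ} {s : ℂ}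

/-- The invariants under `μ_d`. -/
def invSub (n d : ℕ) {s : ℂ} (M : TDMod (BGd n 1) s) (X : (BGd n 1).C) :
    Submodule ((BGd n 1).R X) (M.M X) where
  carrier := {m | ∀ (ζ : ℂ) (h : ζ ^ n = 1), ζ ^ d = 1 → M.map (BG.cent n 1 X ζ h) m = m}
  add_mem' {a b} ha hb ζ h h' := by rw [map_add, ha ζ h h', hb ζ h h']
  zero_mem' ζ h h' := map_zero _
  smul_mem' c m hm ζ h h' := by
    rw [M.map_smul, hm ζ h h']
    rfl

theorem act_cent (M : TDMod (BGd n 1) s) (X : (BGd n 1).C) (ζ : ℂ) (h : ζ ^ n = 1)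
    (v : (BGd n 1).Der X) (m : M.M X) :
    M.act X v (M.map (BG.cent n 1 X ζ h) m) = M.map (BG.cent n 1 X ζ h) (M.act X v m) := by
  have h1 := M.map_act (BG.cent n 1 X ζ h) v 1 ![1] ![v] (by intro a; simp [BG.res_cent]) m
  have h2 : v ((BGd n 1).dl (BG.cent n 1 X ζ h) : (BGd n 1).R X) = 0 :=
    Derivation.map_one_eq_zero v
  rw [h2, mul_zero, zero_smul, sub_zero] at h1
  simpa using h1

theorem map_mem_invSub {d : ℕ} (M : TDMod (BGd n 1) s) {X Y : (BGd n 1).C} (φ : X ⟶ Y) {m : M.M X}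
    (hm : m ∈ invSub n d M X) : M.map φ m ∈ invSub n d M Y := by
  intro ζ h h'
  rw [← M.map_comp, ← BG.cent_comm, M.map_comp, hm ζ h h']

theorem act_mem_invSub {d : ℕ} (M : TDMod (BGd n 1) s) {X : (BGd n 1).C} (v : (BGd n 1).Der X)
    {m : M.M X} (hm : m ∈ invSub n d M X) : M.act X v m ∈ invSub n d M X := by
  intro ζ h h'
  rw [← act_cent, hm ζ h h']

/-- The `μ_d`-invariants of a `D`-module on `BSL_n`. -/
def invObj₁ (n d : ℕ) (s : ℂ) (M : TDMod (BGd n 1) s) : TDMod (BGd n 1) s where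
  M X := invSub n d M X
  act X v m := ⟨M.act X v m.1, act_mem_invSub M v m.2⟩
  act_add X v m m' := Subtype.ext (M.act_add X v m m')
  add_act X v w m := Subtype.ext (M.add_act X v w m)
  smul_act X a v m := Subtype.ext (M.smul_act X a v m)
  leibniz X v a m := Subtype.ext (M.leibniz X v a m)
  lie_act X v w m := Subtype.ext (M.lie_act X v w m)
  map {X Y} φ :=
    { toFun := fun m => ⟨M.map φ m.1, map_mem_invSub M φ m.2⟩
      map_zero' := Subtype.ext (map_zero _)
      map_add' := fun m m' => Subtype.ext (map_add _ _ _) }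
  map_smul φ a m := Subtype.ext (M.map_smul φ a m)
  map_id X m := Subtype.ext (M.map_id X m)
  map_comp φ ψ m := Subtype.ext (M.map_comp φ ψ m)
  map_act {X Y} φ w k c v hv m := by
    apply Subtype.ext
    refine (M.map_act φ w k c v hv m).trans ?_
    rw [AddSubgroupClass.coe_sub]
    congr 1
    rw [AddSubmonoidClass.coe_finsetSum]
    rfl
  map_cen X φ h m := Subtype.ext (M.map_cen X φ h m)

theorem invObj₁_cen (n d : ℕ) (hd : d ∣ n) (s : ℂ) (M : TDMod (BGd n 1) s) (X : (BGd n d).C)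
    (φ : X ⟶ X) (h : φ ∈ (BGd n d).cen X) (m : (invObj₁ n d s M).M X) :
    (invObj₁ n d s M).map (X := X) (Y := X) φ m = m := by
  obtain ⟨ζ, h1, h2, rfl⟩ := BG.mem_cen hd X φ h
  exact Subtype.ext (m.2 ζ h1 h2)

/-- A `D`-module on `BSL_n` on which `μ_d` acts trivially. -/
def relabel (n d : ℕ) (s : ℂ) (M : TDMod (BGd n 1) s)
    (H : ∀ (X : (BGd n d).C) (φ : X ⟶ X), φ ∈ (BGd n d).cen X → ∀ (m : M.M X),
      M.map (X := X) (Y := X) φ m = m) : TDMod (BGd n d) s where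
  M := M.M
  grp := M.grp
  mod := M.mod
  act := M.act
  act_add := M.act_add
  add_act := M.add_act
  smul_act := M.smul_act
  leibniz := M.leibniz
  lie_act := M.lie_act
  map := M.map
  map_smul := M.map_smul
  map_id := M.map_id
  map_comp := M.map_comp
  map_act := M.map_act
  map_cen := H

/-- The invariants: morphisms. -/
def invMap₁ (n d : ℕ) (s : ℂ) {M N : TDMod (BGd n 1) s} (f : M ⟶ N) :
    invObj₁ n d s M ⟶ invObj₁ n d s N :=
  { app := fun X => LinearMap.restrict (TDMod.Hom.app f X)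
      (p := invSub n d M X) (q := invSub n d N X) (fun m hm ζ h h' => by
        rw [← TDMod.Hom.nat, hm ζ h h'])
    act := fun X v m => Subtype.ext (TDMod.Hom.act (M := M) (N := N) f X v m.1)
    nat := fun {X Y} φ m => Subtype.ext (TDMod.Hom.nat (M := M) (N := N) f φ m.1) }

/-- The functor of `μ_d`-invariants. -/
def inv₁ (n d : ℕ) (s : ℂ) : TDMod (BGd n 1) s ⥤ TDMod (BGd n 1) s where
  obj M := invObj₁ n d s M
  map {M N} f := invMap₁ n d s f

instance (n d : ℕ) : (inv₁ n d s).Additive where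
  map_add := rfl

/-- The functor of `μ_d`-invariants. -/
def inv (n d : ℕ) (hd : d ∣ n) (s : ℂ) : TDMod (BGd n 1) s ⥤ TDMod (BGd n d) s where
  obj M := relabel n d s (invObj₁ n d s M) (invObj₁_cen n d hd s M)
  map {M N} f :=
    { app := TDMod.Hom.app (M := invObj₁ n d s M) (N := invObj₁ n d s N) (invMap₁ n d s f)
      act := TDMod.Hom.act (M := invObj₁ n d s M) (N := invObj₁ n d s N) (invMap₁ n d s f)
      nat := TDMod.Hom.nat (M := invObj₁ n d s M) (N := invObj₁ n d s N) (invMap₁ n d s f) }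

instance (d : ℕ) (hd : d ∣ n) : (inv n d hd s).Additive where
  map_add := rfl

end Inv

/-! ### Averaging -/

section Avg

variable {n d : ℕ} {s : ℂ}

theorem root_pow (hd : d ∣ n) (ζ : rootsOfUnity d ℂ) : ((ζ : ℂˣ) : ℂ) ^ n = 1 := by
  obtain ⟨k, rfl⟩ := hd
  rw [pow_mul, (mem_rootsOfUnity' d ζ.1).1 ζ.2, one_pow]

/-- The action of a root of unity. -/
def rootAct (hd : d ∣ n) (M : TDMod (BGd n 1) s) (X : (BGd n 1).C) (ζ : rootsOfUnity d ℂ) :
    M.M X →ₗ[(BGd n 1).R X] M.M X where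
  toFun := M.map (BG.cent n 1 X ((ζ : ℂˣ) : ℂ) (root_pow hd ζ))
  map_add' := map_add _
  map_smul' a m := M.map_smul _ a m

theorem rootAct_apply (hd : d ∣ n) (M : TDMod (BGd n 1) s) (X : (BGd n 1).C) (ζ : rootsOfUnity d ℂ)
    (m : M.M X) :
    rootAct hd M X ζ m = M.map (BG.cent n 1 X ((ζ : ℂˣ) : ℂ) (root_pow hd ζ)) m := rfl

theorem rootAct_mul (hd : d ∣ n) (M : TDMod (BGd n 1) s) (X : (BGd n 1).C) (ζ ξ : rootsOfUnity d ℂ)
    (m : M.M X) : rootAct hd M X ζ (rootAct hd M X ξ m) = rootAct hd M X (ζ * ξ) m := by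
  rw [rootAct_apply, rootAct_apply, ← M.map_comp, BG.cent_mul]
  rfl

variable [NeZero d]

noncomputable instance instFintypeRoots : Fintype (rootsOfUnity d ℂ) := Fintype.ofFinite _

/-- The average over `μ_d`. -/
noncomputable def avg (hd : d ∣ n) (M : TDMod (BGd n 1) s) (X : (BGd n 1).C) :
    M.M X →ₗ[(BGd n 1).R X] M.M X :=
  algebraMap ℂ ((BGd n 1).R X) ((Fintype.card (rootsOfUnity d ℂ) : ℂ))⁻¹ •
    ∑ ζ : rootsOfUnity d ℂ, rootAct hd M X ζ

theorem avg_apply (hd : d ∣ n) (M : TDMod (BGd n 1) s) (X : (BGd n 1).C) (m : M.M X) :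
    avg hd M X m = algebraMap ℂ ((BGd n 1).R X) ((Fintype.card (rootsOfUnity d ℂ) : ℂ))⁻¹ •
    ∑ ζ : rootsOfUnity d ℂ, rootAct hd M X ζ m := by
  rw [avg, LinearMap.smul_apply, LinearMap.sum_apply]

theorem avg_sum (M : TDMod (BGd n 1) s) (X : (BGd n 1).C) (m : M.M X) :
    algebraMap ℂ ((BGd n 1).R X) ((Fintype.card (rootsOfUnity d ℂ) : ℂ))⁻¹ •
      ∑ _ζ : rootsOfUnity d ℂ, m = m := by
  rw [Finset.sum_const, Finset.card_univ, ← Nat.cast_smul_eq_nsmul ((BGd n 1).R X), smul_smul,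
    ← map_natCast (algebraMap ℂ ((BGd n 1).R X)), ← map_mul, inv_mul_cancel₀, map_one, one_smul]
  exact_mod_cast Fintype.card_ne_zero

theorem avg_mem (hd : d ∣ n) (M : TDMod (BGd n 1) s) (X : (BGd n 1).C) (m : M.M X) :
    avg hd M X m ∈ invSub n d M X := by
  intro ξ h h'
  obtain ⟨ξ', hξ'⟩ : ∃ ξ' : rootsOfUnity d ℂ, ((ξ' : ℂˣ) : ℂ) = ξ :=
    ⟨rootsOfUnity.mkOfPowEq ξ h', rfl⟩
  subst hξ'
  change rootAct hd M X ξ' (avg hd M X m) = _
  rw [avg_apply, _root_.map_smul, map_sum]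
  congr 1
  simp only [rootAct_mul]
  exact Fintype.sum_equiv (Equiv.mulLeft ξ') _ _ (fun ζ => rfl)

theorem avg_of_mem (hd : d ∣ n) (M : TDMod (BGd n 1) s) (X : (BGd n 1).C) {m : M.M X}
    (hm : m ∈ invSub n d M X) : avg hd M X m = m := by
  rw [avg_apply]
  refine Eq.trans ?_ (avg_sum (d := d) M X m)
  congr 1
  refine Finset.sum_congr rfl fun ζ _ => ?_
  exact hm _ (root_pow hd ζ) ((mem_rootsOfUnity' d ζ.1).1 ζ.2)

theorem avg_map (hd : d ∣ n) (M : TDMod (BGd n 1) s) {X Y : (BGd n 1).C} (φ : X ⟶ Y) (m : M.M X) :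
    M.map φ (avg hd M X m) = avg hd M Y (M.map φ m) := by
  rw [avg_apply, avg_apply, M.map_smul, map_sum, AlgHom.commutes]
  congr 1
  refine Finset.sum_congr rfl fun ζ _ => ?_
  rw [rootAct_apply, rootAct_apply, ← M.map_comp, ← M.map_comp, BG.cent_comm]

theorem avg_app (hd : d ∣ n) {M N : TDMod (BGd n 1) s} (f : M ⟶ N) (X : (BGd n 1).C) (m : M.M X) :
    TDMod.Hom.app f X (avg hd M X m) = avg hd N X (TDMod.Hom.app f X m) := by
  rw [avg_apply, avg_apply, _root_.map_smul, map_sum]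
  congr 1
  refine Finset.sum_congr rfl fun ζ _ => ?_
  rw [rootAct_apply, rootAct_apply, TDMod.Hom.nat]

theorem avg_bd (hn : 0 < n) (hd : d ∣ n) {K : TCx (BGd n 1) s} (hK : Cartesian K) (X : (BGd n 1).C)
    (j : ℤ) (z : K.obj j X) (hz : K.Cyc X j z) :
    K.Bd X j (avg hd (HomologicalComplex.X K j) X z - z) := by
  have h1 := (TCx.Bd.sum (K := K) (X := X) (j := j) Finset.univ
    (z := fun ζ : rootsOfUnity d ℂ => rootAct hd (HomologicalComplex.X K j) X ζ z - z)
    (fun ζ _ => BG.cent_bd hn hK X ((ζ : ℂˣ) : ℂ) (root_pow hd ζ) j z hz)).smul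
      (algebraMap ℂ ((BGd n 1).R X) ((Fintype.card (rootsOfUnity d ℂ) : ℂ))⁻¹)
  rw [Finset.sum_sub_distrib, smul_sub, ← avg_apply, avg_sum] at h1
  exact h1

end Avg

/-! ### The equivalence -/

section ExtS

variable {A B : Type} [CommRing A] [CommRing B] (f : A →+* B)

/-- The pure tensors. -/
def ExtS.tmul {P : Type} [AddCommGroup P] [Module A P] (b : B) (x : P) : ExtS f P :=
  letI : Module A B := Module.compHom B f
  b ⊗ₜ x

theorem ExtS.induction {P : Type} [AddCommGroup P] [Module A P] {motive : ExtS f P → Prop}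
    (h0 : motive 0) (ht : ∀ b x, motive (ExtS.tmul f b x))
    (ha : ∀ x y, motive x → motive y → motive (x + y)) (w : ExtS f P) : motive w := by
  let : Module A B := Module.compHom B f
  exact TensorProduct.induction_on w h0 ht ha

theorem ExtS.map_tmul {P Q : Type} [AddCommGroup P] [Module A P] [AddCommGroup Q] [Module A Q]
    (u : P →ₗ[A] Q) (b : B) (x : P) :
    ExtS.map f u (ExtS.tmul f b x) = ExtS.tmul f b (u x) := rfl

theorem ExtS.lift_tmul {P N : Type} [AddCommGroup P] [Module A P] [AddCommGroup N] [Module B N]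
    (u : P →+ N) (hu : ∀ (a : A) (x : P), u (a • x) = f a • u x) (b : B) (x : P) :
    ExtS.lift f u hu (ExtS.tmul f b x) = b • u x := rfl

/-- The comparison map from the base change is a morphism of complexes. -/
theorem ExtS.lift_chain {T : Site} {s : ℂ} {K : TCx T s} {X Y : T.C} (φ : X ⟶ Y) (P : MCx (T.R X))
    (p : ∀ i, P.X i →ₗ[T.R X] K.obj i X) (hpd : ∀ i j x, p j (P.d i j x) = K.d X i j (p i x))
    (i j : ℤ) (h1 : ∀ (a : T.R X) (x : P.X i), ((K.map φ i).comp (p i).toAddMonoidHom) (a • x) =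
      (T.res φ).toRingHom a • ((K.map φ i).comp (p i).toAddMonoidHom) x)
    (h2 : ∀ (a : T.R X) (x : P.X j), ((K.map φ j).comp (p j).toAddMonoidHom) (a • x) =
      (T.res φ).toRingHom a • ((K.map φ j).comp (p j).toAddMonoidHom) x)
    (w : ExtS (T.res φ).toRingHom (P.X i)) :
    K.d Y i j (ExtS.lift (T.res φ).toRingHom ((K.map φ i).comp (p i).toAddMonoidHom) h1 w) =
      ExtS.lift (T.res φ).toRingHom ((K.map φ j).comp (p j).toAddMonoidHom) h2
        (ExtS.map (T.res φ).toRingHom (P.d i j) w) := by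
  induction w using ExtS.induction with
  | h0 => rw [map_zero, map_zero, map_zero, map_zero]
  | ht b x =>
    rw [ExtS.lift_tmul, ExtS.map_tmul, ExtS.lift_tmul, K.d_smul]
    congr 1
    change K.d Y i j (K.map φ i (p i x)) = K.map φ j (p j (P.d i j x))
    rw [K.d_map, hpd]
  | ha x y hx hy => rw [map_add, map_add, map_add, map_add, hx, hy]

end ExtS

section Equiv

variable {n d : ℕ} {s : ℂ}

/-- The complex of invariants. -/
noncomputable abbrev invCx (n d : ℕ) (s : ℂ) (K : TCx (BGd n 1) s) : TCx (BGd n 1) s :=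
  (mapCx (inv₁ n d s)).obj K

/-- The inclusion of the invariants. -/
def invVal (K : TCx (BGd n 1) s) (X : (BGd n 1).C) (j : ℤ) :
    (invCx n d s K).obj j X →ₗ[(BGd n 1).R X] K.obj j X :=
  (invSub n d (HomologicalComplex.X K j) X).subtype

/-- An invariant section. -/
def invMk (K : TCx (BGd n 1) s) (X : (BGd n 1).C) (j : ℤ) (m : K.obj j X)
    (hm : m ∈ invSub n d (HomologicalComplex.X K j) X) : (invCx n d s K).obj j X :=
  (⟨m, hm⟩ : invSub n d (HomologicalComplex.X K j) X)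

theorem invVal_mk (K : TCx (BGd n 1) s) (X : (BGd n 1).C) (j : ℤ) (m : K.obj j X)
    (hm : m ∈ invSub n d (HomologicalComplex.X K j) X) :
    invVal K X j (invMk K X j m hm) = m := rfl

theorem invVal_mem (K : TCx (BGd n 1) s) (X : (BGd n 1).C) (j : ℤ)
    (m : (invCx n d s K).obj j X) :
    invVal K X j m ∈ invSub n d (HomologicalComplex.X K j) X :=
  Subtype.property (p := fun m => m ∈ invSub n d (HomologicalComplex.X K j) X) m

theorem invVal_injective (K : TCx (BGd n 1) s) (X : (BGd n 1).C) (j : ℤ) :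
    Function.Injective (invVal (d := d) K X j) :=
  Subtype.val_injective

theorem invVal_d (K : TCx (BGd n 1) s) (X : (BGd n 1).C) (i j : ℤ)
    (m : (invCx n d s K).obj i X) :
    invVal K X j ((invCx n d s K).d X i j m) = K.d X i j (invVal K X i m) := rfl

theorem invVal_map (K : TCx (BGd n 1) s) {X Y : (BGd n 1).C} (φ : X ⟶ Y) (j : ℤ)
    (m : (invCx n d s K).obj j X) :
    invVal K Y j ((invCx n d s K).map φ j m) = K.map φ j (invVal K X j m) := rfl

theorem inv_cyc (K : TCx (BGd n 1) s) (X : (BGd n 1).C) (j : ℤ)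
    (m : (invCx n d s K).obj j X) :
    (invCx n d s K).Cyc X j m ↔ K.Cyc X j (invVal K X j m) := by
  unfold TCx.Cyc
  rw [← invVal_d]
  constructor
  · intro h
    rw [h, map_zero]
  · intro h
    apply invVal_injective K X
    rw [h, map_zero]

variable [NeZero d]

theorem d_avg (hd : d ∣ n) (K : TCx (BGd n 1) s) (X : (BGd n 1).C) (i j : ℤ) (m : K.obj i X) :
    K.d X i j (avg hd (HomologicalComplex.X K i) X m) =
      avg hd (HomologicalComplex.X K j) X (K.d X i j m) :=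
  avg_app hd (HomologicalComplex.d K i j) X m

/-- The projection to the invariants. -/
noncomputable def invPr (hd : d ∣ n) (K : TCx (BGd n 1) s) (X : (BGd n 1).C) (j : ℤ) :
    K.obj j X →ₗ[(BGd n 1).R X] (invCx n d s K).obj j X :=
  LinearMap.codRestrict (invSub n d (HomologicalComplex.X K j) X)
    (avg hd (HomologicalComplex.X K j) X) (avg_mem hd _ X)

theorem invVal_pr (hd : d ∣ n) (K : TCx (BGd n 1) s) (X : (BGd n 1).C) (j : ℤ) (m : K.obj j X) :
    invVal K X j (invPr hd K X j m) = avg hd (HomologicalComplex.X K j) X m := rfl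

theorem invPr_val (hd : d ∣ n) (K : TCx (BGd n 1) s) (X : (BGd n 1).C) (j : ℤ)
    (m : (invCx n d s K).obj j X) : invPr hd K X j (invVal K X j m) = m := by
  apply invVal_injective K X
  rw [invVal_pr]
  exact avg_of_mem hd _ X (invVal_mem K X j m)

theorem d_pr (hd : d ∣ n) (K : TCx (BGd n 1) s) (X : (BGd n 1).C) (i j : ℤ) (m : K.obj i X) :
    (invCx n d s K).d X i j (invPr hd K X i m) = invPr hd K X j (K.d X i j m) := by
  apply invVal_injective K X
  rw [invVal_d, invVal_pr, invVal_pr, d_avg]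

theorem map_pr (hd : d ∣ n) (K : TCx (BGd n 1) s) {X Y : (BGd n 1).C} (φ : X ⟶ Y) (j : ℤ)
    (m : K.obj j X) :
    (invCx n d s K).map φ j (invPr hd K X j m) = invPr hd K Y j (K.map φ j m) := by
  apply invVal_injective K Y
  rw [invVal_map, invVal_pr, invVal_pr]
  exact avg_map hd _ φ m

theorem inv_bd (hd : d ∣ n) (K : TCx (BGd n 1) s) (X : (BGd n 1).C) (j : ℤ)
    (m : (invCx n d s K).obj j X) :
    (invCx n d s K).Bd X j m ↔ K.Bd X j (invVal K X j m) := by
  constructor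
  · rintro ⟨y, rfl⟩
    exact ⟨invVal K X _ y, rfl⟩
  · rintro ⟨y, hy⟩
    refine ⟨invPr hd K X _ y, ?_⟩
    rw [d_pr, hy, invPr_val]

/-- The comparison of `u : Q → K(X)` with the composite `Q → K(X) → K(X)^{μ_d}`. -/
theorem hIso_pr (hn : 0 < n) (hd : d ∣ n) {K : TCx (BGd n 1) s} (hK : Cartesian K) (X : (BGd n 1).C)
    {Q₁ Q₂ Q₃ : Type} [AddCommGroup Q₁] [AddCommGroup Q₂] [AddCommGroup Q₃] (e₁ : Q₁ →+ Q₂)
    (e₂ : Q₂ →+ Q₃) (j k : ℤ) (hk : j + 1 = k) (i : ℤ) (hi : i + 1 = j) (u : Q₂ →+ K.obj j X)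
    (hu : ∀ w, e₂ w = 0 → K.d X j k (u w) = 0)
    (h : HIso e₁ e₂ (K.d X i j) (K.d X j k) u) (u' : Q₂ →+ (invCx n d s K).obj j X)
    (hu' : ∀ w, u' w = invPr hd K X j (u w)) :
    HIso e₁ e₂ ((invCx n d s K).d X i j) ((invCx n d s K).d X j k) u' := by
  subst hk
  obtain rfl : i = j - 1 := by omega
  refine ⟨fun x hx hx' => ?_, fun y hy => ?_⟩
  · apply h.1 x hx
    obtain ⟨y, hy⟩ := hx'
    have h1 : K.Bd X j (invVal K X j (u' x)) := by
      rw [← inv_bd hd]
      exact ⟨y, hy⟩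
    rw [hu', invVal_pr] at h1
    have h2 := h1.sub (avg_bd hn hd hK X j (u x) (hu x hx))
    change K.Bd X j (u x)
    simpa using h2
  · obtain ⟨x, hx, y', hy'⟩ := h.2 (invVal K X j y) ((inv_cyc K X j y).1 hy)
    refine ⟨x, hx, invPr hd K X _ y', ?_⟩
    rw [d_pr, hy', map_sub, invPr_val, hu']

theorem cart_inv₁ (hn : 0 < n) (hd : d ∣ n) {K : TCx (BGd n 1) s} (hK : Cartesian K) :
    Cartesian (invCx n d s K) := by
  intro X
  obtain ⟨P, hP, p, hpd, hp, hq⟩ := hK X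
  refine ⟨P, hP, fun i => (invPr hd K X i).comp (p i), ?_, ?_, ?_⟩
  · intro i j x
    change invPr hd K X j (p j (P.d i j x)) = _
    rw [hpd, ← d_pr]
    rfl
  · intro i j k hi hk
    refine hIso_pr hn hd hK X _ _ j k hk i hi (p j).toAddMonoidHom ?_ (hp i j k hi hk) _
      (fun w => rfl)
    intro w hw
    change K.d X j k (p j w) = 0
    rw [← hpd]
    change p k ((P.d j k).toAddMonoidHom w) = 0
    rw [hw, map_zero]
  · intro Y φ i j k hi hk
    refine hIso_pr hn hd hK Y _ _ j k hk i hi _ ?_ (hq Y φ i j k hi hk) _ ?_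
    · intro w hw
      refine (ExtS.lift_chain φ P p hpd j k _ (fun a x => by simp [TCx.map, TDMod.map_smul])
        w).trans ?_
      rw [hw, map_zero]
    · intro w
      induction w using ExtS.induction with
      | h0 => rw [map_zero, map_zero, map_zero]
      | ht b x =>
        refine Eq.trans ?_ (_root_.map_smul (invPr hd K Y j) b (K.map φ j (p j x))).symm
        exact congrArg (fun y : (invCx n d s K).obj j Y => b • y) (map_pr hd K φ j (p j x))
      | ha x y hx hy => rw [map_add, map_add, map_add, hx, hy]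

omit [NeZero d] in
theorem inv_hom {K L : TCx (BGd n 1) s} (u : K ⟶ L) (X : (BGd n 1).C) (j : ℤ)
    (m : (invCx n d s K).obj j X) :
    invVal L X j (TCx.hom ((mapCx (inv₁ n d s)).map u) X j m) = TCx.hom u X j (invVal K X j m) :=
  rfl

theorem pr_hom (hd : d ∣ n) {K L : TCx (BGd n 1) s} (u : K ⟶ L) (X : (BGd n 1).C) (j : ℤ)
    (m : K.obj j X) :
    TCx.hom ((mapCx (inv₁ n d s)).map u) X j (invPr hd K X j m) =
      invPr hd L X j (TCx.hom u X j m) := by
  apply invVal_injective L X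
  rw [inv_hom, invVal_pr, invVal_pr]
  exact avg_app hd (HomologicalComplex.Hom.f u j) X m

theorem qis_inv₁ (hd : d ∣ n) {K L : TCx (BGd n 1) s} (u : K ⟶ L) (hu : qis _ _ u) :
    qis _ _ ((mapCx (inv₁ n d s)).map u) := by
  rw [qis_iff] at hu ⊢
  intro X j
  obtain ⟨h1, h2⟩ := hu X j
  refine ⟨fun z hz hz' => ?_, fun z hz => ?_⟩
  · rw [inv_bd hd] at hz' ⊢
    rw [inv_cyc] at hz
    rw [inv_hom] at hz'
    exact h1 _ hz hz'
  · rw [inv_cyc] at hz
    obtain ⟨z', hz', y, hy⟩ := h2 _ hz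
    refine ⟨invPr hd K X j z', ?_, invPr hd L X _ y, ?_⟩
    · change (invCx n d s K).d X j (j + 1) (invPr hd K X j z') = 0
      rw [d_pr]
      rw [show K.d X j (j + 1) z' = 0 from hz', map_zero]
    · rw [d_pr, hy, map_sub, invPr_val, pr_hom]

omit [NeZero d] in
theorem presCart_inv (hn : 0 < n) (hd : d ∣ n) (s : ℂ) : PresCart (inv n d hd s) where
  cart K hK := by
    have : NeZero d := ⟨by rintro rfl; rw [zero_dvd_iff] at hd; omega⟩
    exact cart_inv₁ hn hd hK
  qis K L u _ _ hu := by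
    have : NeZero d := ⟨by rintro rfl; rw [zero_dvd_iff] at hd; omega⟩
    exact qis_inv₁ hd u hu

/-- The inclusion of the invariants is a natural transformation. -/
def invCounit₁ (n d : ℕ) (s : ℂ) : inv₁ n d s ⟶ 𝟭 _ where
  app M :=
    { app := fun X => (invSub n d M X).subtype
      act := fun X v m => rfl
      nat := fun φ m => rfl }

/-- The inclusion of the invariants is a natural transformation. -/
def invCounit (n d : ℕ) (hd : d ∣ n) (s : ℂ) : inv n d hd s ⋙ incl n d s ⟶ 𝟭 _ where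
  app M :=
    { app := TDMod.Hom.app ((invCounit₁ n d s).app M)
      act := TDMod.Hom.act ((invCounit₁ n d s).app M)
      nat := TDMod.Hom.nat ((invCounit₁ n d s).app M) }

theorem counit_qis₁ (hn : 0 < n) (hd : d ∣ n) {K : TCx (BGd n 1) s} (hK : Cartesian K)
    (X : (BGd n 1).C) (j : ℤ) :
    (∀ z : (invCx n d s K).obj j X, (invCx n d s K).Cyc X j z → K.Bd X j (invVal K X j z) →
      (invCx n d s K).Bd X j z) ∧
    (∀ z, K.Cyc X j z → ∃ z', (invCx n d s K).Cyc X j z' ∧ K.Bd X j (z - invVal K X j z')) := by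
  refine ⟨fun z _ hz' => (inv_bd hd K X j z).2 hz', fun z hz => ⟨invPr hd K X j z, ?_, ?_⟩⟩
  · change (invCx n d s K).d X j (j + 1) (invPr hd K X j z) = 0
    rw [d_pr]
    rw [show K.d X j (j + 1) z = 0 from hz, map_zero]
  · have := (avg_bd hn hd hK X j z hz).neg
    rw [neg_sub] at this
    exact this

omit [NeZero d] in
theorem counit_qis (hn : 0 < n) (hd : d ∣ n) {K : TCx (BGd n 1) s} (hK : Cartesian K) :
    qis (BGd n 1) s ((counitCx (inv n d hd s) (incl n d s) (invCounit n d hd s)).app K) := by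
  have : NeZero d := ⟨by rintro rfl; rw [zero_dvd_iff] at hd; omega⟩
  rw [qis_iff]
  exact counit_qis₁ (d := d) hn hd hK

omit [NeZero d] in
/-- The modules on which `μ_d` acts trivially. -/
def inclUnit (n d : ℕ) (hd : d ∣ n) (s : ℂ) : 𝟭 _ ⟶ incl n d s ⋙ inv n d hd s where
  app M :=
    { app := fun X =>
        { toFun := fun m => (⟨m, fun ζ h h' => M.map_cen X (BG.cent n d X ζ h)
            (BG.cent_mem_cen X ζ h h') m⟩ : invSub n d (inclObj n d s M) X)
          map_add' := fun m m' => rfl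
          map_smul' := fun a m => rfl }
      act := fun X v m => rfl
      nat := fun φ m => rfl }

omit [NeZero d] in
theorem unit_qis (hd : d ∣ n) (K : TCx (BGd n d) s) :
    qis (BGd n d) s ((unitCx (incl n d s) (inv n d hd s) (inclUnit n d hd s)).app K) := by
  rw [qis_iff]
  intro X j
  refine ⟨fun z _ hz' => ?_, fun z hz => ?_⟩
  · obtain ⟨y, hy⟩ := hz'
    exact ⟨_, congrArg Subtype.val hy⟩
  · refine ⟨Subtype.val z, congrArg Subtype.val hz, 0, ?_⟩
    rw [map_zero, eq_comm, sub_eq_zero]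
    rfl

omit [NeZero d] in
theorem isQuasiEquiv_incl (hn : 0 < n) (hd : d ∣ n) (s : ℂ) : IsQuasiEquiv (incl n d s) :=
  quasiEquiv_of_inverse (incl n d s) (inv n d hd s) (presCart_incl n d s) (presCart_inv hn hd s)
    (Or.inl ⟨inclUnit n d hd s, fun K _ => unit_qis hd K⟩)
    (Or.inr ⟨invCounit n d hd s, fun _ hK => counit_qis hn hd hK⟩)

end Equiv

theorem dgStep_BGd {n d : ℕ} (hn : 0 < n) (hd : d ∣ n) (s : ℂ) :
    DGStep (BGd n d, s) (BGd n 1, s) :=
  ⟨incl n d s, inferInstance, inferInstance, isQuasiEquiv_incl hn hd s⟩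

/-- The DG categories of `D`-modules on `B(SL_n/μ_d)` and on `BSL_n` are equivalent. -/
theorem dgStep_BG {n d : ℕ} (hn : 0 < n) (hd : d ∣ n) (s : ℂ) :
    DGStep (BG n d, s) (BG n 1, s) :=
  dgStep_BGd hn hd s

end Vale.Agent.P286
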