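import Vale.Agent.P286.H527.BFun
import Vale.Agent.P286.H211.QE

/-!
# The functor `B` preserves cartesian complexes
-/

namespace Vale.Agent.P286

open CategoryTheory TensorProduct

section Ext

variable {A B : Type} [CommRing A] [CommRing B]

/-- The pure tensors. -/
def ExtS.pt (f : A →+* B) {P : Type} [AddCommGroup P] [Module A P] (b : B) (x : P) : ExtS f P :=
  letI : Module A B := Module.compHom B f
  b ⊗ₜ x

theorem ExtS.ind (f : A →+* B) {P : Type} [AddCommGroup P] [Module A P] {motive : ExtS f P → Prop}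
    (h0 : motive 0) (ht : ∀ b x, motive (ExtS.pt f b x))
    (ha : ∀ x y, motive x → motive y → motive (x + y)) (w : ExtS f P) : motive w := by
  let : Module A B := Module.compHom B f
  exact TensorProduct.induction_on w h0 ht ha

theorem ExtS.map_pt (f : A →+* B) {P Q : Type} [AddCommGroup P] [Module A P] [AddCommGroup Q]
    [Module A Q] (u : P →ₗ[A] Q) (b : B) (x : P) :
    ExtS.map f u (ExtS.pt f b x) = ExtS.pt f b (u x) := rfl

theorem ExtS.lift_pt (f : A →+* B) {P N : Type} [AddCommGroup P] [Module A P] [AddCommGroup N]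
    [Module B N] (u : P →+ N) (hu : ∀ (a : A) (x : P), u (a • x) = f a • u x) (b : B) (x : P) :
    ExtS.lift f u hu (ExtS.pt f b x) = b • u x := rfl

variable {A' B' : Type} [CommRing A'] [CommRing B'] [Algebra A A'] [Algebra B B']

/-- Base change of a module over a localization. -/
theorem ExtS.exists_loc (f : A →+* B) (θ : A) (θ' : B) [IsLocalization.Away θ A']
    [IsLocalization.Away θ' B'] (h : Associated θ' (f θ)) (f' : A' →+* B')
    (hf : ∀ a, f' (algebraMap A A' a) = algebraMap B B' (f a)) (P : Type) [AddCommGroup P]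
    [Module A' P] :
    letI : Module A P := Module.compHom P (algebraMap A A')
    ∃ e : ExtS f P ≃+ ExtS f' P, ∀ b x, e (ExtS.pt f b x) = ExtS.pt f' (algebraMap B B' b) x := by
  let : Module A P := Module.compHom P (algebraMap A A')
  let : Algebra A B := f.toAlgebra
  let : Algebra A' B' := f'.toAlgebra
  let : Algebra A B' := ((algebraMap B B').comp f).toAlgebra
  have : IsScalarTower A B B' := IsScalarTower.of_algebraMap_eq fun a => rfl
  have : IsScalarTower A A' B' := IsScalarTower.of_algebraMap_eq fun a => (hf a).symm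
  have : IsScalarTower A A' P := IsScalarTower.of_algebraMap_smul fun a x => rfl
  have h1 : IsLocalization.Away (f θ) B' := IsLocalization.Away.of_associated h
  have h2 : IsLocalization (Algebra.algebraMapSubmonoid B (Submonoid.powers θ)) B' := by
    have : Algebra.algebraMapSubmonoid B (Submonoid.powers θ) = Submonoid.powers (f θ) :=
      Algebra.algebraMapSubmonoid_powers θ
    rw [this]
    exact h1
  have h3 : Algebra.IsPushout A B A' B' :=
    Algebra.isPushout_of_isLocalization (Submonoid.powers θ) A' B B'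
  exact ⟨(Algebra.IsPushout.cancelBaseChange A B A' B' P).symm.toAddEquiv,
    fun b x => Algebra.IsPushout.cancelBaseChange_symm_tmul A B A' B' P b x⟩

end Ext

/-- Transport of `HIso` along isomorphisms of the source. -/
theorem HIso.congr_left {X₁ X₂ X₃ X₁' X₂' X₃' Y₁ Y₂ Y₃ : Type} [AddCommGroup X₁] [AddCommGroup X₂]
    [AddCommGroup X₃] [AddCommGroup X₁'] [AddCommGroup X₂'] [AddCommGroup X₃']
    [AddCommGroup Y₁] [AddCommGroup Y₂] [AddCommGroup Y₃]
    {d₁ : X₁ →+ X₂} {d₂ : X₂ →+ X₃} {d₁' : X₁' →+ X₂'} {d₂' : X₂' →+ X₃'} {e₁ : Y₁ →+ Y₂}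
    {e₂ : Y₂ →+ Y₃} {u : X₂ →+ Y₂} {u' : X₂' →+ Y₂} (h : HIso d₁' d₂' e₁ e₂ u')
    (a₁ : X₁ ≃+ X₁') (a₂ : X₂ ≃+ X₂') (a₃ : X₃ ≃+ X₃') (c₁ : ∀ x, a₂ (d₁ x) = d₁' (a₁ x))
    (c₂ : ∀ x, a₃ (d₂ x) = d₂' (a₂ x)) (cu : ∀ x, u x = u' (a₂ x)) : HIso d₁ d₂ e₁ e₂ u := by
  constructor
  · intro x hx hy
    obtain ⟨x', hx'⟩ := h.1 (a₂ x) (by rw [← c₂, hx, map_zero]) (by
      obtain ⟨y, hy⟩ := hy
      exact ⟨y, by rw [hy, cu]⟩)
    refine ⟨a₁.symm x', a₂.injective ?_⟩
    rw [c₁, a₁.apply_symm_apply, hx']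
  · intro y hy
    obtain ⟨x, hx, y', hy'⟩ := h.2 y hy
    refine ⟨a₂.symm x, a₃.injective ?_, y', ?_⟩
    · rw [c₂, a₂.apply_symm_apply, hx, map_zero]
    · rw [cu, a₂.apply_symm_apply, hy']

/-- Restriction of scalars. -/
def MCx.restr (A : Type) {A' : Type} [CommRing A] [CommRing A'] [Algebra A A'] (P : MCx A') :
    MCx A where
  X := P.X
  grp := P.grp
  mod i := Module.compHom (P.X i) (algebraMap A A')
  d i j :=
    letI : Module A (P.X i) := Module.compHom (P.X i) (algebraMap A A')
    letI : Module A (P.X j) := Module.compHom (P.X j) (algebraMap A A')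
    { toFun := P.d i j
      map_add' := map_add _
      map_smul' := fun a x => map_smul (P.d i j) (algebraMap A A' a) x }
  dd i j k := by
    let : Module A (P.X i) := Module.compHom (P.X i) (algebraMap A A')
    let : Module A (P.X j) := Module.compHom (P.X j) (algebraMap A A')
    let : Module A (P.X k) := Module.compHom (P.X k) (algebraMap A A')
    apply LinearMap.ext
    intro x
    exact LinearMap.congr_fun (P.dd i j k) x

theorem MCx.flat_restr (A : Type) {A' : Type} [CommRing A] [CommRing A'] [Algebra A A']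
    [Module.Flat A A'] (P : MCx A') (hP : ∀ i, Module.Flat A' (P.X i)) (i : ℤ) :
    Module.Flat A ((P.restr A).X i) := by
  let : Module A (P.X i) := Module.compHom (P.X i) (algebraMap A A')
  have : IsScalarTower A A' (P.X i) := IsScalarTower.of_algebraMap_smul fun a x => rfl
  have := hP i
  exact Module.Flat.trans A A' (P.X i)

theorem ExtS.exists_loc_cx {A B A' B' : Type} [CommRing A] [CommRing B] [CommRing A'] [CommRing B']
    [Algebra A A'] [Algebra B B'] (f : A →+* B) (θ : A) (θ' : B) [IsLocalization.Away θ A']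
    [IsLocalization.Away θ' B'] (h : Associated θ' (f θ)) (f' : A' →+* B')
    (hf : ∀ a, f' (algebraMap A A' a) = algebraMap B B' (f a)) (P : MCx A') :
    ∃ e : ∀ i, ExtS f ((P.restr A).X i) ≃+ ExtS f' (P.X i),
      (∀ i b (x : P.X i), e i (ExtS.pt f b x) = ExtS.pt f' (algebraMap B B' b) x) ∧
      ∀ i j x, e j (ExtS.map f ((P.restr A).d i j) x) = ExtS.map f' (P.d i j) (e i x) := by
  have he := fun i => ExtS.exists_loc f θ θ' h f' hf (P.X i)
  choose e he using he
  refine ⟨e, he, fun i j x => ?_⟩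
  induction x using ExtS.ind with
  | h0 =>
    refine (congrArg (e j) (map_zero _)).trans ((map_zero (e j)).trans ?_)
    exact ((congrArg (ExtS.map f' (P.d i j)) (map_zero (e i))).trans (map_zero _)).symm
  | ht b x =>
    refine Eq.trans ?_ (congrArg (ExtS.map f' (P.d i j)) (he i b x)).symm
    exact he j b (P.d i j x)
  | ha x y hx hy =>
    refine (congrArg (e j) (map_add _ x y)).trans ((map_add (e j) _ _).trans ?_)
    refine Eq.trans ?_ ((congrArg (ExtS.map f' (P.d i j)) (map_add (e i) x y)).trans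
      (map_add _ _ _)).symm
    exact congrArg₂ (· + ·) hx hy

theorem ExtS.lift_loc {A B A' B' : Type} [CommRing A] [CommRing B] [CommRing A'] [CommRing B']
    [Algebra A A'] [Algebra B B'] (f : A →+* B) (f' : A' →+* B') (P : MCx A') (i : ℤ) {N : Type}
    [AddCommGroup N] [Module B' N] (e : ExtS f ((P.restr A).X i) ≃+ ExtS f' (P.X i))
    (he : ∀ b (x : P.X i), e (ExtS.pt f b x) = ExtS.pt f' (algebraMap B B' b) x) (u : P.X i →+ N)
    (hu' : ∀ (a : A') (x : P.X i), u (a • x) = f' a • u x)
    (hu : letI : Module B N := Module.compHom N (algebraMap B B')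
      ∀ (a : A) (x : (P.restr A).X i), u (a • x) = f a • u x) (x : ExtS f ((P.restr A).X i)) :
    (letI : Module B N := Module.compHom N (algebraMap B B');
      ExtS.lift f (P := (P.restr A).X i) u hu x) = ExtS.lift f' u hu' (e x) := by
  let : Module B N := Module.compHom N (algebraMap B B')
  change ExtS.lift f (P := (P.restr A).X i) u hu x = ExtS.lift f' u hu' (e x)
  induction x using ExtS.ind with
  | h0 =>
    refine (map_zero _).trans ?_
    exact ((congrArg (ExtS.lift f' u hu') (map_zero e)).trans (map_zero _)).symm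
  | ht b x =>
    refine Eq.trans ?_ (congrArg (ExtS.lift f' u hu') (he b x)).symm
    rfl
  | ha x y hx hy =>
    refine (map_add _ x y).trans ?_
    refine Eq.trans ?_ ((congrArg (ExtS.lift f' u hu') (map_add e x y)).trans
      (map_add _ _ _)).symm
    exact congrArg₂ (· + ·) hx hy

variable {n d : ℕ}

theorem associated_th {X Y : BunObj n d} (φ : BunHom X Y) :
    Associated Y.th ((φ.f : X.A.R →+* Y.A.R) X.th) := by
  refine ⟨φ.dl⁻¹, ?_⟩
  rw [BunObj.th_map φ, mul_comm, ← mul_assoc, Units.inv_mul, one_mul]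
  rfl

theorem presCart_B (n d : ℕ) (s : ℂ) : PresCart (Bfun n d s) where
  cart K hK X := by
    obtain ⟨P, hP, p, h1, h2, h3⟩ := hK X.lo
    have : Module.Flat X.A.R (Lo X.th) := IsLocalization.flat (Lo X.th) (Submonoid.powers X.th)
    refine ⟨P.restr X.A.R, P.flat_restr X.A.R hP, fun i =>
      { toFun := p i
        map_add' := map_add _
        map_smul' := fun (a : X.A.R) (x : P.X i) =>
          map_smul (p i) (algebraMap X.A.R (Lo X.th) a : (BG n d).R X.lo) x }, h1, h2, ?_⟩
    intro Y φ i j k hi hk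
    have h4 := h3 (BunObj.lo Y) (Lmap φ) i j k hi hk
    obtain ⟨e, he, hd⟩ := ExtS.exists_loc_cx (BunHom.f φ : X.A.R →+* Y.A.R) X.th Y.th
      (A' := Lo X.th) (B' := Lo Y.th) (associated_th φ)
      (locMap (BunHom.f φ) (BunObj.isUnit_map φ) : Lo X.th →+* Lo Y.th)
      (locMap_algebraMap (BunHom.f φ) (BunObj.isUnit_map φ)) P
    refine HIso.congr_left h4 (e i) (e j) (e k) (hd i j) (hd j k) ?_
    intro x
    exact ExtS.lift_loc (BunHom.f φ : X.A.R →+* Y.A.R)
      (locMap (BunHom.f φ) (BunObj.isUnit_map φ) : Lo X.th →+* Lo Y.th)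
      P j (N := K.obj j Y.lo) (e j) (he j)
      ((K.map (Lmap φ) j).comp (p j).toAddMonoidHom) _ _ x
  qis K L u _ _ hu := fun X i j k hi hj => hu X.lo i j k hi hj

end Vale.Agent.P286
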