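import Vale.Agent.P286.H211.PresB
import Vale.Agent.P286.H527.Eps

/-!
# The categories are not trivial

The structure sheaf of `B(SL_n/μ_d)` defines a cartesian complex which is not acyclic, and so does
its image under the functor `B` on `Bun_{SL_n/μ_d}(ℙ¹)`, for all twists.
-/

namespace Vale.Agent.P286

open CategoryTheory TensorProduct

/-- A complex is acyclic if its complexes of sections are exact. -/
def TAcyclic {T : Site} {s : ℂ} (K : TCx T s) : Prop :=
  ∀ (X : T.C) (j : ℤ) (z : K.obj j X), K.Cyc X j z → K.Bd X j z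

/-- The structure sheaf of `B(SL_n/μ_d)`. -/
def strBG (n d : ℕ) : TDMod (BG n d) 0 where
  M X := X.A.R
  act X v a := v a
  act_add X v a a' := map_add v a a'
  add_act X v w a := rfl
  smul_act X a v b := rfl
  leibniz X v a b := by
    change v (a * b) = v a * b + a * v b
    rw [Derivation.leibniz, smul_eq_mul, smul_eq_mul, mul_comm b, add_comm]
  lie_act X v w a := Derivation.commutator_apply (D1 := v) (D2 := w) a
  map φ := (BGHom.f φ).toRingHom.toAddMonoidHom
  map_smul φ a b := map_mul (BGHom.f φ) a b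
  map_id X a := rfl
  map_comp φ ψ a := rfl
  map_act {X Y} φ w k c v h a := by
    have h1 : (algebraMap ℂ Y.A.R 0 * ((1 : (Y.A.R)ˣ)⁻¹ : (Y.A.R)ˣ) *
        w ((1 : (Y.A.R)ˣ) : Y.A.R)) * BGHom.f φ a = 0 := by
      rw [map_zero, zero_mul, zero_mul, zero_mul]
    exact (h a).trans ((sub_zero _).symm.trans (congrArg (_ - ·) h1.symm))
  map_cen X φ h a := by
    obtain ⟨h1, -⟩ := h
    exact congrArg (fun f => f a) h1

/-- The complex with zero differentials and with all terms equal to the structure sheaf. -/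
def strCx (n d : ℕ) : TCx (BG n d) 0 where
  X _ := strBG n d
  d _ _ := 0

theorem strCx_d (n d : ℕ) (X : BGObj n) (i j : ℤ) (x : (strCx n d).obj i X) :
    (strCx n d).d X i j x = 0 := rfl

theorem hIso_of_dzero {X₁ X₂ X₃ Y₁ Y₂ Y₃ : Type} [AddCommGroup X₁] [AddCommGroup X₂] [AddCommGroup X₃]
    [AddCommGroup Y₁] [AddCommGroup Y₂] [AddCommGroup Y₃] {d₁ : X₁ →+ X₂} {d₂ : X₂ →+ X₃}
    {e₁ : Y₁ →+ Y₂} {e₂ : Y₂ →+ Y₃} {u : X₂ →+ Y₂} (h1 : ∀ x, d₁ x = 0) (h2 : ∀ x, d₂ x = 0)
    (h3 : ∀ x, e₁ x = 0) (hu : Function.Bijective u) : HIso d₁ d₂ e₁ e₂ u := by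
  constructor
  · rintro x - ⟨y, hy⟩
    rw [h3] at hy
    refine ⟨0, ?_⟩
    rw [h1]
    exact (hu.1 ((map_zero u).trans hy))
  · intro y _
    obtain ⟨x, rfl⟩ := hu.2 y
    exact ⟨x, h2 x, 0, by rw [map_zero, sub_self]⟩

/-- The complex of free modules of rank one with zero differentials. -/
def unitMCx (A : Type) [CommRing A] : MCx A where
  X _ := A
  d _ _ := 0
  dd _ _ _ := LinearMap.comp_zero _

theorem ExtS.lift_unit_bijective {A B : Type} [CommRing A] [CommRing B] (f : A →+* B) 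
    (hu : ∀ (a : A) (x : A), f.toAddMonoidHom (a • x) = f a • f.toAddMonoidHom x) :
    Function.Bijective (ExtS.lift f (P := A) (N := B) f.toAddMonoidHom hu) := by
  let : Module A B := Module.compHom B f
  have h : ∀ w, ExtS.lift f (P := A) (N := B) f.toAddMonoidHom hu w = TensorProduct.rid A B w := by
    intro w
    induction w using ExtS.ind with
    | h0 => rw [map_zero]; exact (map_zero (TensorProduct.rid A B)).symm
    | ht b x =>
      rw [ExtS.lift_pt]
      refine Eq.trans ?_ (TensorProduct.rid_tmul (R := A) (M := B) b x).symm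
      exact mul_comm _ _
    | ha x y hx hy => 
      rw [map_add, hx, hy]
      exact (map_add (TensorProduct.rid A B) x y).symm
  have h2 : ⇑(ExtS.lift f (P := A) (N := B) f.toAddMonoidHom hu) = TensorProduct.rid A B :=
    funext h
  rw [h2]
  exact (TensorProduct.rid A B).bijective

theorem ExtS.map_zero_apply {A B : Type} [CommRing A] [CommRing B] (f : A →+* B) {P Q : Type}
    [AddCommGroup P] [Module A P] [AddCommGroup Q] [Module A Q] (w : ExtS f P) :
    ExtS.map f (0 : P →ₗ[A] Q) w = 0 := by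
  let : Module A B := Module.compHom B f
  change LinearMap.lTensor B (0 : P →ₗ[A] Q) w = 0
  rw [LinearMap.lTensor_zero, LinearMap.zero_apply]

theorem cartesian_strCx (n d : ℕ) : Cartesian (strCx n d) := by
  intro X
  refine ⟨unitMCx X.A.R, fun i => inferInstanceAs (Module.Flat X.A.R X.A.R),
    fun i => (LinearMap.id : X.A.R →ₗ[X.A.R] X.A.R), ?_, ?_, ?_⟩
  · intro i j x
    rfl
  · intro i j k _ _
    exact hIso_of_dzero (fun _ => rfl) (fun _ => rfl) (fun _ => rfl) Function.bijective_id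
  · intro Y φ i j k _ _
    exact hIso_of_dzero (ExtS.map_zero_apply (BGHom.f φ).toRingHom)
      (ExtS.map_zero_apply (BGHom.f φ).toRingHom) (fun _ => rfl)
      (ExtS.lift_unit_bijective (BGHom.f φ).toRingHom _)

theorem not_tAcyclic_strCx (n d : ℕ) : ¬ TAcyclic (strCx n d) := by
  intro h
  obtain ⟨y, hy⟩ := h (⟨⟨ℂ⟩⟩ : BGObj n) 0 (show (strCx n d).obj 0 ⟨⟨ℂ⟩⟩ from (1 : ℂ)) rfl
  exact zero_ne_one (α := ℂ) hy

/-- The image of the structure sheaf of `B(SL_n/μ_d)` on `Bun_{SL_n/μ_d}(ℙ¹)`: a twisted `D`-module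
for each twist `s`. -/
noncomputable def strBun (n d : ℕ) (s : ℂ) : TCx (Bun n d) s := (mapCx (Bfun n d s)).obj (strCx n d)

theorem cartesian_strBun (n d : ℕ) (s : ℂ) : Cartesian (strBun n d s) :=
  (presCart_B n d s).cart _ (cartesian_strCx n d)

/-- For each twist there is a cartesian complex on `Bun_{SL_n/μ_d}(ℙ¹)` which is not acyclic. -/
theorem not_tAcyclic_strBun (n : ℕ) {d : ℕ} (hd : 0 < d) (s : ℂ) : ¬ TAcyclic (strBun n d s) := by
  intro h
  obtain ⟨y, hy⟩ := h (triv hd (⟨⟨ℂ⟩⟩ : BGObj n)) 0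
    (show (strBun n d s).obj 0 _ from (1 : Lo (triv hd (⟨⟨ℂ⟩⟩ : BGObj n)).th)) rfl
  have h1 : (0 : Lo (triv hd (⟨⟨ℂ⟩⟩ : BGObj n)).th) = 1 := hy
  have h2 := congrArg (BGHom.f (psi' hd (⟨⟨ℂ⟩⟩ : BGObj n))) h1
  rw [map_zero, map_one] at h2
  exact zero_ne_one (α := ℂ) h2

end Vale.Agent.P286
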