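import Vale.Agent.P286.H211.Fred
import Vale.Agent.P286.H211.Laurent

/-! Toeplitz operators of Laurent matrices. -/

namespace Vale.Agent.P286

open LaurentPolynomial Matrix

noncomputable section

variable {n : ℕ} {A B : Type} [CommRing A] [CommRing B]

theorem toMat_apply (x : Ix n →₀ A) (p q : Fin n) :
    toMat n A x p q = x.sum fun i a => if i.2.1 = p ∧ i.2.2 = q then LaurentPolynomial.C a * T (-(i.1 : ℤ)) else 0 := by
  rw [toMat, Finsupp.linearCombination_apply, Finsupp.sum, Finsupp.sum, Matrix.sum_apply]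
  refine Finset.sum_congr rfl fun i _ => ?_
  rw [Matrix.smul_apply, Matrix.single_apply]
  split_ifs with h
  · rw [LaurentPolynomial.smul_eq_C_mul]
  · simp

theorem toMat_coeff (x : Ix n →₀ A) (p q : Fin n) (l : ℕ) :
    (toMat n A x p q).coeff (-(l : ℤ)) = x (l, p, q) := by
  classical
  rw [toMat_apply, Finsupp.sum, AddMonoidAlgebra.coeff_sum, Finsupp.finsetSum_apply]
  rw [Finset.sum_eq_single (l, p, q)]
  · simp [← single_eq_C_mul_T]
  · rintro ⟨l', p', q'⟩ _ hne
    simp only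
    split_ifs with h
    · obtain ⟨rfl, rfl⟩ := h
      have : l' ≠ l := fun h => hne (by rw [h])
      rw [← single_eq_C_mul_T, AddMonoidAlgebra.coeff_single, Finsupp.single_apply, if_neg (by omega)]
    · simp
  · intro h
    rw [Finsupp.notMem_support_iff.mp h]
    simp

theorem toMat_MLE (x : Ix n →₀ A) : MLE 0 (toMat n A x) := by
  classical
  intro p q m hm
  rw [toMat_apply, Finsupp.sum, AddMonoidAlgebra.coeff_sum, Finsupp.finsetSum_apply]
  refine Finset.sum_eq_zero fun i _ => ?_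
  split_ifs with h
  · rw [← single_eq_C_mul_T, AddMonoidAlgebra.coeff_single, Finsupp.single_apply, if_neg (by omega)]
  · simp

theorem npart_toMat (x : Ix n →₀ A) : npart n A (toMat n A x) = x := by
  ext ⟨l, p, q⟩
  rw [npart_apply, toMat_coeff]

theorem toMat_npart {M : Matrix (Fin n) (Fin n) A[T;T⁻¹]} (h : MLE 0 M) :
    toMat n A (npart n A M) = M := by
  ext p q m
  rcases lt_or_ge 0 m with hm | hm
  · rw [toMat_MLE _ p q m hm, h p q m hm]
  · obtain ⟨l, rfl⟩ : ∃ l : ℕ, m = -(l : ℤ) := ⟨m.natAbs, by omega⟩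
    rw [toMat_coeff, npart_apply]

theorem sub_toMat_npart (M : Matrix (Fin n) (Fin n) A[T;T⁻¹]) :
    MGE 1 (M - toMat n A (npart n A M)) := by
  intro p q m hm
  obtain ⟨l, rfl⟩ : ∃ l : ℕ, m = -(l : ℤ) := ⟨m.natAbs, by omega⟩
  rw [Matrix.sub_apply, AddMonoidAlgebra.coeff_sub, Finsupp.sub_apply, toMat_coeff, npart_apply,
    sub_self]

theorem npart_eq_zero {M : Matrix (Fin n) (Fin n) A[T;T⁻¹]} (h : MGE 1 M) : npart n A M = 0 := by
  ext ⟨l, p, q⟩
  rw [npart_apply]
  exact h p q _ (by omega)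

theorem toep_apply (g : Matrix.GeneralLinearGroup (Fin n) A[T;T⁻¹]) (x : Ix n →₀ A) :
    toep g x = npart n A ((g : Matrix (Fin n) (Fin n) A[T;T⁻¹]) *
      (toMat n A x * ((g⁻¹ : Matrix.GeneralLinearGroup (Fin n) A[T;T⁻¹]) :
        Matrix (Fin n) (Fin n) A[T;T⁻¹]))) := rfl

theorem toep_one : toep (1 : Matrix.GeneralLinearGroup (Fin n) A[T;T⁻¹]) = 1 := by
  apply LinearMap.ext
  intro x
  rw [toep_apply, inv_one, Units.val_one, one_mul, mul_one, npart_toMat, Module.End.one_apply]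

theorem posGL_MGE (a : Matrix.SpecialLinearGroup (Fin n) (Polynomial A)) :
    MGE 0 ((posGL n A a : Matrix.GeneralLinearGroup (Fin n) A[T;T⁻¹]) :
      Matrix (Fin n) (Fin n) A[T;T⁻¹]) := by
  intro p q m hm
  show (Polynomial.toLaurent ((a : Matrix (Fin n) (Fin n) (Polynomial A)) p q)).coeff m = 0
  rw [LaurentPolynomial.coeff_toLaurent]
  apply Finsupp.mapDomain_of_notMem_range
  rintro ⟨l, hl⟩
  have hl' : (l : ℤ) = _ := hl
  omega

theorem negGL_MLE (a : Matrix.SpecialLinearGroup (Fin n) (Polynomial A)) :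
    MLE 0 ((negGL n A a : Matrix.GeneralLinearGroup (Fin n) A[T;T⁻¹]) :
      Matrix (Fin n) (Fin n) A[T;T⁻¹]) := by
  intro p q m hm
  show (invert (Polynomial.toLaurent ((a : Matrix (Fin n) (Fin n) (Polynomial A)) p q))).coeff m = 0
  rw [invert_apply, LaurentPolynomial.coeff_toLaurent]
  apply Finsupp.mapDomain_of_notMem_range
  rintro ⟨l, hl⟩
  have hl' : (l : ℤ) = _ := hl
  omega

theorem toep_pos_mul (a : Matrix.SpecialLinearGroup (Fin n) (Polynomial A))
    (g : Matrix.GeneralLinearGroup (Fin n) A[T;T⁻¹]) :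
    toep (posGL n A a * g) = toep (posGL n A a) * toep g := by
  apply LinearMap.ext
  intro x
  rw [Module.End.mul_apply, toep_apply, toep_apply (posGL n A a), toep_apply g]
  set P := ((posGL n A a : Matrix.GeneralLinearGroup (Fin n) A[T;T⁻¹]) :
      Matrix (Fin n) (Fin n) A[T;T⁻¹]) with hP
  set P' := (((posGL n A a)⁻¹ : Matrix.GeneralLinearGroup (Fin n) A[T;T⁻¹]) :
      Matrix (Fin n) (Fin n) A[T;T⁻¹]) with hP'
  have h1 : MGE 0 P := posGL_MGE a
  have h2 : MGE 0 P' := by rw [hP', ← map_inv]; exact posGL_MGE a⁻¹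
  set M := (g : Matrix (Fin n) (Fin n) A[T;T⁻¹]) *
      (toMat n A x * ((g⁻¹ : Matrix.GeneralLinearGroup (Fin n) A[T;T⁻¹]) :
        Matrix (Fin n) (Fin n) A[T;T⁻¹])) with hM
  have e : ((posGL n A a * g : Matrix.GeneralLinearGroup (Fin n) A[T;T⁻¹]) :
        Matrix (Fin n) (Fin n) A[T;T⁻¹]) *
      (toMat n A x * (((posGL n A a * g)⁻¹ : Matrix.GeneralLinearGroup (Fin n) A[T;T⁻¹]) :
        Matrix (Fin n) (Fin n) A[T;T⁻¹])) = P * (M * P') := by
    rw [_root_.mul_inv_rev, Units.val_mul, Units.val_mul, hM]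
    simp only [Matrix.mul_assoc, hP, hP']
  rw [e]
  have e2 : P * (M * P') = P * (toMat n A (npart n A M) * P') +
      P * ((M - toMat n A (npart n A M)) * P') := by
    rw [← Matrix.mul_add, ← Matrix.add_mul]
    simp
  rw [e2, map_add]
  have h3 : MGE 1 (P * ((M - toMat n A (npart n A M)) * P')) := by
    have := h1.mul ((sub_toMat_npart M).mul h2)
    simpa using this
  rw [npart_eq_zero h3, add_zero]

theorem toep_mul_neg (g : Matrix.GeneralLinearGroup (Fin n) A[T;T⁻¹])
    (b : Matrix.SpecialLinearGroup (Fin n) (Polynomial A)) :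
    toep (g * negGL n A b) = toep g * toep (negGL n A b) := by
  apply LinearMap.ext
  intro x
  rw [Module.End.mul_apply, toep_apply, toep_apply g, toep_apply (negGL n A b)]
  set P := ((negGL n A b : Matrix.GeneralLinearGroup (Fin n) A[T;T⁻¹]) :
      Matrix (Fin n) (Fin n) A[T;T⁻¹]) with hP
  set P' := (((negGL n A b)⁻¹ : Matrix.GeneralLinearGroup (Fin n) A[T;T⁻¹]) :
      Matrix (Fin n) (Fin n) A[T;T⁻¹]) with hP'
  have h1 : MLE 0 P := negGL_MLE b
  have h2 : MLE 0 P' := by rw [hP', ← map_inv]; exact negGL_MLE b⁻¹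
  have h3 : MLE 0 (P * (toMat n A x * P')) := by
    have := h1.mul ((toMat_MLE x).mul h2)
    simpa using this
  rw [toMat_npart h3]
  congr 1
  rw [_root_.mul_inv_rev, Units.val_mul, Units.val_mul]
  simp only [Matrix.mul_assoc, hP, hP']

theorem toMat_single (i : Ix n) :
    toMat n A (Finsupp.single i 1) = Matrix.single i.2.1 i.2.2 (T (-(i.1 : ℤ))) := by
  rw [toMat, Finsupp.linearCombination_single, one_smul]

theorem npart_map (f : A →+* B) (M : Matrix (Fin n) (Fin n) A[T;T⁻¹]) :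
    npart n B (M.map (lmap f)) = (npart n A M).mapRange f (map_zero f) := by
  ext i
  rw [npart_apply, Finsupp.mapRange_apply, npart_apply, Matrix.map_apply, lmap,
    AddMonoidAlgebra.coeff_mapRingHom]

theorem lmap_T (f : A →+* B) (k : ℤ) : lmap f (T k) = T k := by
  rw [lmap, T, AddMonoidAlgebra.mapRingHom_single, map_one]; rfl

theorem bc_toep (f : A →+* B) (g : Matrix.GeneralLinearGroup (Fin n) A[T;T⁻¹]) :
    bc f (toep g) = toep (Matrix.GeneralLinearGroup.map (lmap f) g) := by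
  refine end_ext_single fun i => ?_
  rw [bc_single, toep_apply, toep_apply, ← npart_map, toMat_single, toMat_single]
  congr 1
  rw [Matrix.map_mul, Matrix.map_mul, ← map_inv]
  congr 2
  ext p q
  rw [Matrix.map_apply, Matrix.single_apply, Matrix.single_apply]
  split_ifs
  · rw [lmap_T]
  · rw [map_zero]

theorem isUnit_toep_pos (a : Matrix.SpecialLinearGroup (Fin n) (Polynomial A)) :
    toep (posGL n A a) * toep (posGL n A a⁻¹) = 1 := by
  rw [← toep_pos_mul, ← map_mul, mul_inv_cancel, map_one, toep_one]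

theorem isUnit_toep_neg (a : Matrix.SpecialLinearGroup (Fin n) (Polynomial A)) :
    toep (negGL n A a) * toep (negGL n A a⁻¹) = 1 := by
  rw [← toep_mul_neg, ← map_mul, mul_inv_cancel, map_one, toep_one]

end

end Vale.Agent.P286
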